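import Vale.Agent.Lib.P368.D3.CircuitFrame

/-! The error of removing gates from the first layer of a circuit. -/

namespace Vale.Agent.Lib.P368

open Matrix Finset
open scoped Matrix.Norms.L2Operator InnerProductSpace ComplexConjugate

set_option linter.unusedSectionVars false
set_option linter.unusedSimpArgs false
set_option linter.unusedVariables false

variable {n : ℕ} {A : Type} [Fintype A] [DecidableEq A]

lemma list_sum_split {G : Type} (L : List G) (f : G → ℝ) (p : G → Bool) (B a : ℝ)
    (h1 : ∀ g ∈ L, p g = true → f g ≤ B) (h2 : ∀ g ∈ L, p g = false → f g ≤ a) :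
    (L.map f).sum ≤ (L.filter p).length * B + (L.filter fun g => !p g).length * a := by
  induction L with
  | nil => simp
  | cons x L ih =>
    have h3 := ih (fun g hg => h1 g (List.mem_cons_of_mem _ hg))
      (fun g hg => h2 g (List.mem_cons_of_mem _ hg))
    cases hp : p x with
    | false =>
      have h4 := h2 x List.mem_cons_self hp
      simp only [List.map_cons, List.sum_cons, List.filter_cons, hp, Bool.false_eq_true, if_false,
        Bool.not_false, if_true, List.length_cons]
      push_cast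
      linarith
    | true =>
      have h4 := h1 x List.mem_cons_self hp
      simp only [List.map_cons, List.sum_cons, List.filter_cons, hp, Bool.not_true,
        Bool.false_eq_true, if_false, if_true, List.length_cons]
      push_cast
      linarith

section Terms

variable (C : Circuit3 (Fin n ⊕ A)) (Tk : List (Toffoli (Fin n ⊕ A)))
    (hTk : Tk.Pairwise fun g h => Disjoint g.supp h.supp) (Pool : Finset (Fin n))
    (y0 : Fin n → Bool)
    (hq0 : ∀ g ∈ Tk, ∀ i ∈ Pool, ∀ j ∈ Pool, (Sum.inl i : Fin n ⊕ A) ∈ g.supp →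
      (Sum.inl j : Fin n ⊕ A) ∈ g.supp → i = j)

lemma norm_pi_L0_sq (g : Toffoli (Fin n ⊕ A)) (s : Fin n ⊕ A → Bool) :
    ‖act (tp g.pi) (act (tp C.L0) (e s))‖ ^ 2
      = ∏ q, ‖act (g.pi q) (act (C.L0 q) (e (s q)))‖ ^ 2 := by
  rw [e_eq_pv, act_tp_pv, act_tp_pv, norm_pv_sq]

lemma factor_le_one (g : Toffoli (Fin n ⊕ A)) (q : Fin n ⊕ A) (b : Bool) :
    ‖act (g.pi q) (act (C.L0 q) (e b))‖ ^ 2 ≤ 1 := by
  have h := norm_act_proj_le (g.pi_proj q) (act (C.L0 q) (e b))
  rw [norm_act_of_star_mul _ (Matrix.mem_unitaryGroup_iff'.mp (C.L0_unitary q)), norm_e] at h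
  simpa using h

lemma factor_eq_pa {l : Fin Tk.length} {q : Fin n ⊕ A} (hq : q ∈ (Tk.get l).supp) (b : Bool) :
    ‖act ((Tk.get l).pi q) (act (C.L0 q) (e b))‖ ^ 2
      = ‖act ((circFrame C Tk hTk Pool y0 hq0).pt q) ((circFrame C Tk hTk Pool y0 hq0).v q b)‖ ^ 2 := by
  have h1 : (circFrame C Tk hTk Pool y0 hq0).pt q = C.L1 q * (Tk.get l).pi q * star (C.L1 q) :=
    kb_dirOf ((gateIdx_eq_some hTk q l).mpr hq) hTk
  have h2 : (circFrame C Tk hTk Pool y0 hq0).v q b = act (C.L1 q * C.L0 q) (e b) := rfl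
  rw [h1, h2, act_mul, act_mul, act_mul, ← act_mul (star (C.L1 q)) (C.L1 q),
    Matrix.mem_unitaryGroup_iff'.mp (C.L1_unitary q), act_one,
    norm_act_of_star_mul _ (Matrix.mem_unitaryGroup_iff'.mp (C.L1_unitary q))]

lemma low_term {a0 : ℝ} {i : {i // i ∈ Pool}}
    (hhi : (circFrame C Tk hTk Pool y0 hq0).hi a0 i = false) {g : Toffoli (Fin n ⊕ A)}
    (hg : g ∈ Tk) (hig : (Sum.inl i.1 : Fin n ⊕ A) ∈ g.supp) (z : {i // i ∈ Pool} → Bool) :
    ‖act (tp g.pi) (act (tp C.L0) (e (inputString (glue Pool y0 z))))‖ ^ 2 ≤ a0 := by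
  obtain ⟨l, rfl⟩ := List.get_of_mem hg
  set F := circFrame C Tk hTk Pool y0 hq0 with hF
  have hb : F.bt (F.q0 i) = some l := (gateIdx_eq_some hTk _ _).mpr hig
  rw [norm_pi_L0_sq]
  set s := inputString (glue Pool y0 z) with hs
  set f : Fin n ⊕ A → ℝ := fun q => ‖act ((Tk.get l).pi q) (act (C.L0 q) (e (s q)))‖ ^ 2 with hf
  have hf0 : ∀ q, 0 ≤ f q := fun q => by positivity
  have hf1 : ∀ q, f q ≤ 1 := fun q => factor_le_one C _ q _
  set Sg := (F.trueB i).erase (F.q0 i) with hSg
  have h1 : ∏ q, f q ≤ ∏ q ∈ Sg, f q := by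
    rw [← Finset.prod_mul_prod_compl Sg]
    have h2 : ∏ q ∈ Sgᶜ, f q ≤ 1 := Finset.prod_le_one (fun q _ => hf0 q) fun q _ => hf1 q
    have h3 : 0 ≤ ∏ q ∈ Sg, f q := Finset.prod_nonneg fun q _ => hf0 q
    nlinarith
  have h2 : ∏ q ∈ Sg, f q = F.aP i := by
    unfold Frame.aP
    refine Finset.prod_congr rfl fun q hq => ?_
    have hq1 : q ≠ F.q0 i := Finset.ne_of_mem_erase hq
    have hq2 : q ∈ F.trueB i := Finset.mem_of_mem_erase hq
    have hq3 : F.bt q = some l := by
      rw [F.trueB_gate hb] at hq2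
      exact (Finset.mem_filter.mp hq2).2
    have hq4 : q ∈ (Tk.get l).supp := (gateIdx_eq_some hTk q l).mp hq3
    have hq5 : ¬ ∃ j, q = F.q0 j := by
      rintro ⟨j, rfl⟩
      have := F.input_in_trueB hq2
      exact hq1 (by rw [this])
    have hq6 : s q = F.b0 q := by
      rw [hs, ← circFrame_bitOf C Tk hTk Pool y0 hq0 z q]
      exact F.bitOf_other z hq5
    simp only [hf]
    rw [hq6, factor_eq_pa C Tk hTk Pool y0 hq0 hq4]
    rfl
  have h3 : F.aP i < a0 := by
    have h4 := hhi
    unfold Frame.hi at h4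
    rw [hb] at h4
    simpa using h4
  rw [h2] at h1
  linarith

end Terms

section Close

variable (C : Circuit3 (Fin n ⊕ A)) (big : Toffoli (Fin n ⊕ A) → Bool) (Pool : Finset (Fin n))
    (y0 : Fin n → Bool)
    (hq0 : ∀ g ∈ C.T1.filter (fun g => !big g), ∀ i ∈ Pool, ∀ j ∈ Pool,
      (Sum.inl i : Fin n ⊕ A) ∈ g.supp → (Sum.inl j : Fin n ⊕ A) ∈ g.supp → i = j)

/-- The frame of the circuit with the big gates removed. -/
noncomputable abbrev cF : Frame (Fin n ⊕ A) {i // i ∈ Pool}
    (Fin (C.T1.filter (fun g => !big g)).length) (Fin C.T2.length) :=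
  circFrame C (C.T1.filter (fun g => !big g)) (C.T1_disjoint.filter _) Pool y0 hq0

/-- The state of the circuit with removed gates. -/
lemma Tkept_state (a0 : ℝ) (S : Finset {i // i ∈ Pool}) (z : {i // i ∈ Pool} → Bool) :
    act ((cF C big Pool y0 hq0).Tkept a0 S) (pv ((cF C big Pool y0 hq0).uz z))
      = act (tp C.L1) (act (gateLayer ((C.T1.filter fun g => !big g).filter
          fun g => !lowG C _ (C.T1_disjoint.filter _) Pool y0 hq0 a0 S g))
        (act (tp C.L0) (e (inputString (glue Pool y0 z))))) := by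
  rw [circFrame_Tkept, circFrame_pv]
  obtain ⟨h1, -⟩ := tp_unitary C.L1_unitary
  rw [act_mul, act_mul, ← act_mul (star (tp C.L1)) (tp C.L1), h1, act_one]

/-- The distance between the state of the circuit and the state with removed gates. -/
lemma close_sq (a0 : ℝ) (S : Finset {i // i ∈ Pool}) (z : {i // i ∈ Pool} → Bool) :
    ‖act C.head (e (inputString (glue Pool y0 z)))
        - act ((cF C big Pool y0 hq0).Tkept a0 S) (pv ((cF C big Pool y0 hq0).uz z))‖ ^ 2
      ≤ 4 * ((C.T1.filter fun g => big g || lowG C _ (C.T1_disjoint.filter _) Pool y0 hq0 a0 S g).map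
          fun g => ‖act (tp g.pi) (act (tp C.L0) (e (inputString (glue Pool y0 z))))‖ ^ 2).sum := by
  rw [Tkept_state]
  set s := inputString (glue Pool y0 z) with hs
  set low := lowG C _ (C.T1_disjoint.filter _) Pool y0 hq0 a0 S with hlow
  set u0 := act (tp C.L0) (e s : Vec (Fin n ⊕ A → Bool)) with hu0
  have h1 : act C.head (e s) = act (tp C.L1) (act (gateLayer C.T1) u0) := by
    simp only [Circuit3.head, act_mul, hu0]
  rw [h1, ← act_vsub, norm_act_of_star_mul _ (tp_unitary C.L1_unitary).1]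
  have h2 := removal C.T1 C.T1_disjoint (fun g => big g || low g) u0
  have h3 : ((C.T1.filter fun g => !big g).filter fun g => !low g)
      = C.T1.filter fun g => !(big g || low g) := by
    rw [List.filter_filter]
    congr 1
    funext g
    cases big g <;> cases low g <;> rfl
  rw [h3]
  exact h2

/-- The bound on the distance. -/
lemma close_bound {a0 : ℝ} (S : Finset {i // i ∈ Pool}) (z : {i // i ∈ Pool} → Bool) (B : ℝ)
    (hB : ∀ g ∈ C.T1, big g = true →
      ‖act (tp g.pi) (act (tp C.L0) (e (inputString (glue Pool y0 z))))‖ ^ 2 ≤ B) (hB0 : 0 ≤ B)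
    (ha0 : 0 ≤ a0) :
    ‖act C.head (e (inputString (glue Pool y0 z)))
        - act ((cF C big Pool y0 hq0).Tkept a0 S) (pv ((cF C big Pool y0 hq0).uz z))‖ ^ 2
      ≤ 4 * ((C.T1.filter big).length * B + S.card * a0) := by
  refine (close_sq C big Pool y0 hq0 a0 S z).trans ?_
  refine mul_le_mul_of_nonneg_left ?_ (by norm_num)
  set s := inputString (glue Pool y0 z) with hs
  set low := lowG C _ (C.T1_disjoint.filter _) Pool y0 hq0 a0 S with hlow
  set T0 := C.T1.filter fun g => big g || low g with hT0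
  have hlow' : ∀ g, low g = true → ∃ i : {j // j ∈ S}, (cF C big Pool y0 hq0).hi a0 i.1 = false ∧
      (Sum.inl i.1.1 : Fin n ⊕ A) ∈ g.supp := by
    intro g hg
    exact of_decide_eq_true hg
  have h1 := list_sum_split T0 (fun g => ‖act (tp g.pi) (act (tp C.L0) (e s))‖ ^ 2) big B a0
    (fun g hg hb => hB g (List.mem_filter.mp hg).1 hb)
    (fun g hg hb => by
      obtain ⟨hg1, hg2⟩ := List.mem_filter.mp hg
      have hg3 : low g = true := by simpa [hb] using hg2
      obtain ⟨i, hi1, hi2⟩ := hlow' g hg3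
      refine low_term C _ (C.T1_disjoint.filter _) Pool y0 hq0 hi1 ?_ hi2 z
      exact List.mem_filter.mpr ⟨hg1, by simp [hb]⟩)
  refine h1.trans ?_
  have h2 : (T0.filter big).length ≤ (C.T1.filter big).length := by
    refine List.Sublist.length_le (List.Sublist.filter big ?_)
    exact List.filter_sublist
  have h3 : (T0.filter fun g => !big g).length ≤ S.card := by
    have h4 := list_disjoint_count (α := {j // j ∈ S})
      (fun g => Finset.univ.filter fun i : {j // j ∈ S} => (Sum.inl i.1.1 : Fin n ⊕ A) ∈ g.supp) 1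
      (T0.filter fun g => !big g)
      (((C.T1_disjoint.filter _).filter _).imp fun {a b} hab => by
        rw [Finset.disjoint_left]
        intro i hi hi'
        exact Finset.disjoint_left.mp hab (Finset.mem_filter.mp hi).2 (Finset.mem_filter.mp hi').2)
      (fun g hg => by
        obtain ⟨hg1, hg2⟩ := List.mem_filter.mp hg
        obtain ⟨hg3, hg4⟩ := List.mem_filter.mp hg1
        have hb : big g = false := by simpa using hg2
        have hg5 : low g = true := by simpa [hb] using hg4
        obtain ⟨i, hi1, hi2⟩ := hlow' g hg5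
        exact Finset.card_pos.mpr ⟨i, Finset.mem_filter.mpr ⟨Finset.mem_univ _, hi2⟩⟩)
    rw [mul_one, Fintype.card_coe] at h4
    exact h4
  have h5 : ((T0.filter big).length : ℝ) ≤ (C.T1.filter big).length := by exact_mod_cast h2
  have h6 : ((T0.filter fun g => !big g).length : ℝ) ≤ S.card := by exact_mod_cast h3
  gcongr

end Close

end Vale.Agent.Lib.P368
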