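import Vale.Agent.Lib.P368.D3.CircuitLayer

/-! The frame of a circuit. -/

namespace Vale.Agent.Lib.P368

open Matrix Finset
open scoped Matrix.Norms.L2Operator InnerProductSpace ComplexConjugate

set_option linter.unusedSectionVars false
set_option linter.unusedSimpArgs false
set_option linter.unusedVariables false

section Basis

variable {Q : Type} [Fintype Q] [DecidableEq Q]

lemma e_eq_pv (s : Q → Bool) : (e s : Vec (Q → Bool)) = pv (fun q => (e (s q) : V2)) := by
  ext t
  rw [pv_apply]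
  simp only [e_apply_bool]
  by_cases h : t = s
  · subst h
    simp [e, PiLp.single_apply]
  · obtain ⟨q, hq⟩ := Function.ne_iff.mp h
    rw [Finset.prod_eq_zero (Finset.mem_univ q) (if_neg hq)]
    simp [e, PiLp.single_apply, h]

end Basis

variable {n : ℕ} {A : Type} [Fintype A] [DecidableEq A]

/-- The frame of a circuit, for a list of kept gates of the first layer and a pool of inputs. -/
noncomputable def circFrame (C : Circuit3 (Fin n ⊕ A)) (Tk : List (Toffoli (Fin n ⊕ A)))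
    (hTk : Tk.Pairwise fun g h => Disjoint g.supp h.supp) (Pool : Finset (Fin n))
    (y0 : Fin n → Bool)
    (hq0 : ∀ g ∈ Tk, ∀ i ∈ Pool, ∀ j ∈ Pool, (Sum.inl i : Fin n ⊕ A) ∈ g.supp →
      (Sum.inl j : Fin n ⊕ A) ∈ g.supp → i = j) :
    Frame (Fin n ⊕ A) {i // i ∈ Pool} (Fin Tk.length) (Fin C.T2.length) where
  bt := gateIdx Tk
  c := dirOf C.L1 Tk
  gt := gateIdx C.T2
  p := dirOf (fun _ => 1) C.T2
  U q := C.L1 q * C.L0 q
  q0 j := Sum.inl j.1
  b0 := inputString y0
  c_unit := norm_dirOf C.L1_unitary Tk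
  p_unit := norm_dirOf (fun _ => one_mem _) C.T2
  U_unit q := mul_mem (C.L1_unitary q) (C.L0_unitary q)
  q0_inj := fun a b h => Subtype.ext (Sum.inl_injective h)
  q0_gate := fun j j' h h1 h2 => Subtype.ext (hq0 (Tk.get h) (List.get_mem _ _) _ j.2 _ j'.2
    ((gateIdx_eq_some hTk _ _).mp h1) ((gateIdx_eq_some hTk _ _).mp h2))

section Ids

variable (C : Circuit3 (Fin n ⊕ A)) (Tk : List (Toffoli (Fin n ⊕ A)))
    (hTk : Tk.Pairwise fun g h => Disjoint g.supp h.supp) (Pool : Finset (Fin n))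
    (y0 : Fin n → Bool)
    (hq0 : ∀ g ∈ Tk, ∀ i ∈ Pool, ∀ j ∈ Pool, (Sum.inl i : Fin n ⊕ A) ∈ g.supp →
      (Sum.inl j : Fin n ⊕ A) ∈ g.supp → i = j)

lemma circFrame_T2 : (circFrame C Tk hTk Pool y0 hq0).T2 = gateLayer C.T2 := by
  have h := Ty_layer C.T2_disjoint (W := fun _ => (1 : M2)) (fun _ => one_mem _) (fun _ => false)
    (fun _ => 1) (by simp) (Finset.univ : Finset (Fin C.T2.length)).toList
    (Finset.nodup_toList _) (fun l => Finset.mem_toList.mpr (Finset.mem_univ l))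
  have h1 : tp (fun _ : Fin n ⊕ A => (1 : M2)) = 1 := tp_one
  rw [h1] at h
  simp only [Bool.not_false, List.filter_true, star_one, one_mul, mul_one] at h
  exact h

open Classical in
/-- The gates removed by the choice of a set of selected inputs. -/
noncomputable def lowG (a0 : ℝ) (S : Finset {i // i ∈ Pool}) (g : Toffoli (Fin n ⊕ A)) : Bool :=
  decide (∃ i : {j // j ∈ S}, (circFrame C Tk hTk Pool y0 hq0).hi a0 i.1 = false ∧
    (Sum.inl i.1.1 : Fin n ⊕ A) ∈ g.supp)

lemma circFrame_Tkept (a0 : ℝ) (S : Finset {i // i ∈ Pool}) :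
    (circFrame C Tk hTk Pool y0 hq0).Tkept a0 S
      = tp C.L1 * gateLayer (Tk.filter fun g => !lowG C Tk hTk Pool y0 hq0 a0 S g)
        * star (tp C.L1) := by
  refine Ty_layer hTk C.L1_unitary (lowG C Tk hTk Pool y0 hq0 a0 S) _ ?_ _ Frame.LH_nodup
    Frame.mem_LH
  intro l
  unfold Frame.yKept lowG
  have h1 : (∃ i : {j // j ∈ S}, (circFrame C Tk hTk Pool y0 hq0).hi a0 i.1 = false ∧
      (circFrame C Tk hTk Pool y0 hq0).bt ((circFrame C Tk hTk Pool y0 hq0).q0 i.1) = some l) ↔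
      (∃ i : {j // j ∈ S}, (circFrame C Tk hTk Pool y0 hq0).hi a0 i.1 = false ∧
      (Sum.inl i.1.1 : Fin n ⊕ A) ∈ (Tk.get l).supp) := by
    refine exists_congr fun i => and_congr_right fun _ => ?_
    exact gateIdx_eq_some hTk _ _
  by_cases h2 : ∃ i : {j // j ∈ S}, (circFrame C Tk hTk Pool y0 hq0).hi a0 i.1 = false ∧
      (Sum.inl i.1.1 : Fin n ⊕ A) ∈ (Tk.get l).supp
  · rw [if_pos (h1.mpr h2), decide_eq_true h2]
    rfl
  · rw [if_neg (fun h3 => h2 (h1.mp h3)), decide_eq_false h2]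
    rfl

lemma circFrame_bitOf (z : {i // i ∈ Pool} → Bool) (q : Fin n ⊕ A) :
    (circFrame C Tk hTk Pool y0 hq0).bitOf z q = inputString (glue Pool y0 z) q := by
  cases q with
  | inl i =>
    by_cases hi : i ∈ Pool
    · have h1 := (circFrame C Tk hTk Pool y0 hq0).bitOf_q0 z ⟨i, hi⟩
      refine h1.trans ?_
      simp [inputString, glue, hi]
    · have h1 : ¬ ∃ j, (Sum.inl i : Fin n ⊕ A) = (circFrame C Tk hTk Pool y0 hq0).q0 j := by
        rintro ⟨j, hj⟩
        have hj' : i = j.1 := Sum.inl_injective hj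
        exact hi (hj' ▸ j.2)
      rw [(circFrame C Tk hTk Pool y0 hq0).bitOf_other z h1]
      simp [circFrame, inputString, glue, hi]
  | inr a =>
    have h1 : ¬ ∃ j, (Sum.inr a : Fin n ⊕ A) = (circFrame C Tk hTk Pool y0 hq0).q0 j := by
      rintro ⟨j, hj⟩
      cases hj
    rw [(circFrame C Tk hTk Pool y0 hq0).bitOf_other z h1]
    simp [circFrame, inputString]

lemma circFrame_pv (z : {i // i ∈ Pool} → Bool) :
    pv ((circFrame C Tk hTk Pool y0 hq0).uz z)
      = act (tp C.L1) (act (tp C.L0) (e (inputString (glue Pool y0 z)))) := by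
  rw [e_eq_pv, act_tp_pv, act_tp_pv]
  congr 1
  funext q
  unfold Frame.uz Frame.v
  rw [circFrame_bitOf]
  show act (C.L1 q * C.L0 q) _ = _
  rw [act_mul]

end Ids

end Vale.Agent.Lib.P368
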