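import Vale.Agent.Lib.P368.D3.CircuitObs
import Vale.Agent.Lib.P368.Main

/-! Gate layers of a circuit as weighted reflections of a frame. -/

namespace Vale.Agent.Lib.P368

open Matrix Finset
open scoped Matrix.Norms.L2Operator InnerProductSpace ComplexConjugate

set_option linter.unusedSectionVars false
set_option linter.unusedSimpArgs false
set_option linter.unusedVariables false

variable {Q : Type} [Fintype Q] [DecidableEq Q]

/-- The index of the gate of a layer touching a qubit. -/
noncomputable def gateIdx (T : List (Toffoli Q)) (q : Q) : Option (Fin T.length) :=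
  open Classical in if h : ∃ l : Fin T.length, q ∈ (T.get l).supp then some h.choose else none

lemma get_disjoint {T : List (Toffoli Q)} (hd : T.Pairwise fun g h => Disjoint g.supp h.supp)
    {l l' : Fin T.length} (hne : l ≠ l') : Disjoint (T.get l).supp (T.get l').supp := by
  rw [List.pairwise_iff_get] at hd
  rcases lt_or_gt_of_ne hne with h | h
  · exact hd l l' h
  · exact (hd l' l h).symm

lemma gateIdx_eq_some {T : List (Toffoli Q)} (hd : T.Pairwise fun g h => Disjoint g.supp h.supp)
    (q : Q) (l : Fin T.length) : gateIdx T q = some l ↔ q ∈ (T.get l).supp := by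
  unfold gateIdx
  constructor
  · intro h
    split_ifs at h with hex
    have h1 := hex.choose_spec
    have h2 : hex.choose = l := Option.some.inj h
    rwa [h2] at h1
  · intro h
    have hex : ∃ l : Fin T.length, q ∈ (T.get l).supp := ⟨l, h⟩
    rw [dif_pos hex]
    congr 1
    by_contra hne
    exact Finset.disjoint_left.mp (get_disjoint hd hne) hex.choose_spec h

/-- The unit vector of the one-qubit projector of a layer at a qubit. -/
noncomputable def dir0 (T : List (Toffoli Q)) (q : Q) : V2 :=
  match gateIdx T q with
  | some l => if q = (T.get l).target then minusV else e true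
  | none => e false

lemma norm_dir0 (T : List (Toffoli Q)) (q : Q) : ‖dir0 T q‖ = 1 := by
  unfold dir0
  cases gateIdx T q with
  | none => exact norm_e _
  | some l =>
    simp only
    split_ifs
    · exact norm_minusV
    · exact norm_e _

lemma pi_eq_dir0 {T : List (Toffoli Q)} {q : Q} {l : Fin T.length} (h : gateIdx T q = some l)
    (hd : T.Pairwise fun g h => Disjoint g.supp h.supp) :
    (T.get l).pi q = kb (dir0 T q) (dir0 T q) := by
  have hq := (gateIdx_eq_some hd q l).mp h
  unfold dir0
  rw [h]
  simp only
  unfold Toffoli.pi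
  by_cases h1 : q = (T.get l).target
  · rw [if_pos h1, if_pos h1, Pm_eq_kb]
  · have h2 : q ∈ (T.get l).controls := by
      rcases Finset.mem_insert.mp hq with h3 | h3
      · exact absurd h3 h1
      · exact h3
    rw [if_neg h1, if_neg h1, if_pos h2, P1_eq_kb]

/-- The unit vector of the conjugated one-qubit projector of a layer. -/
noncomputable def dirOf (W : Q → M2) (T : List (Toffoli Q)) (q : Q) : V2 := act (W q) (dir0 T q)

lemma norm_dirOf {W : Q → M2} (hW : ∀ q, W q ∈ Matrix.unitaryGroup Bool ℂ) (T : List (Toffoli Q))
    (q : Q) : ‖dirOf W T q‖ = 1 := by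
  unfold dirOf
  rw [norm_act_of_star_mul _ (Matrix.mem_unitaryGroup_iff'.mp (hW q)), norm_dir0]

lemma kb_dirOf {W : Q → M2} {T : List (Toffoli Q)} {q : Q} {l : Fin T.length}
    (h : gateIdx T q = some l) (hd : T.Pairwise fun g h => Disjoint g.supp h.supp) :
    kb (dirOf W T q) (dirOf W T q) = W q * (T.get l).pi q * star (W q) := by
  rw [pi_eq_dir0 h hd, mul_kb, kb_mul, star_star]
  rfl

lemma gateP_layer {T : List (Toffoli Q)} (hd : T.Pairwise fun g h => Disjoint g.supp h.supp)
    {W : Q → M2} (hW : ∀ q, W q ∈ Matrix.unitaryGroup Bool ℂ) (l : Fin T.length) :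
    gateP (gateIdx T) (fun q => kb (dirOf W T q) (dirOf W T q)) l
      = tp W * tp (T.get l).pi * star (tp W) := by
  unfold gateP
  rw [tp_star, tp_mul, tp_mul]
  congr 1
  funext q
  by_cases h : gateIdx T q = some l
  · rw [if_pos h]
    exact kb_dirOf h hd
  · rw [if_neg h, (T.get l).pi_off q (fun hq => h ((gateIdx_eq_some hd q l).mpr hq)), mul_one]
    exact (Matrix.mem_unitaryGroup_iff.mp (hW q)).symm

lemma lprod_conj_ite {G : Type} {W : Op Q} (hW : star W * W = 1) (b : G → Bool) (f : G → Op Q)
    (hW' : W * star W = 1) (T : List G) :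
    lprod (fun g => if b g then 1 else W * f g * star W) T
      = W * lprod (fun g => if b g then 1 else f g) T * star W := by
  induction T with
  | nil =>
    simp [lprod_nil, hW']
  | cons a T ih =>
    rw [lprod_cons, lprod_cons, ih]
    by_cases hb : b a = true
    · simp [hb]
    · simp only [hb, if_false, Bool.false_eq_true]
      calc W * f a * star W * (W * lprod (fun g => if b g then 1 else f g) T * star W)
          = W * f a * (star W * W) * lprod (fun g => if b g then 1 else f g) T * star W := by
            simp only [mul_assoc]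
        _ = _ := by rw [hW, mul_one]; simp only [mul_assoc]

/-- **A gate layer, conjugated by a one-qubit layer, with some gates removed, as a weighted product
of reflections in a frame.** -/
theorem Ty_layer {T : List (Toffoli Q)} (hd : T.Pairwise fun g h => Disjoint g.supp h.supp)
    {W : Q → M2} (hW : ∀ q, W q ∈ Matrix.unitaryGroup Bool ℂ) (b : Toffoli Q → Bool)
    (y : Fin T.length → ℂ) (hy : ∀ l, y l = if b (T.get l) then 0 else 1)
    (L : List (Fin T.length)) (hL : L.Nodup) (hall : ∀ l, l ∈ L) :
    Ty (gateIdx T) (fun q => kb (dirOf W T q) (dirOf W T q)) y L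
      = tp W * gateLayer (T.filter fun g => !b g) * star (tp W) := by
  obtain ⟨h1, h2⟩ := tp_unitary hW
  have h3 : Ty (gateIdx T) (fun q => kb (dirOf W T q) (dirOf W T q)) y L
      = Ty (gateIdx T) (fun q => kb (dirOf W T q) (dirOf W T q)) y (List.finRange T.length) := by
    rw [Ty_expand _ _ _ _ hL hall, Ty_expand _ _ _ _ (List.nodup_finRange _) (List.mem_finRange)]
  rw [h3]
  unfold Ty
  have h4 : lprod (fun l => 1 - (2 * y l) • gateP (gateIdx T)
      (fun q => kb (dirOf W T q) (dirOf W T q)) l) (List.finRange T.length)
      = lprod (fun g => if b g then 1 else tp W * gateOf g.pi * star (tp W)) T := by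
    unfold lprod
    conv_rhs => rw [← List.map_get_finRange T]
    rw [List.map_map]
    congr 1
    refine List.map_congr_left fun l _ => ?_
    simp only [Function.comp]
    rw [hy l, gateP_layer hd hW l]
    by_cases hb : b (T.get l) = true
    · rw [if_pos hb, if_pos hb]
      simp
    · rw [if_neg hb, if_neg hb]
      unfold gateOf refl
      have h5 : tp W * (1 - (2 : ℂ) • tp (T.get l).pi) * star (tp W)
          = tp W * star (tp W) - (2 : ℂ) • (tp W * tp (T.get l).pi * star (tp W)) := by
        simp only [mul_sub, sub_mul, mul_one, mul_smul_comm, smul_mul_assoc]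
      rw [h5, h2, mul_one]
  rw [h4, lprod_conj_ite h1 b _ h2, lprod_filter_ite, gateLayer_eq]

end Vale.Agent.Lib.P368
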