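import Vale.Agent.Lib.P368.D3.CircuitClose

/-! The main bound for circuits of entangling depth three. -/

namespace Vale.Agent.Lib.P368

open Matrix Finset
open scoped Matrix.Norms.L2Operator InnerProductSpace ComplexConjugate

set_option linter.unusedSectionVars false
set_option linter.unusedSimpArgs false
set_option linter.unusedVariables false

variable {n : ℕ} {A : Type} [Fintype A] [DecidableEq A]

lemma sgnOf_parityOf (x : Fin n → Bool) : sgnOf (parityOf x) = ∏ i, sgnOf (x i) := by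
  have h1 : ∏ i, sgnOf (x i) = (-1 : ℝ) ^ (Finset.univ.filter fun i => x i = true).card := by
    unfold sgnOf
    rw [Finset.prod_ite]
    simp
  rw [h1]
  unfold parityOf
  by_cases h : Odd (Finset.univ.filter fun i => x i = true).card
  · simp [h, sgnOf, h.neg_one_pow]
  · have h2 := Nat.not_odd_iff_even.mp h
    simp [h, sgnOf, h2.neg_one_pow]

lemma prod_sgn_glue (P : Finset (Fin n)) (y0 : Fin n → Bool) (z : {i // i ∈ P} → Bool) :
    ∏ i, sgnOf (glue P y0 z i) = (∏ i ∈ Pᶜ, sgnOf (y0 i)) * ∏ j, sgnOf (z j) := by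
  rw [← Finset.prod_mul_prod_compl P, mul_comm]
  congr 1
  · refine Finset.prod_congr rfl fun i hi => ?_
    have hi' : i ∉ P := Finset.mem_compl.mp hi
    simp [glue, hi']
  · rw [Finset.prod_subtype P (p := fun j => j ∈ P) (fun _ => Iff.rfl)]
    refine Finset.prod_congr rfl fun i _ => ?_
    simp [glue]

lemma abs_prod_sgn (P : Finset (Fin n)) (y0 : Fin n → Bool) : |∏ i ∈ P, sgnOf (y0 i)| = 1 := by
  rw [Finset.abs_prod]
  simp [abs_sgnOf]

/-- The signs of the six terms. -/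
def cSix : Fin 6 → ℝ := ![1, -1, 1, -1, -1, 1]

lemma abs_cSix (r : Fin 6) : |cSix r| ≤ 1 := by
  fin_cases r <;> simp [cSix]

section Frame

variable {Q P H G : Type} [Fintype Q] [DecidableEq Q] [Fintype P] [DecidableEq P] [Fintype H]
  [DecidableEq H] [Fintype G] [DecidableEq G]

lemma ev_hatL (F : Frame Q P H G) (hT2 : star F.T2 = F.T2) (L : LastP Q) (Φ : Vec (Q → Bool)) :
    (⟪Φ, act (F.hatL L) Φ⟫_ℂ).re = ev (tp L.Eq) (act F.T2 Φ) := by
  have h := ev_conj F.T2 (tp L.Eq) Φ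
  rw [hT2] at h
  exact h

lemma sum_cSix (F : Frame Q P H G) (hT2 : star F.T2 = F.T2) (L : Fin 6 → LastP Q) (N : Op Q)
    (hN : N = tp (L 0).Eq - tp (L 1).Eq + tp (L 2).Eq - tp (L 3).Eq - tp (L 4).Eq + tp (L 5).Eq)
    (Φ : Vec (Q → Bool)) :
    ∑ r, cSix r * (⟪Φ, act (F.hatL (L r)) Φ⟫_ℂ).re = ev N (act F.T2 Φ) := by
  simp only [ev_hatL F hT2]
  rw [hN, ev_add, ev_sub, ev_sub, ev_add, ev_sub, Fin.sum_univ_six]
  simp [cSix]
  ring

end Frame

/-- **The main bound for circuits of entangling depth three.** -/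
theorem circuit_bound (C : Circuit3 (Fin n ⊕ A)) (q : Fin n ⊕ A) (ε : ℝ) (h : C.ComputesParity q ε)
    (t : ℕ) (ht : 1 ≤ t) (a0 : ℝ) (ha0 : 0 < a0) (ha1 : a0 ≤ 1) (m : ℕ) (δ : ℝ) (hδ : 0 < δ)
    (d : ℕ) (hd : 2 * (6 * (41 / a0) ^ 2 * (1 / a0 + 1) + 1) / δ ≤ d)
    (hcount : 4 * t * (2 * (m * (d + 1))) ≤ n) :
    2 * ε - 2 * Real.sqrt (4 * ((C.T1.filter fun g => decide (2 * t ≤ (inpOf g).card)).length
        * (1 / 2 : ℝ) ^ t + m * a0))
      ≤ 6 * Real.sqrt (2 * (3 / 4 : ℝ) ^ m)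
        + 6 * nearConst 81 m / (3 / 4 : ℝ) ^ m * (16 ^ 2 * 256) * ((m + 1) * m ^ 2 * δ) := by
  classical
  have : Std.Symm (fun g h : Toffoli (Fin n ⊕ A) => Disjoint g.supp h.supp) :=
    ⟨fun a b h => h.symm⟩
  have hT1d : ∀ a ∈ C.T1, ∀ b ∈ C.T1, a ≠ b → Disjoint a.supp b.supp :=
    fun a ha b hb hab => C.T1_disjoint.forall ha hb hab
  -- the pool
  obtain ⟨P, hP1, hP2, hP3, hP4⟩ := pool_exists C.T1.toFinset inpOf (by
      intro g hg g' hg' hne
      rw [Finset.disjoint_left]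
      intro i hi hi'
      have h1 := (Finset.mem_filter.mp hi).2
      have h2 := (Finset.mem_filter.mp hi').2
      exact Finset.disjoint_left.mp (hT1d g (List.mem_toFinset.mp hg) g' (List.mem_toFinset.mp hg')
        hne) h1 h2) (fun _ => 0) t 0 ht
  obtain ⟨y0, hy0⟩ := exists_y0 C
  have hcardP : 2 * (m * (d + 1)) ≤ P.card := by
    have h1 : (C.T1.toFinset.filter fun g =>
        (inpOf g).card < 2 * t ∧ 0 < (fun _ : Toffoli (Fin n ⊕ A) => 0) g ∧ (inpOf g).Nonempty) = ∅ := by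
      rw [Finset.filter_eq_empty_iff]
      intro g _ hg
      exact lt_irrefl _ hg.2.1
    rw [h1, Fintype.card_fin] at hP1
    simp only [Finset.card_empty, mul_zero, add_zero] at hP1
    exact Nat.le_of_mul_le_mul_left (hcount.trans hP1) (by omega)
  -- the big gates
  set big : Toffoli (Fin n ⊕ A) → Bool := fun g => decide (2 * t ≤ (inpOf g).card) with hbig
  have hq0 : ∀ g ∈ C.T1.filter (fun g => !big g), ∀ i ∈ P, ∀ j ∈ P,
      (Sum.inl i : Fin n ⊕ A) ∈ g.supp → (Sum.inl j : Fin n ⊕ A) ∈ g.supp → i = j := by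
    intro g hg i hi j hj hig hjg
    obtain ⟨h1, h2⟩ := List.mem_filter.mp hg
    have h3 : (inpOf g).card < 2 * t := by simpa [hbig] using h2
    exact hP3 g (List.mem_toFinset.mpr h1) h3 i hi j hj (Finset.mem_filter.mpr ⟨Finset.mem_univ _, hig⟩)
      (Finset.mem_filter.mpr ⟨Finset.mem_univ _, hjg⟩)
  set F := cF C big P y0 hq0 with hF
  have hT2 : F.T2 = gateLayer C.T2 := circFrame_T2 C _ _ P y0 hq0
  obtain ⟨hT2s, hT2q⟩ := layer_invol C.T2_disjoint
  have hT2s' : star F.T2 = F.T2 := by rw [hT2, hT2s]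
  obtain ⟨L, hL⟩ := C.obs_six_L q
  set bigC : ℕ := (C.T1.filter big).length with hbigC
  set D : ℝ := Real.sqrt (4 * (bigC * (1 / 2 : ℝ) ^ t + m * a0)) with hD
  set c0 : ℝ := ∏ i ∈ Pᶜ, sgnOf (y0 i) with hc0
  have hκ : ∀ S : Finset {i // i ∈ P}, S.card = m → ∀ z : {i // i ∈ P} → Bool,
      2 * ε - 2 * D ≤ c0 * (∏ j, sgnOf (z j)) * ∑ r, cSix r
        * (⟪act (F.Tkept a0 S) (pv (F.uz z)),
            act (F.hatL (L r)) (act (F.Tkept a0 S) (pv (F.uz z)))⟫_ℂ).re := by
    intro S hS z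
    set x := glue P y0 z with hx
    set s : Fin n ⊕ A → Bool := inputString x with hs
    set Φ := act (F.Tkept a0 S) (pv (F.uz z)) with hΦ
    -- the bound for the big gates
    have hB : ∀ g ∈ C.T1, big g = true →
        ‖act (tp g.pi) (act (tp C.L0) (e s))‖ ^ 2 ≤ (1 / 2 : ℝ) ^ t := by
      intro g hg1 hg2
      have hg3 : 2 * t ≤ (inpOf g).card := by simpa [hbig] using hg2
      have h5 := big_bound (S := (inpOf g \ P).image Sum.inl) g.pi_proj C.L0_unitary s (by
          intro q hq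
          obtain ⟨i, hi, rfl⟩ := Finset.mem_image.mp hq
          have hi1 := (Finset.mem_sdiff.mp hi).1
          have hi2 := (Finset.mem_sdiff.mp hi).2
          have hi3 : (Sum.inl i : Fin n ⊕ A) ∈ g.supp := (Finset.mem_filter.mp hi1).2
          have hxi : s (Sum.inl i : Fin n ⊕ A) = y0 i := by
            simp [hs, inputString, hx, glue, hi2]
          rw [hxi]
          exact hy0 g hg1 i hi3)
      refine h5.trans ?_
      rw [Finset.card_image_of_injective _ Sum.inl_injective]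
      exact pow_le_pow_of_le_one (by norm_num) (by norm_num)
        (hP4 g (List.mem_toFinset.mpr hg1) hg3)
    have hclose := close_bound C big P y0 hq0 S z ((1 / 2 : ℝ) ^ t) hB (by positivity) ha0.le
    rw [hS] at hclose
    have hclose2 : ‖act C.head (e s) - Φ‖ ≤ D := Real.le_sqrt_of_sq_le hclose
    -- the signed inequality
    have h1 := C.signed_of_computes h x
    have hiso : star (gateLayer C.T2) * gateLayer C.T2 = 1 := by rw [hT2s, hT2q]
    have hu : ‖act (gateLayer C.T2) (act C.head (e s))‖ = 1 := by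
      rw [norm_act_of_star_mul _ hiso, norm_act_of_star_mul _ C.head_unitary, norm_e]
    have hΦ1 : ‖Φ‖ = 1 := by
      rw [hΦ, norm_act_of_star_mul _ (by rw [(F.Tkept_invol a0 S).1, (F.Tkept_invol a0 S).2])]
      exact Frame.norm_pv_one (F.norm_uz z)
    have hv : ‖act (gateLayer C.T2) Φ‖ = 1 := by
      rw [norm_act_of_star_mul _ hiso, hΦ1]
    have h2 := abs_ev_sub_le (C.obs_star q) (C.obs_norm q) hu hv
    rw [← act_vsub, norm_act_of_star_mul _ hiso] at h2
    have hsum : ∑ r, cSix r * (⟪Φ, act (F.hatL (L r)) Φ⟫_ℂ).re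
        = ev (C.obs q) (act (gateLayer C.T2) Φ) := by
      rw [sum_cSix F hT2s' L (C.obs q) hL Φ, hT2]
    rw [hsum]
    have hsg : c0 * ∏ j, sgnOf (z j) = sgnOf (parityOf x) := by
      rw [sgnOf_parityOf, hx, prod_sgn_glue]
    rw [hsg]
    set sg := sgnOf (parityOf x) with hsgdef
    set v1 := act (gateLayer C.T2) (act C.head (e s))
    set v2 := act (gateLayer C.T2) Φ
    have h4 : sg * (ev (C.obs q) v1 - ev (C.obs q) v2) ≤ |sg * (ev (C.obs q) v1 - ev (C.obs q) v2)| :=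
      le_abs_self _
    rw [abs_mul, abs_sgnOf, one_mul] at h4
    have h5 : sg * ev (C.obs q) v1 = sg * ev (C.obs q) v2 + sg * (ev (C.obs q) v1 - ev (C.obs q) v2) := by
      ring
    linarith
  have hmain := F.frame_main a0 ha0 ha1 L cSix abs_cSix c0 (abs_prod_sgn _ _).le m δ hδ d
    (by simpa using hd) (by simpa using hcardP) (2 * ε - 2 * D) hκ
  simpa using hmain

end Vale.Agent.Lib.P368
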