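import Vale.Agent.Lib.P368.D3.FrameMain

/-! The six-term form of the observable with rank-one projectors. -/

namespace Vale.Agent.Lib.P368

open Matrix Finset
open scoped Matrix.Norms.L2Operator InnerProductSpace ComplexConjugate

set_option linter.unusedSectionVars false
set_option linter.unusedSimpArgs false
set_option linter.unusedVariables false

variable {Q : Type} [Fintype Q] [DecidableEq Q]

/-- One-qubit operators of the last projectors: the identity or a rank-one projector. -/
def Good1 (X : M2) : Prop := X = 1 ∨ ∃ s : V2, ‖s‖ = 1 ∧ X = kb s s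

/-- The vector `|−⟩`. -/
noncomputable def minusV : V2 :=
  WithLp.toLp 2 fun a => if a then -((Real.sqrt 2 / 2 : ℝ) : ℂ) else ((Real.sqrt 2 / 2 : ℝ) : ℂ)

lemma minusV_apply (a : Bool) : minusV a =
    if a then -((Real.sqrt 2 / 2 : ℝ) : ℂ) else ((Real.sqrt 2 / 2 : ℝ) : ℂ) := rfl

lemma sq_half : (Real.sqrt 2 / 2) ^ 2 = (1 / 2 : ℝ) := by
  rw [div_pow, Real.sq_sqrt (by norm_num)]
  norm_num

lemma norm_minusV : ‖minusV‖ = 1 := by
  have h : ‖minusV‖ ^ 2 = 1 := by
    rw [norm_sq_eq_sum, Fintype.sum_bool]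
    simp only [minusV_apply, if_true, Bool.false_eq_true, if_false, norm_neg, Complex.norm_real,
      Real.norm_eq_abs, sq_abs]
    rw [sq_half]
    norm_num
  have h0 := norm_nonneg minusV
  nlinarith

lemma Pm_eq_kb : Pm = kb minusV minusV := by
  have h1 : ((Real.sqrt 2 / 2 : ℝ) : ℂ) * ((Real.sqrt 2 / 2 : ℝ) : ℂ) = 1 / 2 := by
    rw [← Complex.ofReal_mul, ← sq, sq_half]
    norm_num
  have h2 : conj ((Real.sqrt 2 / 2 : ℝ) : ℂ) = ((Real.sqrt 2 / 2 : ℝ) : ℂ) := Complex.conj_ofReal _
  ext a b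
  simp only [Pm, Matrix.of_apply, kb_apply, minusV_apply]
  generalize ((Real.sqrt 2 / 2 : ℝ) : ℂ) = r at h1 h2 ⊢
  cases a <;> cases b <;> simp only [Bool.false_eq_true, if_true, if_false, map_neg, h2, neg_mul,
    mul_neg, neg_neg, h1, Bool.true_eq_false, reduceCtorEq]
  all_goals ring

lemma e_apply_bool (b a : Bool) : (e b : V2) a = if a = b then 1 else 0 := by
  simp [e, PiLp.single_apply]

lemma P1_eq_kb : P1 = kb (e true) (e true) := by
  ext a b
  simp only [P1, Matrix.of_apply, kb_apply, e_apply_bool]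
  cases a <;> cases b <;> simp

lemma half_Z_plus : (1 / 2 : ℂ) • (1 + Z2) = kb (e false) (e false) := by
  ext a b
  simp only [Matrix.smul_apply, Matrix.add_apply, kb_apply, e_apply_bool, Z2, Matrix.of_apply,
    Matrix.one_apply, smul_eq_mul]
  cases a <;> cases b <;> simp
  norm_num

lemma half_Z_minus : (1 / 2 : ℂ) • (1 - Z2) = kb (e true) (e true) := by
  ext a b
  simp only [Matrix.smul_apply, Matrix.sub_apply, kb_apply, e_apply_bool, Z2, Matrix.of_apply,
    Matrix.one_apply, smul_eq_mul]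
  cases a <;> cases b <;> simp
  norm_num

lemma conj_kb (W : M2) (u : V2) : star W * kb u u * W = kb (act (star W) u) (act (star W) u) := by
  rw [mul_kb, kb_mul]

lemma good_conj_kb {W : M2} (hW : W ∈ Matrix.unitaryGroup Bool ℂ) {u : V2} (hu : ‖u‖ = 1) :
    ∃ s : V2, ‖s‖ = 1 ∧ star W * kb u u * W = kb s s := by
  refine ⟨act (star W) u, ?_, conj_kb W u⟩
  rw [norm_act_of_star_mul _ (by rw [star_star]; exact Matrix.mem_unitaryGroup_iff.mp hW), hu]

lemma good_conj_Z {W : M2} (hW : W ∈ Matrix.unitaryGroup Bool ℂ) :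
    Good1 ((1 / 2 : ℂ) • (1 + star W * Z2 * W)) ∧ Good1 ((1 / 2 : ℂ) • (1 - star W * Z2 * W)) := by
  have h1 : star W * W = 1 := Matrix.mem_unitaryGroup_iff'.mp hW
  constructor
  · right
    obtain ⟨s, hs, hE⟩ := good_conj_kb hW (norm_e false)
    refine ⟨s, hs, ?_⟩
    rw [← hE, ← half_Z_plus, mul_smul_comm, smul_mul_assoc, mul_add, add_mul, mul_one, h1]
  · right
    obtain ⟨s, hs, hE⟩ := good_conj_kb hW (norm_e true)
    refine ⟨s, hs, ?_⟩
    rw [← hE, ← half_Z_minus, mul_smul_comm, smul_mul_assoc, mul_sub, sub_mul, mul_one, h1]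

lemma good_conj_pi (g : Toffoli Q) (p : Q) {U : M2} (hU : U ∈ Matrix.unitaryGroup Bool ℂ) :
    Good1 (star U * g.pi p * U) := by
  unfold Toffoli.pi
  split_ifs
  · right
    rw [Pm_eq_kb]
    exact good_conj_kb hU norm_minusV
  · right
    rw [P1_eq_kb]
    exact good_conj_kb hU (norm_e true)
  · left
    rw [mul_one]
    exact Matrix.mem_unitaryGroup_iff'.mp hU

lemma update_good {F : Q → M2} (hF : ∀ p, Good1 (F p)) (q : Q) {X : M2} (hX : Good1 X) (p : Q) :
    Good1 (Function.update F q X p) := by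
  by_cases hp : p = q
  · subst hp; simpa using hX
  · rw [Function.update_of_ne hp]; exact hF p

lemma exists_lastP {E : Q → M2} (h : ∀ p, Good1 (E p)) : ∃ L : LastP Q, L.Eq = E := by
  classical
  have h1 : ∀ p, ∃ (b : Bool) (s : V2), ‖s‖ = 1 ∧ E p = if b then kb s s else 1 := by
    intro p
    rcases h p with h2 | ⟨s, hs, h2⟩
    · exact ⟨false, e false, norm_e _, by simpa using h2⟩
    · exact ⟨true, s, hs, by simpa using h2⟩
  choose b s hs hE using h1
  refine ⟨⟨b, s, hs⟩, ?_⟩
  funext p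
  rw [hE]
  rfl

/-- The six-term form of the observable, with rank-one or trivial one-qubit projectors. -/
theorem Circuit3.obs_six_good (C : Circuit3 Q) (q : Q) :
    ∃ E1 E2 E3 E4 E5 E6 : Q → M2,
      (∀ p, Good1 (E1 p)) ∧ (∀ p, Good1 (E2 p)) ∧
      (∀ p, Good1 (E3 p)) ∧ (∀ p, Good1 (E4 p)) ∧
      (∀ p, Good1 (E5 p)) ∧ (∀ p, Good1 (E6 p)) ∧
      C.obs q = tp E1 - tp E2 + tp E3 - tp E4 - tp E5 + tp E6 := by
  -- the conjugate of `Z` by the last layer
  set M : M2 := star (C.L3 q) * Z2 * C.L3 q with hM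
  have hM1 : star M = M := (conj_invol (C.L3_unitary q) Z2_star Z2_sq).1
  have hM2 : M * M = 1 := (conj_invol (C.L3_unitary q) Z2_star Z2_sq).2
  have hone : ∀ p, Good1 ((fun _ : Q => (1 : M2)) p) := fun _ => Or.inl rfl
  have h3 : star (tp C.L3) * Zq q * tp C.L3 = tp (Function.update (fun _ => 1) q M) := by
    unfold Zq
    rw [tp_conj]
    congr 1
    funext p
    by_cases hp : p = q
    · subst hp; simp [hM]
    · simp [Function.update_of_ne hp, Matrix.mem_unitaryGroup_iff'.mp (C.L3_unitary p)]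
  have hAmem : ∀ X : M2, tp (Function.update (fun _ => (1 : M2)) q X) ∈ Alg {q} := by
    intro X
    refine tp_mem_Alg fun p hp => ?_
    have : p ≠ q := by simpa using hp
    rw [Function.update_of_ne this]
  obtain ⟨hT1, hT2⟩ := layer_invol C.T3_disjoint
  have hobs : C.obs q = star (tp C.L2)
      * (gateLayer C.T3 * tp (Function.update (fun _ => 1) q M) * gateLayer C.T3) * tp C.L2 := by
    rw [← h3]
    unfold Circuit3.obs Circuit3.tail
    simp only [star_mul, hT1, mul_assoc]
  -- conjugation by the layer `L2`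
  have hconj1 : ∀ X : M2, star (tp C.L2) * tp (Function.update (fun _ => 1) q X) * tp C.L2
      = tp (Function.update (fun _ => 1) q (star (C.L2 q) * X * C.L2 q)) := by
    intro X
    rw [tp_conj]
    congr 1
    funext p
    by_cases hp : p = q
    · subst hp; simp
    · simp [Function.update_of_ne hp, Matrix.mem_unitaryGroup_iff'.mp (C.L2_unitary p)]
  set M' : M2 := star (C.L2 q) * M * C.L2 q with hM'
  have hW1 : C.L3 q * C.L2 q ∈ Matrix.unitaryGroup Bool ℂ :=
    mul_mem (C.L3_unitary q) (C.L2_unitary q)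
  have hM'W : M' = star (C.L3 q * C.L2 q) * Z2 * (C.L3 q * C.L2 q) := by
    rw [hM', hM, star_mul]
    simp only [mul_assoc]
  obtain ⟨hEp, hEm⟩ := good_conj_Z hW1
  rw [← hM'W] at hEp hEm
  rcases layer_conj C.T3_disjoint q (hAmem M) with ⟨_, h4⟩ | ⟨g, _, _, h4⟩
  · -- no gate of the third layer touches the output qubit
    refine ⟨Function.update (fun _ => 1) q ((1 / 2 : ℂ) • (1 + M')),
      Function.update (fun _ => 1) q ((1 / 2 : ℂ) • (1 - M')),
      Function.update (fun _ => 1) q ((1 / 2 : ℂ) • (1 + M')),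
      Function.update (fun _ => 1) q ((1 / 2 : ℂ) • (1 + M')),
      Function.update (fun _ => 1) q ((1 / 2 : ℂ) • (1 + M')),
      Function.update (fun _ => 1) q ((1 / 2 : ℂ) • (1 + M')),
      update_good hone q hEp, update_good hone q hEm, update_good hone q hEp,
      update_good hone q hEp, update_good hone q hEp, update_good hone q hEp, ?_⟩
    rw [hobs, h4, hconj1, ← hM', tp_half]
    abel
  · -- a gate of the third layer touches the output qubit
    set π := g.pi with hπ
    have hπp : ∀ p, IsStarProjection (π p) := g.pi_proj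
    set r : M2 := 1 - (2 : ℂ) • π q with hr
    have hr1 : star r = r := by
      simp [hr, (hπp q).isSelfAdjoint.star_eq]
    have hr2 : r * r = 1 := by
      have h : π q * π q = π q := (hπp q).isIdempotentElem.eq
      have h2 : ((2 : ℂ) • π q) = π q + π q := two_smul ℂ _
      rw [hr, h2]
      have h3 : (1 - (π q + π q)) * (1 - (π q + π q))
          = 1 - (π q + π q) - (π q + π q) + (π q * π q + π q * π q + π q * π q + π q * π q) := by
        noncomm_ring
      rw [h3, h]
      abel
    have hrU : r ∈ Matrix.unitaryGroup Bool ℂ := by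
      rw [Matrix.mem_unitaryGroup_iff, hr1, hr2]
    set Mt : M2 := r * M * r with hMt
    set Mt' : M2 := star (C.L2 q) * Mt * C.L2 q with hMt'
    have hW2 : C.L3 q * r * C.L2 q ∈ Matrix.unitaryGroup Bool ℂ :=
      mul_mem (mul_mem (C.L3_unitary q) hrU) (C.L2_unitary q)
    have hMt'W : Mt' = star (C.L3 q * r * C.L2 q) * Z2 * (C.L3 q * r * C.L2 q) := by
      rw [hMt', hMt, hM, star_mul, star_mul, hr1]
      simp only [mul_assoc]
    obtain ⟨hFp, hFm⟩ := good_conj_Z hW2
    rw [← hMt'W] at hFp hFm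
    set π2 : Q → M2 := fun p => star (C.L2 p) * π p * C.L2 p with hπ2
    have hπ2p : ∀ p, Good1 (π2 p) := fun p => good_conj_pi g p (C.L2_unitary p)
    have hconj2 : ∀ X : M2, star (tp C.L2) * tp (Function.update π q X) * tp C.L2
        = tp (Function.update π2 q (star (C.L2 q) * X * C.L2 q)) := by
      intro X
      rw [tp_conj]
      congr 1
      funext p
      by_cases hp : p = q
      · subst hp; simp
      · simp [Function.update_of_ne hp, hπ2]
    refine ⟨Function.update (fun _ => 1) q ((1 / 2 : ℂ) • (1 + M')),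
      Function.update (fun _ => 1) q ((1 / 2 : ℂ) • (1 - M')),
      Function.update π2 q ((1 / 2 : ℂ) • (1 + Mt')),
      Function.update π2 q ((1 / 2 : ℂ) • (1 - Mt')),
      Function.update π2 q ((1 / 2 : ℂ) • (1 + M')),
      Function.update π2 q ((1 / 2 : ℂ) • (1 - M')),
      update_good hone q hEp, update_good hone q hEm, update_good hπ2p q hFp,
      update_good hπ2p q hFm, update_good hπ2p q hEp, update_good hπ2p q hEm, ?_⟩
    rw [hobs, h4, refl_conj_one hπp q M, ← hr, ← hMt]
    have hdist : star (tp C.L2) * (tp (Function.update (fun _ => 1) q M)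
          + tp (Function.update π q Mt) - tp (Function.update π q M)) * tp C.L2
        = star (tp C.L2) * tp (Function.update (fun _ => 1) q M) * tp C.L2
          + star (tp C.L2) * tp (Function.update π q Mt) * tp C.L2
          - star (tp C.L2) * tp (Function.update π q M) * tp C.L2 := by
      simp only [mul_add, mul_sub, add_mul, sub_mul]
    rw [hdist, hconj1, hconj2, hconj2, ← hM', ← hMt', tp_half (fun _ => 1) q M', tp_half π2 q Mt',
      tp_half π2 q M']
    abel

/-- The six-term form of the observable in terms of the data of last projectors. -/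
theorem Circuit3.obs_six_L (C : Circuit3 Q) (q : Q) :
    ∃ L : Fin 6 → LastP Q, C.obs q = tp (L 0).Eq - tp (L 1).Eq + tp (L 2).Eq - tp (L 3).Eq
      - tp (L 4).Eq + tp (L 5).Eq := by
  obtain ⟨E1, E2, E3, E4, E5, E6, h1, h2, h3, h4, h5, h6, hN⟩ := C.obs_six_good q
  obtain ⟨L1, rfl⟩ := exists_lastP h1
  obtain ⟨L2, rfl⟩ := exists_lastP h2
  obtain ⟨L3, rfl⟩ := exists_lastP h3
  obtain ⟨L4, rfl⟩ := exists_lastP h4
  obtain ⟨L5, rfl⟩ := exists_lastP h5
  obtain ⟨L6, rfl⟩ := exists_lastP h6
  exact ⟨![L1, L2, L3, L4, L5, L6], hN⟩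

end Vale.Agent.Lib.P368
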