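import Vale.Agent.Lib.P368.D3.CoreGamma

/-! Bounds on the factors of the value of a configuration and the near-product property. -/

namespace Vale.Agent.Lib.P368

open Matrix Finset
open scoped Matrix.Norms.L2Operator InnerProductSpace ComplexConjugate

set_option linter.unusedSectionVars false
set_option linter.unusedSimpArgs false
set_option linter.unusedVariables false

variable {Q I G : Type} [Fintype Q] [DecidableEq Q] [Fintype I] [DecidableEq I] [Fintype G]
  [DecidableEq G]

lemma pw_proj {X : M2} (hX : IsStarProjection X) (b : Bool) : IsStarProjection (pw b X) := by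
  cases b
  · exact IsStarProjection.one _
  · exact hX

lemma norm_pw_le {X : M2} (hX : IsStarProjection X) (b : Bool) : ‖pw b X‖ ≤ 1 :=
  norm_proj_le (pw_proj hX b)

/-- The overlap of the two possible vectors. -/
lemma ov_values {s p : V2} (hs : ‖s‖ = 1) (hp : ‖p‖ = 1) (a b : Bool) :
    ⟪act (pw a (kb p p)) s, act (pw b (kb p p)) s⟫_ℂ
      = if a || b then (Cq s p : ℂ) else 1 := by
  have hp1 : ⟪p, p⟫_ℂ = 1 := by
    rw [inner_self_eq_norm_sq_to_K, hp]; simp
  have hs1 : ⟪s, s⟫_ℂ = 1 := by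
    rw [inner_self_eq_norm_sq_to_K, hs]; simp
  have hC : ⟪s, p⟫_ℂ * ⟪p, s⟫_ℂ = (Cq s p : ℂ) := inner_mul_inner _ _
  have hc : conj ⟪p, s⟫_ℂ = ⟪s, p⟫_ℂ := inner_conj_symm _ _
  cases a <;> cases b <;> simp only [pw, Bool.false_eq_true, if_false, if_true, act_one, act_kb,
    Bool.or_self, Bool.or_true, Bool.true_or, inner_smul_left, inner_smul_right, hp1, hs1, hc]
  · rw [mul_comm, hC]
  · exact hC
  · rw [mul_one, mul_comm, hC]

namespace CoreData

variable (D : CoreData Q I G)

lemma norm_Oj_le (j : J) (q : Q) : ‖Oj D.sys.π D.sys.E j q‖ ≤ 1 := by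
  unfold Oj
  have h1 := norm_pw_le (D.sys.π_proj q) j.1
  have h2 := norm_pw_le (D.sys.π_proj q) j.2
  have h3 := norm_proj_le (D.sys.E_proj q)
  calc _ ≤ ‖pw j.1 (D.sys.π q) * D.sys.E q‖ * ‖pw j.2 (D.sys.π q)‖ := norm_mul_le _ _
    _ ≤ (‖pw j.1 (D.sys.π q)‖ * ‖D.sys.E q‖) * ‖pw j.2 (D.sys.π q)‖ := by
        gcongr; exact norm_mul_le _ _
    _ ≤ (1 * 1) * 1 := by gcongr
    _ = 1 := by norm_num

lemma norm_tq_le (q : Q) (cc : Cfg) (σ : J × J) : ‖D.tq q cc σ‖ ≤ 1 := by
  unfold tq
  rw [norm_mul, RCLike.norm_conj]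
  have h1 := norm_sc_le (D.ξ_le q cc.1 cc.2.2.1) (D.ξ_le q cc.1 cc.2.2.2.1) (D.norm_Oj_le σ.1 q)
  have h2 := norm_sc_le (D.ξ_le q cc.2.1 cc.2.2.2.2.1) (D.ξ_le q cc.2.1 cc.2.2.2.2.2)
    (D.norm_Oj_le σ.2 q)
  calc _ ≤ (1 : ℝ) * 1 := by gcongr
    _ = 1 := by norm_num

lemma norm_tG_le (o : Option G) (i : I) (cc : Cfg) (σ : J × J) : ‖D.tG o i cc σ‖ ≤ 1 := by
  unfold tG
  rw [norm_prod]
  exact Finset.prod_le_one (fun _ _ => norm_nonneg _) fun q _ => D.norm_tq_le q cc σ

lemma uq_RN (q : Q) (h : D.RN q = true) (σ : J × J) : D.uq q σ = 1 := by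
  have h1 : D.sys.RS q = false := by
    show D.RS q = false
    simp only [RN, Bool.and_eq_true, Bool.not_eq_true'] at h
    simp [RS, h.2]
  have h2 : D.sS q = false := by
    simp only [RN, Bool.and_eq_true, Bool.not_eq_true'] at h
    exact h.2
  have h3 : D.sys.π q = 1 := by simp [sys, h]
  have h4 : D.sys.E q = 1 := by
    show D.E q = 1
    simp [E, h2]
  have h6 : ∀ j, Oj D.sys.π D.sys.E j q = 1 := by
    intro j
    unfold Oj; rw [h3, h4]
    rcases j with ⟨_ | _, _ | _⟩ <;> simp [pw]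
  simp only [uq, HSys.Hq, HSys.aq, h1, h6, Fintype.sum_bool]
  simp [act_one, sc, act, inner_self_eq_norm_sq_to_K, norm_e]

/-- The value of the factor of an opened qubit. -/
lemma uq_RS (q : Q) (h : D.RS q = true) (σ : J × J) :
    D.uq q σ = (if σ.2.1 || σ.1.1 then (Cq (D.s q) (D.p q) : ℂ) else 1)
      * (if σ.1.2 || σ.2.2 then (Cq (D.s q) (D.p q) : ℂ) else 1) := by
  have h1 : D.sys.RS q = true := h
  have h2 : D.RN q = false := by
    simp only [RS, Bool.and_eq_true] at h
    simp [RN, h.2]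
  have h3 : D.sys.π q = kb (D.p q) (D.p q) := by
    simp [sys, h2, π]
  have h4 : D.sys.E q = kb (D.s q) (D.s q) := D.sys.E_eq q h1
  have hpw : ∀ b : Bool, star (pw b (kb (D.p q) (D.p q))) = pw b (kb (D.p q) (D.p q)) := by
    intro b
    exact (pw_proj (kb_proj (D.p_unit q)) b).isSelfAdjoint.star_eq
  have hO : ∀ j : J, Oj D.sys.π D.sys.E j q
      = kb (act (pw j.1 (kb (D.p q) (D.p q))) (D.s q)) (act (pw j.2 (kb (D.p q) (D.p q))) (D.s q)) := by
    intro j
    unfold Oj
    rw [h3, h4, mul_kb, kb_mul, hpw]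
  have he : ∀ α : Bool, act (D.sys.aq q α) (e false) = e α := by
    intro α
    unfold HSys.aq
    rw [if_pos h1, act_kb, inner_self_eq_norm_sq_to_K, norm_e]
    simp
  have hsc : ∀ (O : M2) α α', sc (e α) O (e α') = O α α' := fun O α α' => inner_e_act O α α'
  simp only [uq, HSys.Hq, he, hsc, hO, kb_apply]
  rw [← ov_values (D.s_unit q) (D.p_unit q), ← ov_values (D.s_unit q) (D.p_unit q),
    inner_V2, inner_V2, Finset.sum_mul_sum]
  refine Finset.sum_congr rfl fun α _ => Finset.sum_congr rfl fun α' _ => ?_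
  simp only [map_mul, Complex.conj_conj]
  ring

lemma uq_zero (q : Q) (h : D.bl q = none) : D.uq q σ0 = 1 := by
  by_cases hS : D.sS q = true
  · have h1 : D.RS q = true := by simp [RS, isR, h, hS]
    rw [D.uq_RS q h1]
    simp
  · have hS' : D.sS q = false := by simpa using hS
    have h1 : D.RN q = true := by simp [RN, isR, h, hS']
    exact D.uq_RN q h1 _

/-- The overlap of a qubit outside the blocks. -/
noncomputable def Cqq (q : Q) : ℝ := if D.sys.RS q then Cq (D.sys.s q) (D.sys.p q) else 1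

lemma Cqq_nonneg (q : Q) : 0 ≤ D.Cqq q := by
  unfold Cqq
  split_ifs
  · exact Cq_nonneg _ _
  · exact zero_le_one

lemma Cqq_le_one (q : Q) : D.Cqq q ≤ 1 := by
  unfold Cqq
  split_ifs with h
  · exact Cq_le_one (D.s_unit q) (D.p_unit q)
  · exact le_rfl

lemma norm_uq_le (q : Q) (h : D.bl q = none) (σ : J × J) (hσ : σ ≠ σ0) : ‖D.uq q σ‖ ≤ D.Cqq q := by
  by_cases hS : D.sS q = true
  · have h1 : D.RS q = true := by simp [RS, isR, h, hS]
    have h2 : D.sys.RS q = true := h1
    rw [D.uq_RS q h1]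
    simp only [Cqq, h2, if_true]
    have hC0 : 0 ≤ Cq (D.sys.s q) (D.sys.p q) := Cq_nonneg _ _
    have hC1 : Cq (D.sys.s q) (D.sys.p q) ≤ 1 := Cq_le_one (D.s_unit q) (D.p_unit q)
    have hs : D.sys.s q = D.s q := rfl
    have hp : D.sys.p q = D.p q := rfl
    rw [hs, hp] at hC0 hC1 ⊢
    set C := Cq (D.s q) (D.p q)
    have hn : ‖(C : ℂ)‖ = C := by
      rw [Complex.norm_real, Real.norm_of_nonneg hC0]
    rcases σ with ⟨⟨_ | _, _ | _⟩, ⟨_ | _, _ | _⟩⟩ <;>
      first
        | exact absurd rfl hσ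
        | (simp only [Bool.or_self, Bool.or_true, Bool.true_or, Bool.or_false, Bool.false_or, if_true,
            Bool.false_eq_true, if_false, mul_one, one_mul, norm_mul, hn]
           first | exact le_rfl | nlinarith)
  · have hS' : D.sS q = false := by simpa using hS
    have h1 : D.RN q = true := by simp [RN, isR, h, hS']
    have h2 : D.sys.RS q = false := by
      show D.RS q = false
      simp [RS, hS']
    rw [D.uq_RN q h1]
    simp [Cqq, h2]

/-- The bound on the coefficient of a pair of terms. -/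
lemma norm_coσ_le (Y : Bool) (σ : J × J) (hσ : σ ≠ σ0) :
    ‖coσ (HSys.bc Y) σ‖ ≤ 16 * (if Y then 1 else 0) := by
  rcases σ with ⟨⟨_ | _, _ | _⟩, ⟨_ | _, _ | _⟩⟩ <;> cases Y <;>
    first
      | exact absurd rfl hσ
      | (simp [coσ, cw, HSys.bc, bw]; try norm_num)

lemma coσ_zero (Y : Bool) : coσ (HSys.bc Y) σ0 = 1 := by
  simp [coσ, cw]

/-- The product of the overlaps of the qubits of a gate outside the blocks. -/
lemma prod_Cqq (l : G) : ∏ q ∈ D.Mset (some l) none, D.Cqq q = D.sys.Cl l := by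
  unfold HSys.Cl Cqq Mset
  refine Finset.prod_subset (Finset.filter_subset _ _) ?_
  intro q hq hq'
  have hgt := (Finset.mem_filter.mp hq).2
  have hbl : D.bl q ≠ none := fun h => hq' (Finset.mem_filter.mpr ⟨hq, h⟩)
  have h1 : D.sys.RS q = false := by
    show D.RS q = false
    have : D.isR q = false := by
      cases hb : D.bl q with
      | none => exact absurd hb hbl
      | some a => simp [isR, hb]
    simp [RS, this]
  simp [h1]

/-- The weight of a gate in a pattern. -/
noncomputable def chi (Y : G → Bool) : Option G → ℝ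
  | some l => if Y l then D.sys.Cl l else 0
  | none => 0

lemma chi_nonneg (Y : G → Bool) (o : Option G) : 0 ≤ D.chi Y o := by
  cases o with
  | none => exact le_rfl
  | some l =>
    simp only [chi]
    split_ifs
    · exact D.sys.Cl_nonneg l
    · exact le_rfl

lemma chi_le_one (Y : G → Bool) (o : Option G) : D.chi Y o ≤ 1 := by
  cases o with
  | none => exact zero_le_one
  | some l =>
    simp only [chi]
    split_ifs
    · exact D.sys.Cl_le_one l
    · exact zero_le_one

lemma norm_UG_zero (Y : G → Bool) (o : Option G) : ‖D.UG Y o σ0‖ ≤ 1 := by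
  have h1 : ∀ o, ∏ q ∈ D.Mset o none, D.uq q σ0 = 1 := fun o =>
    Finset.prod_eq_one fun q hq => D.uq_zero q (Finset.mem_filter.mp hq).2
  cases o with
  | none => simp [UG, h1]
  | some l => simp [UG, h1, coσ_zero]

lemma norm_UG_le (Y : G → Bool) (o : Option G) (σ : J × J) (hσ : σ ≠ σ0) :
    ‖D.UG Y o σ‖ ≤ 16 * D.chi Y o := by
  cases o with
  | none => simp [UG, chi, hσ]
  | some l =>
    simp only [UG, chi, norm_mul, norm_prod]
    have h1 := norm_coσ_le (Y l) σ hσ
    have h2 : ∏ q ∈ D.Mset (some l) none, ‖D.uq q σ‖ ≤ D.sys.Cl l := by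
      rw [← D.prod_Cqq]
      exact Finset.prod_le_prod (fun _ _ => norm_nonneg _)
        fun q hq => D.norm_uq_le q (Finset.mem_filter.mp hq).2 σ hσ
    have h0 : 0 ≤ ∏ q ∈ D.Mset (some l) none, ‖D.uq q σ‖ :=
      Finset.prod_nonneg fun _ _ => norm_nonneg _
    by_cases hY : Y l = true
    · simp only [hY, if_true, mul_one] at h1 ⊢
      exact mul_le_mul h1 h2 h0 (by norm_num)
    · have hY' : Y l = false := by simpa using hY
      simp only [hY', Bool.false_eq_true, if_false, mul_zero] at h1 ⊢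
      have : ‖coσ (HSys.bc false) σ‖ = 0 := le_antisymm h1 (norm_nonneg _)
      rw [this, zero_mul]

lemma UG_pair (Y : G → Bool) (o : Option G) (σ σ' : J × J) (h : σ ≠ σ') :
    ‖D.UG Y o σ‖ * ‖D.UG Y o σ'‖ ≤ 256 * D.chi Y o := by
  have hχ0 := D.chi_nonneg Y o
  have hχ1 := D.chi_le_one Y o
  by_cases hσ : σ = σ0
  · subst hσ
    have h1 := D.norm_UG_zero Y o
    have h2 := D.norm_UG_le Y o σ' h.symm
    calc _ ≤ 1 * (16 * D.chi Y o) :=
          mul_le_mul h1 h2 (norm_nonneg _) zero_le_one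
      _ ≤ _ := by linarith
  · have h1 := D.norm_UG_le Y o σ hσ
    have h2 : ‖D.UG Y o σ'‖ ≤ 16 := by
      by_cases hσ' : σ' = σ0
      · subst hσ'
        have := D.norm_UG_zero Y o
        linarith
      · have := D.norm_UG_le Y o σ' hσ'
        linarith
    calc _ ≤ (16 * D.chi Y o) * 16 :=
          mul_le_mul h1 h2 (norm_nonneg _) (by positivity)
      _ = _ := by ring

lemma f_le (c : I → Cfg) (q : Q) :
    ‖D.f1 c q‖ ≤ 1 ∧ ‖D.f2 c q‖ ≤ 1 ∧ ‖D.f3 c q‖ ≤ 1 ∧ ‖D.f4 c q‖ ≤ 1 := by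
  simp only [f1, f2, f3, f4, fv]
  cases h : D.bl q with
  | none => simp [norm_e]
  | some i => exact ⟨D.ξ_le _ _ _, D.ξ_le _ _ _, D.ξ_le _ _ _, D.ξ_le _ _ _⟩

lemma bl_none_of_RS {q : Q} (h : D.sys.RS q = true) : D.bl q = none := by
  have h1 : D.RS q = true := h
  simp only [RS, isR, Bool.and_eq_true, Option.isNone_iff_eq_none] at h1
  exact h1.1

lemma f_RS (c : I → Cfg) (q : Q) (h : D.sys.RS q = true) :
    D.f1 c q = e false ∧ D.f2 c q = e false ∧ D.f3 c q = e false ∧ D.f4 c q = e false := by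
  have h1 := D.bl_none_of_RS h
  simp only [f1, f2, f3, f4, fv, h1, and_self]

/-- The factors of the value of a configuration are contractions. -/
lemma norm_theta_le (Y : G → Bool) (o : Option G) (c : I → Cfg) :
    ‖thetaA (D.UG Y o) (D.tG o) c‖ ≤ 1 := by
  cases o with
  | none =>
    unfold thetaA
    rw [Finset.sum_eq_single σ0]
    · have h1 : ∏ q ∈ D.Mset none none, D.uq q σ0 = 1 :=
        Finset.prod_eq_one fun q hq => D.uq_zero q (Finset.mem_filter.mp hq).2
      simp only [UG, if_true, h1, one_mul, norm_prod]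
      exact Finset.prod_le_one (fun _ _ => norm_nonneg _) fun i _ => D.norm_tG_le _ _ _ _
    · intro σ _ hσ
      simp [UG, hσ]
    · simp
  | some l =>
    have h := D.sys.one_gate_bound l (Y l) (D.f1 c) (D.f2 c) (D.f3 c) (D.f4 c)
      (fun q => (D.f_le c q).1) (fun q => (D.f_le c q).2.1) (fun q => (D.f_le c q).2.2.1)
      (fun q => (D.f_le c q).2.2.2) (fun q hq => (D.f_RS c q hq).1) (fun q hq => (D.f_RS c q hq).2.1)
      (fun q hq => (D.f_RS c q hq).2.2.1) (fun q hq => (D.f_RS c q hq).2.2.2)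
    refine le_of_eq_of_le ?_ h
    unfold thetaA
    congr 1
    refine Finset.sum_congr rfl fun σ _ => ?_
    rw [show D.sys.gt = D.gt from rfl, D.prod_gate_split c (some l) σ]
    simp only [UG]
    ring

/-- The near-product property of the value of a configuration. -/
theorem Gam_near (W : G → I → ℝ) (hW0 : ∀ l i, 0 ≤ W l i)
    (hW : ∀ l i cc cc' σ σ', ‖D.tG (some l) i cc σ * D.tG (some l) i cc' σ'
      - D.tG (some l) i cc' σ * D.tG (some l) i cc σ'‖ ≤ W l i)
    (Y : G → Bool) (cs c : I → Cfg) :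
    ‖D.Gam Y c * D.Gam Y cs ^ Fintype.card I
        - D.Gam Y cs * ∏ i, D.Gam Y (Function.update cs i (c i))‖
      ≤ 16 ^ 2 * 256 * ∑ l, (if Y l then D.sys.Cl l else 0) * potW (W l) Finset.univ := by
  set W' : Option G → I → ℝ := fun o => match o with
    | some l => W l
    | none => fun _ => 2 with hW'
  have h := product_tensor (L := Option G) (D.UG Y) (D.tG) 256 (D.chi Y) (D.chi_nonneg Y)
    (by norm_num) W' ?_ (fun o i c σ => D.norm_tG_le o i c σ) ?_
    (fun o σ σ' h => D.UG_pair Y o σ σ' h) (D.norm_theta_le Y) cs c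
  · simp only [D.Gam_eq]
    have hcard : (Fintype.card (J × J) : ℝ) = 16 := by
      simp [J, Fintype.card_prod, Fintype.card_bool]
    rw [hcard] at h
    refine h.trans (le_of_eq ?_)
    rw [Fintype.sum_option]
    simp [chi, hW']
  · intro o i
    cases o with
    | none => simp [hW']
    | some l => exact hW0 l i
  · intro o i cc cc' σ σ'
    cases o with
    | none =>
      have h1 := D.norm_tG_le none i cc σ
      have h2 := D.norm_tG_le none i cc' σ'
      have h3 := D.norm_tG_le none i cc' σ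
      have h4 := D.norm_tG_le none i cc σ'
      simp only [hW']
      calc _ ≤ ‖D.tG none i cc σ * D.tG none i cc' σ'‖ + ‖D.tG none i cc' σ * D.tG none i cc σ'‖ :=
            norm_sub_le _ _
        _ ≤ 1 * 1 + 1 * 1 := by
            rw [norm_mul, norm_mul]
            gcongr
        _ = 2 := by norm_num
    | some l => exact hW l i cc cc' σ σ'

end CoreData

end Vale.Agent.Lib.P368
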