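import Vale.Agent.Lib.P368.D3.Spectral

/-! The data of a system of blocks and the reduction of the signed expectation to the blocks. -/

namespace Vale.Agent.Lib.P368

open Matrix Finset
open scoped Matrix.Norms.L2Operator InnerProductSpace ComplexConjugate

set_option linter.unusedSectionVars false
set_option linter.unusedSimpArgs false
set_option linter.unusedVariables false

variable {Q I G : Type} [Fintype Q] [DecidableEq Q] [Fintype I] [DecidableEq I] [Fintype G]
  [DecidableEq G]

lemma act_vsum {ι X : Type} [Fintype ι] [DecidableEq ι] (A : Matrix ι ι ℂ) (s : Finset X)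
    (f : X → Vec ι) : act A (∑ x ∈ s, f x) = ∑ x ∈ s, act A (f x) := by
  simp [act, map_sum]

/-- The data: blocks, second-layer gates, last projectors and block states. -/
structure CoreData (Q I G : Type) where
  /-- The block of a qubit. -/
  bl : Q → Option I
  /-- The second-layer gate of a qubit. -/
  gt : Q → Option G
  /-- The direction of the gate projector. -/
  p : Q → V2
  /-- Is the last projector of rank one at this qubit? -/
  sS : Q → Bool
  /-- The direction of the last projector. -/
  s : Q → V2
  /-- The reference vectors. -/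
  ref : Q → V2
  /-- The first-layer gate projector of the block. -/
  pt : Q → M2
  /-- The block vectors, depending on the bit of the block and on a branch label. -/
  ξ : Q → Bool → Bool → V2
  p_unit : ∀ q, ‖p q‖ = 1
  s_unit : ∀ q, ‖s q‖ = 1
  ref_unit : ∀ q, ‖ref q‖ = 1
  pt_proj : ∀ q, IsStarProjection (pt q)
  ξ_unit : ∀ q x, ‖ξ q x false‖ = 1
  ξ_true : ∀ q x, ξ q x true = act (pt q) (ξ q x false)

namespace CoreData

variable (D : CoreData Q I G)

lemma ξ_le (q : Q) (x e : Bool) : ‖D.ξ q x e‖ ≤ 1 := by
  cases e
  · exact (D.ξ_unit q x).le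
  · rw [D.ξ_true]
    have h := norm_act_proj_le (D.pt_proj q) (D.ξ q x false)
    rw [D.ξ_unit] at h
    have h0 := norm_nonneg (act (D.pt q) (D.ξ q x false))
    nlinarith

/-- The gate projector at a qubit. -/
noncomputable def π (q : Q) : M2 := kb (D.p q) (D.p q)

/-- The last projector at a qubit. -/
noncomputable def E (q : Q) : M2 := if D.sS q then kb (D.s q) (D.s q) else 1

lemma π_proj (q : Q) : IsStarProjection (D.π q) := kb_proj (D.p_unit q)

lemma E_proj (q : Q) : IsStarProjection (D.E q) := by
  unfold E
  split_ifs
  · exact kb_proj (D.s_unit q)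
  · exact IsStarProjection.one _

/-- Is the qubit outside the blocks? -/
def isR (q : Q) : Bool := (D.bl q).isNone

/-- The opened qubits. -/
def RS (q : Q) : Bool := D.isR q && D.sS q

/-- The qubits outside the blocks with trivial last projector. -/
def RN (q : Q) : Bool := D.isR q && !D.sS q

/-- The gate system in which the qubits of `RN` are removed from the gates and the qubits of `RS`
are opened. -/
noncomputable def sys : HSys Q G where
  gt := D.gt
  π := fun q => if D.RN q then 1 else D.π q
  E := D.E
  RS := D.RS
  p := D.p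
  s := D.s
  π_proj := fun q => by
    by_cases h : D.RN q = true
    · simp only [h, if_true]; exact IsStarProjection.one _
    · simp only [h, if_false]; exact D.π_proj q
  E_proj := D.E_proj
  p_unit := fun q _ => D.p_unit q
  s_unit := fun q _ => D.s_unit q
  π_eq := fun q h => by
    have h1 : D.RN q = false := by
      simp only [RS, Bool.and_eq_true] at h
      simp [RN, h.2]
    simp [h1, π]
  E_eq := fun q h => by
    have h1 : D.sS q = true := by
      simp only [RS, Bool.and_eq_true] at h
      exact h.2
    simp [E, h1]

/-- The gate system of the circuit, without opened qubits. -/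
noncomputable def full : HSys Q G where
  gt := D.gt
  π := D.π
  E := D.E
  RS := fun _ => false
  p := D.p
  s := D.s
  π_proj := D.π_proj
  E_proj := D.E_proj
  p_unit := fun q _ => D.p_unit q
  s_unit := fun q _ => D.s_unit q
  π_eq := fun q h => by simp at h
  E_eq := fun q h => by simp at h

/-- The weights of the two branches of a block. -/
def wbr (b : Bool) : ℂ := if b then -2 else 1

/-- The one-qubit factor of the block operator. -/
noncomputable def Kq (x e : I → Bool) (q : Q) : M2 :=
  match D.bl q with
  | some i => kb (D.ξ q (x i) (e i)) (D.ref q)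
  | none => 1

/-- The block operator of one branch. -/
noncomputable def Ke (x e : I → Bool) : Op Q := tp (D.Kq x e)

/-- The block operator. -/
noncomputable def Kx (x : I → Bool) : Op Q := ∑ e : I → Bool, (∏ i, wbr (e i)) • D.Ke x e

/-- The projector onto the reference vectors of the blocks. -/
noncomputable def Pref : Op Q :=
  tp fun q => match D.bl q with
    | some _ => kb (D.ref q) (D.ref q)
    | none => 1

/-- The factor of a block qubit. -/
noncomputable def bfac (x e e' : I → Bool) (O : Q → M2) (q : Q) : ℂ :=
  match D.bl q with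
  | some i => sc (D.ξ q (x i) (e i)) (O q) (D.ξ q (x i) (e' i))
  | none => 1

/-- Restriction of a family of one-qubit operators to the qubits outside the blocks. -/
def onR (O : Q → M2) (q : Q) : M2 := if D.isR q then O q else 1

/-- **Lemma K** for one pair of branches. -/
lemma K_lemma (x e e' : I → Bool) (O : Q → M2) (u u' : Vec (Q → Bool)) (hu' : act D.Pref u' = u') :
    ⟪act (D.Ke x e) u, act (tp O) (act (D.Ke x e') u')⟫_ℂ
      = (∏ q, D.bfac x e e' O q) * ⟪u, act (tp (D.onR O)) u'⟫_ℂ := by
  have h1 : star (D.Ke x e) * tp O * D.Ke x e'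
      = (∏ q, D.bfac x e e' O q) • (tp (D.onR O) * D.Pref) := by
    unfold Ke Pref
    rw [tp_star, tp_mul, tp_mul, tp_mul, ← tp_smul]
    congr 1
    funext q
    unfold Kq bfac onR isR
    cases hq : D.bl q with
    | none => simp [star_one]
    | some i =>
      simp only [star_kb, Option.isNone_some, Bool.false_eq_true, if_false, one_mul]
      rw [kb_mul, kb_mul_kb, ← inner_act]
      rfl
  have h2 : ⟪act (D.Ke x e) u, act (tp O) (act (D.Ke x e') u')⟫_ℂ
      = ⟪u, act (star (D.Ke x e) * tp O * D.Ke x e') u'⟫_ℂ := by
    rw [mul_assoc, act_mul, act_mul, inner_act (star (D.Ke x e)), star_star]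
  rw [h2, h1, act_smul, act_mul, hu', inner_smul_right]

/-- **Lemma K**, summed over the branches. -/
lemma Kx_lemma (x : I → Bool) (O : Q → M2) (u u' : Vec (Q → Bool)) (hu' : act D.Pref u' = u') :
    ⟪act (D.Kx x) u, act (tp O) (act (D.Kx x) u')⟫_ℂ
      = ∑ e : I → Bool, ∑ e' : I → Bool, (∏ i, conj (wbr (e i))) * (∏ i, wbr (e' i))
          * (∏ q, D.bfac x e e' O q) * ⟪u, act (tp (D.onR O)) u'⟫_ℂ := by
  have h1 : ∀ v : Vec (Q → Bool), act (D.Kx x) v
      = ∑ e : I → Bool, (∏ i, wbr (e i)) • act (D.Ke x e) v := by
    intro v
    unfold Kx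
    rw [HSys.act_sum']
    simp only [act_smul]
  rw [h1, h1, act_vsum, sum_inner]
  refine Finset.sum_congr rfl fun e _ => ?_
  rw [inner_sum]
  refine Finset.sum_congr rfl fun e' _ => ?_
  rw [act_vsmul, inner_smul_left, inner_smul_right, K_lemma D x e e' O u u' hu', map_prod]
  ring

/-! ### The base vectors -/

/-- The reference product vector: the reference at the blocks, `e false` elsewhere. -/
noncomputable def ubase (q : Q) : V2 :=
  match D.bl q with
  | some _ => D.ref q
  | none => e false

/-- The factors of the vector of a branch. -/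
noncomputable def fv (x br : I → Bool) (q : Q) : V2 :=
  match D.bl q with
  | some i => D.ξ q (x i) (br i)
  | none => e false

lemma Ke_ubase (x br : I → Bool) : act (D.Ke x br) (pv D.ubase) = pv (D.fv x br) := by
  unfold Ke
  rw [act_tp_pv]
  congr 1
  funext q
  unfold Kq ubase fv
  cases hq : D.bl q with
  | none => simp [act_one]
  | some i =>
    simp only
    rw [act_kb, inner_self_eq_norm_sq_to_K, D.ref_unit]
    simp

/-- The vector of a bit string, with the reference state outside the blocks. -/
noncomputable def Φv (x : I → Bool) : Vec (Q → Bool) := act (D.Kx x) (pv D.ubase)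

lemma Φv_eq (x : I → Bool) :
    D.Φv x = ∑ br : I → Bool, (∏ i, wbr (br i)) • pv (D.fv x br) := by
  unfold Φv Kx
  rw [HSys.act_sum']
  refine Finset.sum_congr rfl fun br _ => ?_
  rw [act_smul, Ke_ubase]

/-- The product of reflections of the blocks. -/
noncomputable def Tb : Op Q :=
  Ty D.bl D.pt (fun _ => 1) (Finset.univ : Finset I).toList

lemma bw_one_eq (b : Bool) : bw 1 b = wbr b := by
  cases b <;> simp [wbr]

/-- The block operator is the product of the reflections after the flips of the inputs. -/
lemma Kx_eq_Tb (x : I → Bool) : D.Kx x = D.Tb * D.Ke x (fun _ => false) := by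
  unfold Tb Kx
  rw [Ty_expand D.bl D.pt (fun _ => 1) _ (Finset.nodup_toList _)
    (fun l => Finset.mem_toList.mpr (Finset.mem_univ l)), Finset.sum_mul]
  refine Finset.sum_congr rfl fun br _ => ?_
  rw [smul_mul_assoc]
  simp only [bw_one_eq]
  congr 1
  unfold Pa Ke
  rw [tp_mul]
  congr 1
  funext q
  unfold Kq
  cases hq : D.bl q with
  | none => simp [pw]
  | some i =>
    simp only [oext_some]
    rw [mul_kb]
    cases hb : br i with
    | false => simp [pw, act_one]
    | true => simp [pw, D.ξ_true]

lemma Tb_invol : star D.Tb = D.Tb ∧ D.Tb * D.Tb = 1 :=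
  Ty_invol D.pt_proj D.bl _ (fun _ => Or.inr rfl) _ (Finset.nodup_toList _)

lemma norm_Ke_ubase (x : I → Bool) : ‖pv (D.fv x fun _ => false)‖ ≤ 1 := by
  refine norm_pv_le fun q => ?_
  unfold fv
  cases hq : D.bl q with
  | none => simp [norm_e]
  | some i => exact (D.ξ_unit q (x i)).le

/-- The vector of a bit string has norm at most one. -/
lemma norm_Φv_le (x : I → Bool) : ‖D.Φv x‖ ≤ 1 := by
  unfold Φv
  rw [Kx_eq_Tb, act_mul, norm_act_of_star_mul, Ke_ubase]
  · exact D.norm_Ke_ubase x
  · rw [D.Tb_invol.1, D.Tb_invol.2]

/-- Opened qubits carry the reference vector. -/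
lemma sys_P0_fv (x br : I → Bool) : act D.sys.P0 (pv (D.fv x br)) = pv (D.fv x br) := by
  unfold HSys.P0
  rw [act_tp_pv]
  congr 1
  funext q
  by_cases h : D.RS q = true
  · have h1 : D.bl q = none := by
      simp only [RS, isR, Bool.and_eq_true, Option.isNone_iff_eq_none] at h
      exact h.1
    have h2 : D.sys.RS q = true := h
    simp only [h2, if_true, fv, h1]
    rw [act_kb, inner_self_eq_norm_sq_to_K, norm_e]
    simp
  · have h2 : D.sys.RS q = false := by
      show D.RS q = false
      simpa using h
    simp only [h2, Bool.false_eq_true, if_false, act_one]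

lemma sys_P0_Φv (x : I → Bool) : act D.sys.P0 (D.Φv x) = D.Φv x := by
  rw [Φv_eq, act_vsum]
  refine Finset.sum_congr rfl fun br _ => ?_
  rw [act_vsmul, sys_P0_fv]

end CoreData

end Vale.Agent.Lib.P368
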