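import Vale.Agent.Lib.P368.D3.CoreData

/-! The signed expectation in terms of the opened form. -/

namespace Vale.Agent.Lib.P368

open Matrix Finset
open scoped Matrix.Norms.L2Operator InnerProductSpace ComplexConjugate

set_option linter.unusedSectionVars false
set_option linter.unusedSimpArgs false
set_option linter.unusedVariables false

variable {Q I G : Type} [Fintype Q] [DecidableEq Q] [Fintype I] [DecidableEq I] [Fintype G]
  [DecidableEq G]

/-- Moving the last of three sums to the front. -/
lemma sum_swap3 {A B C M : Type} [Fintype A] [Fintype B] [Fintype C] [AddCommMonoid M]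
    (F : A → B → C → M) : ∑ a, ∑ b, ∑ c, F a b c = ∑ c, ∑ a, ∑ b, F a b c := by
  calc _ = ∑ a, ∑ c, ∑ b, F a b c := Finset.sum_congr rfl fun a _ => Finset.sum_comm
    _ = _ := Finset.sum_comm

/-- The rearrangement of a sixfold sum. -/
lemma sum6 {K R B T : Type} [Fintype K] [Fintype R] [Fintype B] [Fintype T]
    (τ : K → R → R → B → T → T → ℂ) :
    ∑ k, ∑ r, ∑ r', ∑ b, ∑ a, ∑ a', τ k r r' b a a'
      = ∑ b, ∑ a, ∑ a', ∑ r, ∑ r', ∑ k, τ k r r' b a a' := by
  calc ∑ k, ∑ r, ∑ r', ∑ b, ∑ a, ∑ a', τ k r r' b a a'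
      = ∑ r, ∑ k, ∑ r', ∑ b, ∑ a, ∑ a', τ k r r' b a a' := Finset.sum_comm
    _ = ∑ r, ∑ r', ∑ k, ∑ b, ∑ a, ∑ a', τ k r r' b a a' :=
        Finset.sum_congr rfl fun r _ => Finset.sum_comm
    _ = ∑ r, ∑ r', ∑ b, ∑ k, ∑ a, ∑ a', τ k r r' b a a' :=
        Finset.sum_congr rfl fun r _ => Finset.sum_congr rfl fun r' _ => Finset.sum_comm
    _ = ∑ r, ∑ r', ∑ b, ∑ a, ∑ k, ∑ a', τ k r r' b a a' :=
        Finset.sum_congr rfl fun r _ => Finset.sum_congr rfl fun r' _ =>
          Finset.sum_congr rfl fun b _ => Finset.sum_comm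
    _ = ∑ r, ∑ r', ∑ b, ∑ a, ∑ a', ∑ k, τ k r r' b a a' :=
        Finset.sum_congr rfl fun r _ => Finset.sum_congr rfl fun r' _ =>
          Finset.sum_congr rfl fun b _ => Finset.sum_congr rfl fun a _ => Finset.sum_comm
    _ = ∑ b, ∑ r, ∑ r', ∑ a, ∑ a', ∑ k, τ k r r' b a a' :=
        sum_swap3 fun r r' b => ∑ a, ∑ a', ∑ k, τ k r r' b a a'
    _ = ∑ b, ∑ a, ∑ r, ∑ r', ∑ a', ∑ k, τ k r r' b a a' :=
        Finset.sum_congr rfl fun b _ => sum_swap3 fun r r' a => ∑ a', ∑ k, τ k r r' b a a'
    _ = _ :=
        Finset.sum_congr rfl fun b _ => Finset.sum_congr rfl fun a _ =>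
          sum_swap3 fun r r' a' => ∑ k, τ k r r' b a a'

namespace CoreData

variable (D : CoreData Q I G)

/-- The opened form of a bit string. -/
noncomputable def rho (Y : G → Bool) (x : I → Bool) (a a' : Q → Bool) : ℂ :=
  ⟪act (D.sys.A a) (D.Φv x), act (D.sys.hat Y) (act (D.sys.A a') (D.Φv x))⟫_ℂ

/-- The bit of a gate in a pattern. -/
def Ybit (b : Q → Bool) (l : G) : Bool :=
  decide (∀ q, D.RN q = true → D.gt q = some l → b q = true)

/-- The one-qubit operators of a term. -/
noncomputable def Ok (k : G → J) (q : Q) : M2 := Oj D.π D.E (oext (false, false) k (D.gt q)) q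

/-- The restriction to the opened qubits. -/
noncomputable def Xk (k : G → J) (q : Q) : M2 := if D.RS q then D.Ok k q else 1

/-- The qubits where a term has the gate projector. -/
def dk (k : G → J) (q : Q) : Bool := decide (oext (false, false) k (D.gt q) ≠ (false, false))

lemma Ok_RN (k : G → J) (q : Q) (h : D.RN q = true) :
    D.Ok k q = if D.dk k q then D.π q else 1 := by
  have h1 : D.sS q = false := by
    simp only [RN, Bool.and_eq_true, Bool.not_eq_true'] at h
    exact h.2
  have hi := (D.π_proj q).isIdempotentElem.eq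
  unfold Ok dk Oj E
  rw [h1]
  rcases oext (false, false) k (D.gt q) with ⟨_ | _, _ | _⟩ <;> simp [pw, hi]

/-- The restriction to the qubits outside the blocks in spectral form. -/
lemma onR_Ok (k : G → J) :
    D.onR (D.Ok k) = fun q => if D.RN q && D.dk k q then D.π q else D.Xk k q := by
  funext q
  unfold onR Xk
  by_cases hR : D.isR q = true
  · by_cases hS : D.sS q = true
    · have h1 : D.RN q = false := by simp [RN, hS]
      have h2 : D.RS q = true := by simp [RS, hR, hS]
      simp [hR, h1, h2]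
    · have h1 : D.RN q = true := by simp [RN, hR, hS]
      have h2 : D.RS q = false := by simp [RS, hS]
      rw [if_pos hR, Ok_RN D k q h1]
      simp [h1, h2]
  · have h1 : D.RN q = false := by simp [RN, hR]
    have h2 : D.RS q = false := by simp [RS, hR]
    simp [hR, h1, h2]

/-- The identity at one qubit. -/
lemma qubit_id (x br br' : I → Bool) (j : J) (q : Q) (α α' : Bool) :
    D.bfac x br br' (Oj D.π D.E j) q
        * coq D.RS (fun q => if D.RS q then Oj D.π D.E j q else 1) q α α'
      = sc (act (D.sys.aq q α) (D.fv x br q)) (Oj D.sys.π D.sys.E j q)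
          (act (D.sys.aq q α') (D.fv x br' q)) := by
  cases hb : D.bl q with
  | some i =>
    have h1 : D.RS q = false := by simp [RS, isR, hb]
    have h2 : D.RN q = false := by simp [RN, isR, hb]
    have h3 : D.sys.RS q = false := h1
    have h4 : D.sys.π q = D.π q := by simp [sys, h2]
    have h5 : D.sys.E q = D.E q := rfl
    have h6 : Oj D.sys.π D.sys.E j q = Oj D.π D.E j q := by unfold Oj; rw [h4, h5]
    rw [h6]
    simp only [bfac, coq, fv, HSys.aq, hb, h1, h3]
    cases α <;> cases α' <;> simp [act_one, sc, act]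
  | none =>
    by_cases hS : D.sS q = true
    · have h1 : D.RS q = true := by simp [RS, isR, hb, hS]
      have h2 : D.RN q = false := by simp [RN, hS]
      have h3 : D.sys.RS q = true := h1
      have h4 : D.sys.π q = D.π q := by simp [sys, h2]
      have h5 : D.sys.E q = D.E q := rfl
      have h6 : Oj D.sys.π D.sys.E j q = Oj D.π D.E j q := by unfold Oj; rw [h4, h5]
      rw [h6]
      simp only [bfac, coq, fv, HSys.aq, hb, h1, h3, if_true, one_mul]
      rw [act_kb, act_kb, inner_self_eq_norm_sq_to_K, norm_e]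
      simp only [Complex.ofReal_one, one_pow, one_smul, RCLike.ofReal_one]
      rw [sc_eq_inner_act, inner_e_act]
    · have hS' : D.sS q = false := by simpa using hS
      have h1 : D.RS q = false := by simp [RS, hS']
      have h2 : D.RN q = true := by simp [RN, isR, hb, hS']
      have h3 : D.sys.RS q = false := h1
      have h4 : D.sys.π q = 1 := by simp [sys, h2]
      have h5 : D.sys.E q = 1 := by
        show D.E q = 1
        simp [E, hS']
      have h6 : Oj D.sys.π D.sys.E j q = 1 := by
        unfold Oj; rw [h4, h5]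
        rcases j with ⟨_ | _, _ | _⟩ <;> simp [pw]
      rw [h6]
      simp only [bfac, coq, fv, HSys.aq, hb, h1, h3, one_mul]
      cases α <;> cases α' <;> simp [act_one, sc, act, inner_self_eq_norm_sq_to_K, norm_e]

/-- The identity for the product over the qubits. -/
lemma prod_id (x br br' : I → Bool) (k : G → J) (a a' : Q → Bool) :
    (∏ q, D.bfac x br br' (D.Ok k) q) * (∏ q, coq D.RS (D.Xk k) q (a q) (a' q))
      = ∏ q, sc (act (D.sys.aq q (a q)) (D.fv x br q))
          (Oj D.sys.π D.sys.E (oext (false, false) k (D.gt q)) q)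
          (act (D.sys.aq q (a' q)) (D.fv x br' q)) := by
  rw [← Finset.prod_mul_distrib]
  refine Finset.prod_congr rfl fun q _ => ?_
  exact D.qubit_id x br br' (oext (false, false) k (D.gt q)) q (a q) (a' q)

/-- The identity for the coefficients. -/
lemma coef_id (b : Q → Bool) (k : G → J) :
    (∏ l, cw ((HSys.bc true)) (k l)) * (∏ q, Pscal D.RN (D.dk k) q (b q))
      = ∏ l, cw (HSys.bc (D.Ybit b l)) (k l) := by
  set hh : Q → J → ℂ := fun q j => if D.RN q && decide (j ≠ (false, false)) && !b q then 0 else 1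
    with hhh
  have h1 : ∀ q, Pscal D.RN (D.dk k) q (b q) = hh q (oext (false, false) k (D.gt q)) := fun q => rfl
  rw [Finset.prod_congr rfl fun q _ => h1 q, prod_by_gate]
  have h2 : ∏ q ∈ Finset.univ.filter (fun q => D.gt q = none), hh q (false, false) = 1 :=
    Finset.prod_eq_one fun q _ => by simp [hhh]
  rw [h2, one_mul, ← Finset.prod_mul_distrib]
  refine Finset.prod_congr rfl fun l _ => ?_
  by_cases hk : k l = (false, false)
  · rw [hk]
    have h3 : ∏ q ∈ Finset.univ.filter (fun q => D.gt q = some l), hh q (false, false) = 1 :=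
      Finset.prod_eq_one fun q _ => by simp [hhh]
    rw [h3]
    cases D.Ybit b l <;> simp [cw, HSys.bc]
  · by_cases hY : D.Ybit b l = true
    · have h3 : ∏ q ∈ Finset.univ.filter (fun q => D.gt q = some l), hh q (k l) = 1 := by
        refine Finset.prod_eq_one fun q hq => ?_
        have hq1 : D.gt q = some l := (Finset.mem_filter.mp hq).2
        have hY' : ∀ q, D.RN q = true → D.gt q = some l → b q = true := by
          simpa [Ybit] using hY
        by_cases hR : D.RN q = true
        · simp [hhh, hY' q hR hq1]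
        · simp [hhh, hR]
      rw [h3, hY, mul_one]
    · have hY2 : D.Ybit b l = false := by simpa using hY
      have hY' : ¬ ∀ q, D.RN q = true → D.gt q = some l → b q = true := by
        simpa [Ybit] using hY2
      push Not at hY'
      obtain ⟨q0, hq0, hq1, hq2⟩ := hY'
      have h3 : ∏ q ∈ Finset.univ.filter (fun q => D.gt q = some l), hh q (k l) = 0 := by
        refine Finset.prod_eq_zero (Finset.mem_filter.mpr ⟨Finset.mem_univ q0, hq1⟩) ?_
        simp [hhh, hq0, hk, hq2]
      rw [h3, hY2, mul_zero]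
      rcases hkl : k l with ⟨_ | _, _ | _⟩
      · exact absurd hkl hk
      · simp [cw, HSys.bc]
      · simp [cw, HSys.bc]
      · simp [cw, HSys.bc]

/-- The expansion of the opened form. -/
lemma rho_expand (Y : G → Bool) (x : I → Bool) (a a' : Q → Bool) :
    D.rho Y x a a' = ∑ r : I → Bool, ∑ r' : I → Bool, ∑ k : G → J,
      ((∏ i, conj (wbr (r i))) * (∏ i, wbr (r' i))) * ((∏ l, cw (HSys.bc (Y l)) (k l))
        * ∏ q, sc (act (D.sys.aq q (a q)) (D.fv x r q))
          (Oj D.sys.π D.sys.E (oext (false, false) k (D.gt q)) q)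
          (act (D.sys.aq q (a' q)) (D.fv x r' q))) := by
  unfold rho
  rw [Φv_eq, act_vsum, act_vsum, act_vsum, sum_inner]
  refine Finset.sum_congr rfl fun r _ => ?_
  rw [inner_sum]
  refine Finset.sum_congr rfl fun r' _ => ?_
  rw [act_vsmul, act_vsmul, act_vsmul, inner_smul_left, inner_smul_right, HSys.act_A_pv,
    HSys.act_A_pv, HSys.inner_hat_pv, map_prod, Finset.mul_sum, Finset.mul_sum]
  refine Finset.sum_congr rfl fun k _ => ?_
  rw [show D.sys.gt = D.gt from rfl]
  ring

/-- **The opened form of the expectation.** -/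
theorem sform (x : I → Bool) (Ω : Vec (Q → Bool)) (hΩ : act D.Pref Ω = Ω) :
    ⟪act (D.Kx x) Ω, act (D.full.hat fun _ => true) (act (D.Kx x) Ω)⟫_ℂ
      = ∑ b : Q → Bool, ∑ a : Q → Bool, ∑ a' : Q → Bool, D.rho (D.Ybit b) x a a'
          * ⟪act (Pb D.RN D.π b) Ω, act (MU D.RS a a') (act (Pb D.RN D.π b) Ω)⟫_ℂ := by
  set Z : (Q → Bool) → (Q → Bool) → (Q → Bool) → ℂ :=
    fun b a a' => ⟪act (Pb D.RN D.π b) Ω, act (MU D.RS a a') (act (Pb D.RN D.π b) Ω)⟫_ℂ with hZ
  -- the part outside the blocks
  have hR : ∀ k : G → J, ⟪Ω, act (tp (D.onR (D.Ok k))) Ω⟫_ℂ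
      = ∑ b : Q → Bool, ∑ a : Q → Bool, ∑ a' : Q → Bool,
          (∏ q, Pscal D.RN (D.dk k) q (b q)) * ((∏ q, coq D.RS (D.Xk k) q (a q) (a' q)) * Z b a a') := by
    intro k
    rw [onR_Ok, Pb_decomp D.π_proj (D.dk k) (D.Xk k) ?_ Ω]
    · refine Finset.sum_congr rfl fun b _ => ?_
      rw [MU_decomp D.RS (D.Xk k) ?_, HSys.act_sum', inner_sum, Finset.mul_sum]
      · refine Finset.sum_congr rfl fun a _ => ?_
        rw [HSys.act_sum', inner_sum, Finset.mul_sum]
        refine Finset.sum_congr rfl fun a' _ => ?_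
        rw [act_smul, inner_smul_right]
      · intro q hq
        simp [Xk, hq]
    · intro q hq
      have : D.RS q = false := by
        simp only [RN, Bool.and_eq_true, Bool.not_eq_true'] at hq
        simp [RS, hq.2]
      simp [Xk, this]
  -- expand the left side
  have h1 : ⟪act (D.Kx x) Ω, act (D.full.hat fun _ => true) (act (D.Kx x) Ω)⟫_ℂ
      = ∑ k : G → J, ∑ r : I → Bool, ∑ r' : I → Bool, ∑ b : Q → Bool, ∑ a : Q → Bool,
          ∑ a' : Q → Bool, ((∏ i, conj (wbr (r i))) * (∏ i, wbr (r' i)))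
            * ((∏ l, cw (HSys.bc (D.Ybit b l)) (k l))
              * ∏ q, sc (act (D.sys.aq q (a q)) (D.fv x r q))
                (Oj D.sys.π D.sys.E (oext (false, false) k (D.gt q)) q)
                (act (D.sys.aq q (a' q)) (D.fv x r' q))) * Z b a a' := by
    rw [HSys.hat_expand, HSys.act_sum', inner_sum]
    refine Finset.sum_congr rfl fun k _ => ?_
    rw [act_smul, inner_smul_right]
    have h2 : (fun q => Oj D.full.π D.full.E (oext (false, false) k (D.full.gt q)) q) = D.Ok k := rfl
    rw [h2, Kx_lemma D x _ _ _ hΩ, Finset.mul_sum]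
    refine Finset.sum_congr rfl fun r _ => ?_
    rw [Finset.mul_sum]
    refine Finset.sum_congr rfl fun r' _ => ?_
    rw [hR]
    simp only [Finset.mul_sum]
    refine Finset.sum_congr rfl fun b _ => Finset.sum_congr rfl fun a _ =>
      Finset.sum_congr rfl fun a' _ => ?_
    rw [← D.prod_id x r r' k a a', ← D.coef_id b k]
    ring
  rw [h1, sum6]
  refine Finset.sum_congr rfl fun b _ => Finset.sum_congr rfl fun a _ =>
    Finset.sum_congr rfl fun a' _ => ?_
  rw [rho_expand, Finset.sum_mul]
  refine Finset.sum_congr rfl fun r _ => ?_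
  rw [Finset.sum_mul]
  refine Finset.sum_congr rfl fun r' _ => ?_
  rw [Finset.sum_mul]

end CoreData

end Vale.Agent.Lib.P368
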