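import Mathlib

/-! Approximate tensorization of products of gate functions (pure complex analysis). -/

namespace Vale.Agent.Lib.P368

open Finset

set_option linter.unusedSectionVars false
set_option linter.unusedSimpArgs false
set_option linter.unusedVariables false

/-- The difference of two products of contractions. -/
lemma norm_prod_sub_prod_le' {ι : Type} [DecidableEq ι] (s : Finset ι) (A B : ι → ℂ)
    (hA : ∀ i ∈ s, ‖A i‖ ≤ 1) (hB : ∀ i ∈ s, ‖B i‖ ≤ 1) :
    ‖∏ i ∈ s, A i - ∏ i ∈ s, B i‖ ≤ ∑ i ∈ s, ‖A i - B i‖ := by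
  induction s using Finset.induction_on with
  | empty => simp
  | insert a s ha ih =>
    rw [Finset.prod_insert ha, Finset.prod_insert ha, Finset.sum_insert ha]
    have h1 := ih (fun i hi => hA i (Finset.mem_insert_of_mem hi))
      (fun i hi => hB i (Finset.mem_insert_of_mem hi))
    have h2 : ‖∏ i ∈ s, B i‖ ≤ 1 := by
      rw [norm_prod]
      exact Finset.prod_le_one (fun _ _ => norm_nonneg _)
        fun i hi => hB i (Finset.mem_insert_of_mem hi)
    have h3 := hA a (Finset.mem_insert_self _ _)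
    have h4 : A a * ∏ i ∈ s, A i - B a * ∏ i ∈ s, B i
        = A a * (∏ i ∈ s, A i - ∏ i ∈ s, B i) + (A a - B a) * ∏ i ∈ s, B i := by ring
    rw [h4]
    calc _ ≤ ‖A a * (∏ i ∈ s, A i - ∏ i ∈ s, B i)‖ + ‖(A a - B a) * ∏ i ∈ s, B i‖ := norm_add_le _ _
      _ = ‖A a‖ * ‖∏ i ∈ s, A i - ∏ i ∈ s, B i‖ + ‖A a - B a‖ * ‖∏ i ∈ s, B i‖ := by
          rw [norm_mul, norm_mul]
      _ ≤ 1 * ∑ i ∈ s, ‖A i - B i‖ + ‖A a - B a‖ * 1 := by
          gcongr
      _ = _ := by ring

variable {I S C : Type} [Fintype I] [DecidableEq I] [Fintype S] [DecidableEq S]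

/-- A gate function: a sum over gate labels of products over the blocks. -/
def thetaA (U : S → ℂ) (t : I → C → S → ℂ) (c : I → C) : ℂ := ∑ σ, U σ * ∏ i, t i (c i) σ

/-- The configuration equal to `c` on `A` and to `cs` off `A`. -/
def mixC (cs c : I → C) (A : Finset I) : I → C := fun i => if i ∈ A then c i else cs i

lemma mixC_empty (cs c : I → C) : mixC cs c ∅ = cs := by
  funext i; simp [mixC]

lemma mixC_univ (cs c : I → C) : mixC cs c Finset.univ = c := by
  funext i; simp [mixC]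

lemma mixC_singleton (cs c : I → C) (i : I) : mixC cs c {i} = Function.update cs i (c i) := by
  funext j
  by_cases h : j = i
  · subst h; simp [mixC]
  · simp [mixC, h, Function.update_of_ne h]

/-- The potential of a set of blocks. -/
def potW (W : I → ℝ) (A : Finset I) : ℝ := ∑ i ∈ A, ∑ j ∈ A, if j ≠ i then W i * W j else 0

lemma potW_insert (W : I → ℝ) (hW : ∀ i, 0 ≤ W i) {i : I} {A : Finset I} (hi : i ∉ A) :
    potW W A + W i * ∑ j ∈ A, W j ≤ potW W (insert i A) := by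
  unfold potW
  rw [Finset.sum_insert hi, Finset.sum_insert hi]
  have h1 : ∑ j ∈ A, (if j ≠ i then W i * W j else 0) = W i * ∑ j ∈ A, W j := by
    rw [Finset.mul_sum]
    refine Finset.sum_congr rfl fun j hj => ?_
    have : j ≠ i := fun h => hi (h ▸ hj)
    simp [this]
  have h2 : ∑ i' ∈ A, ∑ j ∈ A, (if j ≠ i' then W i' * W j else 0)
      ≤ ∑ x ∈ A, ∑ j ∈ insert i A, if j ≠ x then W x * W j else 0 := by
    refine Finset.sum_le_sum fun x _ => ?_
    refine Finset.sum_le_sum_of_subset_of_nonneg (Finset.subset_insert _ _) fun j _ _ => ?_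
    split_ifs
    · exact mul_nonneg (hW _) (hW _)
    · exact le_rfl
  simp only [ne_eq, not_true_eq_false, if_false, zero_add]
  rw [h1]
  nlinarith [h2, mul_nonneg (hW i) (Finset.sum_nonneg (fun j (_ : j ∈ A) => hW j))]

variable (U : S → ℂ) (t : I → C → S → ℂ)

/-- Splitting a product over the blocks. -/
lemma prod_split_blocks (f : I → ℂ) {i : I} {A : Finset I} (hi : i ∉ A) :
    ∏ j, f j = f i * (∏ j ∈ A, f j) * ∏ j ∈ (insert i A)ᶜ, f j := by
  have h := Finset.prod_mul_prod_compl (insert i A) f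
  rw [Finset.prod_insert hi] at h
  exact h.symm

/-- The key step. -/
lemma gate_step (b χ : ℝ) (hχ : 0 ≤ χ) (hb : 0 ≤ b) (W : I → ℝ) (hW0 : ∀ i, 0 ≤ W i)
    (ht : ∀ i c σ, ‖t i c σ‖ ≤ 1)
    (hW : ∀ i c c' σ σ', ‖t i c σ * t i c' σ' - t i c' σ * t i c σ'‖ ≤ W i)
    (hUU : ∀ σ σ', σ ≠ σ' → ‖U σ‖ * ‖U σ'‖ ≤ b * χ)
    (cs c : I → C) {i : I} {A : Finset I} (hi : i ∉ A) :
    ‖thetaA U t (mixC cs c (insert i A)) * thetaA U t cs
        - thetaA U t (mixC cs c A) * thetaA U t (Function.update cs i (c i))‖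
      ≤ (Fintype.card S : ℝ) ^ 2 * b * χ * (W i * ∑ j ∈ A, W j) := by
  set Z : S → ℂ := fun σ => ∏ j ∈ (insert i A)ᶜ, t j (cs j) σ with hZ
  set x : S → ℂ := fun σ => ∏ j ∈ A, t j (c j) σ with hx
  set xs : S → ℂ := fun σ => ∏ j ∈ A, t j (cs j) σ with hxs
  set T : S → ℂ := fun σ => t i (c i) σ with hT
  set Ts : S → ℂ := fun σ => t i (cs i) σ with hTs
  set v : S → ℂ := fun σ => U σ * Z σ with hv
  have hZ1 : ∀ σ, ‖Z σ‖ ≤ 1 := by
    intro σ
    rw [hZ]
    simp only [norm_prod]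
    exact Finset.prod_le_one (fun _ _ => norm_nonneg _) fun j _ => ht _ _ _
  have hcomplA : ∀ j ∈ (insert i A)ᶜ, j ≠ i ∧ j ∉ A := by
    intro j hj
    have h := Finset.mem_compl.mp hj
    rw [Finset.mem_insert, not_or] at h
    exact h
  have hth1 : thetaA U t (mixC cs c (insert i A)) = ∑ σ, v σ * (T σ * x σ) := by
    unfold thetaA
    refine Finset.sum_congr rfl fun σ _ => ?_
    rw [prod_split_blocks _ hi]
    have h1 : t i (mixC cs c (insert i A) i) σ = T σ := by simp [mixC, hT]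
    have h2 : ∏ j ∈ A, t j (mixC cs c (insert i A) j) σ = x σ := by
      refine Finset.prod_congr rfl fun j hj => ?_
      simp [mixC, hj]
    have h3 : ∏ j ∈ (insert i A)ᶜ, t j (mixC cs c (insert i A) j) σ = Z σ := by
      refine Finset.prod_congr rfl fun j hj => ?_
      have h4 := hcomplA j hj
      simp [mixC, h4.1, h4.2]
    rw [h1, h2, h3, hv]
    ring
  have hth2 : thetaA U t cs = ∑ σ, v σ * (Ts σ * xs σ) := by
    unfold thetaA
    refine Finset.sum_congr rfl fun σ _ => ?_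
    rw [prod_split_blocks _ hi]
    rw [hv]
    ring
  have hth3 : thetaA U t (mixC cs c A) = ∑ σ, v σ * (Ts σ * x σ) := by
    unfold thetaA
    refine Finset.sum_congr rfl fun σ _ => ?_
    rw [prod_split_blocks _ hi]
    have h1 : t i (mixC cs c A i) σ = Ts σ := by simp [mixC, hTs, hi]
    have h2 : ∏ j ∈ A, t j (mixC cs c A j) σ = x σ := by
      refine Finset.prod_congr rfl fun j hj => ?_
      simp [mixC, hj]
    have h3 : ∏ j ∈ (insert i A)ᶜ, t j (mixC cs c A j) σ = Z σ := by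
      refine Finset.prod_congr rfl fun j hj => ?_
      have h4 := hcomplA j hj
      simp [mixC, h4.2]
    rw [h1, h2, h3, hv]
    ring
  have hth4 : thetaA U t (Function.update cs i (c i)) = ∑ σ, v σ * (T σ * xs σ) := by
    unfold thetaA
    refine Finset.sum_congr rfl fun σ _ => ?_
    rw [prod_split_blocks _ hi]
    have h1 : t i (Function.update cs i (c i) i) σ = T σ := by simp [hT]
    have h2 : ∏ j ∈ A, t j (Function.update cs i (c i) j) σ = xs σ := by
      refine Finset.prod_congr rfl fun j hj => ?_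
      have : j ≠ i := fun h => hi (h ▸ hj)
      rw [Function.update_of_ne this]
    have h3 : ∏ j ∈ (insert i A)ᶜ, t j (Function.update cs i (c i) j) σ = Z σ := by
      refine Finset.prod_congr rfl fun j hj => ?_
      rw [Function.update_of_ne (hcomplA j hj).1]
    rw [h1, h2, h3, hv]
    ring
  rw [hth1, hth2, hth3, hth4]
  set E := (∑ σ, v σ * (T σ * x σ)) * (∑ σ, v σ * (Ts σ * xs σ))
    - (∑ σ, v σ * (Ts σ * x σ)) * (∑ σ, v σ * (T σ * xs σ)) with hE
  -- the two forms of the error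
  have hE1 : E = ∑ σ, ∑ σ', v σ * v σ' * ((T σ * Ts σ' - Ts σ * T σ') * (x σ * xs σ')) := by
    rw [hE, Finset.sum_mul_sum, Finset.sum_mul_sum, ← Finset.sum_sub_distrib]
    refine Finset.sum_congr rfl fun σ _ => ?_
    rw [← Finset.sum_sub_distrib]
    refine Finset.sum_congr rfl fun σ' _ => ?_
    ring
  have hE2 : E = -∑ σ, ∑ σ', v σ * v σ' * ((T σ * Ts σ' - Ts σ * T σ') * (x σ' * xs σ)) := by
    rw [hE1, Finset.sum_comm, ← Finset.sum_neg_distrib]
    refine Finset.sum_congr rfl fun σ _ => ?_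
    rw [← Finset.sum_neg_distrib]
    refine Finset.sum_congr rfl fun σ' _ => ?_
    ring
  have hE3 : 2 * E = ∑ σ, ∑ σ', v σ * v σ' * ((T σ * Ts σ' - Ts σ * T σ')
      * (x σ * xs σ' - x σ' * xs σ)) := by
    have h : 2 * E = E + E := by ring
    rw [h]
    nth_rewrite 1 [hE1]
    rw [hE2, ← sub_eq_add_neg, ← Finset.sum_sub_distrib]
    refine Finset.sum_congr rfl fun σ _ => ?_
    rw [← Finset.sum_sub_distrib]
    refine Finset.sum_congr rfl fun σ' _ => ?_
    ring
  -- the minors of the products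
  have hminor : ∀ σ σ', ‖x σ * xs σ' - x σ' * xs σ‖ ≤ ∑ j ∈ A, W j := by
    intro σ σ'
    have h1 : x σ * xs σ' = ∏ j ∈ A, (t j (c j) σ * t j (cs j) σ') := by
      rw [Finset.prod_mul_distrib]
    have h2 : x σ' * xs σ = ∏ j ∈ A, (t j (c j) σ' * t j (cs j) σ) := by
      rw [Finset.prod_mul_distrib]
    rw [h1, h2]
    refine (norm_prod_sub_prod_le' A _ _ ?_ ?_).trans ?_
    · intro j _
      rw [norm_mul]
      exact mul_le_one₀ (ht _ _ _) (norm_nonneg _) (ht _ _ _)
    · intro j _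
      rw [norm_mul]
      exact mul_le_one₀ (ht _ _ _) (norm_nonneg _) (ht _ _ _)
    · refine Finset.sum_le_sum fun j _ => ?_
      have := hW j (c j) (cs j) σ σ'
      have h3 : t j (c j) σ * t j (cs j) σ' - t j (c j) σ' * t j (cs j) σ
          = t j (c j) σ * t j (cs j) σ' - t j (cs j) σ * t j (c j) σ' := by ring
      rw [h3]
      exact this
  have hsum0 : 0 ≤ ∑ j ∈ A, W j := Finset.sum_nonneg fun j _ => hW0 j
  -- the bound on each term
  have hterm : ∀ σ σ', ‖v σ * v σ' * ((T σ * Ts σ' - Ts σ * T σ') * (x σ * xs σ' - x σ' * xs σ))‖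
      ≤ b * χ * (W i * ∑ j ∈ A, W j) := by
    intro σ σ'
    by_cases hσ : σ = σ'
    · subst hσ
      have : T σ * Ts σ - Ts σ * T σ = 0 := by ring
      rw [this]
      simp only [zero_mul, mul_zero, norm_zero]
      have := hW0 i
      positivity
    · rw [norm_mul (v σ * v σ'), norm_mul (T σ * Ts σ' - Ts σ * T σ')]
      have h1 : ‖v σ * v σ'‖ ≤ b * χ := by
        rw [norm_mul]
        simp only [hv, norm_mul]
        have h2 := hUU σ σ' hσ
        have h3 := hZ1 σ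
        have h4 := hZ1 σ'
        calc ‖U σ‖ * ‖Z σ‖ * (‖U σ'‖ * ‖Z σ'‖) = (‖U σ‖ * ‖U σ'‖) * (‖Z σ‖ * ‖Z σ'‖) := by ring
          _ ≤ (b * χ) * (1 * 1) := by gcongr
          _ = b * χ := by ring
      have h2 : ‖T σ * Ts σ' - Ts σ * T σ'‖ ≤ W i := hW i (c i) (cs i) σ σ'
      have h3 := hminor σ σ'
      exact mul_le_mul h1 (mul_le_mul h2 h3 (norm_nonneg _) (hW0 i)) (by positivity) (by positivity)
  have h2E : ‖2 * E‖ ≤ (Fintype.card S : ℝ) ^ 2 * (b * χ * (W i * ∑ j ∈ A, W j)) := by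
    rw [hE3]
    calc _ ≤ ∑ σ : S, ∑ σ' : S, (b * χ * (W i * ∑ j ∈ A, W j)) := by
          refine (norm_sum_le _ _).trans (Finset.sum_le_sum fun σ _ => ?_)
          exact (norm_sum_le _ _).trans (Finset.sum_le_sum fun σ' _ => hterm σ σ')
      _ = _ := by
          simp only [Finset.sum_const, Finset.card_univ, nsmul_eq_mul]
          ring
  have hnorm2 : ‖(2 : ℂ) * E‖ = 2 * ‖E‖ := by simp
  rw [hnorm2] at h2E
  have hnn : 0 ≤ (Fintype.card S : ℝ) ^ 2 * (b * χ * (W i * ∑ j ∈ A, W j)) := by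
    have := hW0 i
    positivity
  nlinarith [norm_nonneg E]

/-- The tensorization bound for one gate. -/
theorem gate_tensor (b χ : ℝ) (hχ : 0 ≤ χ) (hb : 0 ≤ b) (W : I → ℝ) (hW0 : ∀ i, 0 ≤ W i)
    (ht : ∀ i c σ, ‖t i c σ‖ ≤ 1)
    (hW : ∀ i c c' σ σ', ‖t i c σ * t i c' σ' - t i c' σ * t i c σ'‖ ≤ W i)
    (hUU : ∀ σ σ', σ ≠ σ' → ‖U σ‖ * ‖U σ'‖ ≤ b * χ)
    (hθ : ∀ c, ‖thetaA U t c‖ ≤ 1)
    (cs c : I → C) (A : Finset I) :
    ‖thetaA U t (mixC cs c A) * thetaA U t cs ^ A.card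
        - thetaA U t cs * ∏ i ∈ A, thetaA U t (Function.update cs i (c i))‖
      ≤ (Fintype.card S : ℝ) ^ 2 * b * χ * potW W A := by
  induction A using Finset.induction_on with
  | empty =>
    simp [mixC_empty, potW]
  | insert i A hi ih =>
    rw [Finset.card_insert_of_notMem hi, Finset.prod_insert hi, pow_succ]
    have hstep := gate_step U t b χ hχ hb W hW0 ht hW hUU cs c hi
    set θ1 := thetaA U t (mixC cs c (insert i A))
    set θ2 := thetaA U t (mixC cs c A)
    set θs := thetaA U t cs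
    set θi := thetaA U t (Function.update cs i (c i))
    set Pr := ∏ j ∈ A, thetaA U t (Function.update cs j (c j))
    have hrew : θ1 * (θs ^ A.card * θs) - θs * (θi * Pr)
        = (θ1 * θs - θ2 * θi) * θs ^ A.card + θi * (θ2 * θs ^ A.card - θs * Pr) := by ring
    rw [hrew]
    have hs1 : ‖θs‖ ≤ 1 := hθ _
    have hi1 : ‖θi‖ ≤ 1 := hθ _
    have hsp : ‖θs ^ A.card‖ ≤ 1 := by
      rw [norm_pow]
      exact pow_le_one₀ (norm_nonneg _) hs1
    have hpot := potW_insert W hW0 hi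
    have hK : 0 ≤ (Fintype.card S : ℝ) ^ 2 * b * χ := by positivity
    calc _ ≤ ‖(θ1 * θs - θ2 * θi) * θs ^ A.card‖ + ‖θi * (θ2 * θs ^ A.card - θs * Pr)‖ :=
          norm_add_le _ _
      _ = ‖θ1 * θs - θ2 * θi‖ * ‖θs ^ A.card‖ + ‖θi‖ * ‖θ2 * θs ^ A.card - θs * Pr‖ := by
          rw [norm_mul, norm_mul]
      _ ≤ ((Fintype.card S : ℝ) ^ 2 * b * χ * (W i * ∑ j ∈ A, W j)) * 1
          + 1 * ((Fintype.card S : ℝ) ^ 2 * b * χ * potW W A) :=
          add_le_add (mul_le_mul hstep hsp (norm_nonneg _) ((norm_nonneg _).trans hstep))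
            (mul_le_mul hi1 ih (norm_nonneg _) zero_le_one)
      _ = (Fintype.card S : ℝ) ^ 2 * b * χ * (potW W A + W i * ∑ j ∈ A, W j) := by ring
      _ ≤ _ := by gcongr

/-- The tensorization bound for a product of gates. -/
theorem product_tensor {L : Type} [Fintype L] [DecidableEq L] (U : L → S → ℂ) (t : L → I → C → S → ℂ)
    (b : ℝ) (χ : L → ℝ) (hχ : ∀ l, 0 ≤ χ l) (hb : 0 ≤ b) (W : L → I → ℝ)
    (hW0 : ∀ l i, 0 ≤ W l i)
    (ht : ∀ l i c σ, ‖t l i c σ‖ ≤ 1)
    (hW : ∀ l i c c' σ σ', ‖t l i c σ * t l i c' σ' - t l i c' σ * t l i c σ'‖ ≤ W l i)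
    (hUU : ∀ l σ σ', σ ≠ σ' → ‖U l σ‖ * ‖U l σ'‖ ≤ b * χ l)
    (hθ : ∀ l c, ‖thetaA (U l) (t l) c‖ ≤ 1)
    (cs c : I → C) :
    ‖(∏ l, thetaA (U l) (t l) c) * (∏ l, thetaA (U l) (t l) cs) ^ Fintype.card I
        - (∏ l, thetaA (U l) (t l) cs)
          * ∏ i, ∏ l, thetaA (U l) (t l) (Function.update cs i (c i))‖
      ≤ (Fintype.card S : ℝ) ^ 2 * b * ∑ l, χ l * potW (W l) Finset.univ := by
  have h1 : (∏ l, thetaA (U l) (t l) c) * (∏ l, thetaA (U l) (t l) cs) ^ Fintype.card I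
      = ∏ l, (thetaA (U l) (t l) c * thetaA (U l) (t l) cs ^ Fintype.card I) := by
    rw [Finset.prod_mul_distrib, Finset.prod_pow]
  have h2 : (∏ l, thetaA (U l) (t l) cs) * ∏ i, ∏ l, thetaA (U l) (t l) (Function.update cs i (c i))
      = ∏ l, (thetaA (U l) (t l) cs * ∏ i, thetaA (U l) (t l) (Function.update cs i (c i))) := by
    rw [Finset.prod_mul_distrib, Finset.prod_comm]
  rw [h1, h2]
  refine (norm_prod_sub_prod_le' Finset.univ _ _ ?_ ?_).trans ?_
  · intro l _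
    rw [norm_mul, norm_pow]
    exact mul_le_one₀ (hθ l _) (by positivity) (pow_le_one₀ (norm_nonneg _) (hθ l _))
  · intro l _
    rw [norm_mul, norm_prod]
    exact mul_le_one₀ (hθ l _) (Finset.prod_nonneg fun _ _ => norm_nonneg _)
      (Finset.prod_le_one (fun _ _ => norm_nonneg _) fun i _ => hθ l _)
  · rw [Finset.mul_sum]
    refine Finset.sum_le_sum fun l _ => ?_
    have h3 := gate_tensor (U l) (t l) b (χ l) (hχ l) hb (W l) (hW0 l) (ht l) (hW l) (hUU l)
      (hθ l) cs c Finset.univ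
    rw [mixC_univ, Finset.card_univ] at h3
    calc _ ≤ _ := h3
      _ = _ := by ring

end Vale.Agent.Lib.P368
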