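import Vale.Agent.Lib.P368.D3.Expand
import Vale.Agent.Lib.P368.D3.Tensorize

/-! From an approximate product form of a nonnegative kernel to a bound on its signed sum. -/

namespace Vale.Agent.Lib.P368

open Finset

set_option linter.unusedSectionVars false
set_option linter.unusedSimpArgs false
set_option linter.unusedVariables false

variable {I : Type} [Fintype I] [DecidableEq I]

/-- The signed average of a two-bit kernel. -/
noncomputable def psiK (f : Bool → Bool → ℂ) : ℂ :=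
  (1 / 4 : ℂ) * (f false false + f true true - f false true - f true false)

lemma sum_sgn_two (f : Bool → Bool → ℂ) :
    ∑ a, ∑ b, ((sgnOf a * sgnOf b : ℝ) : ℂ) * f a b = 4 * psiK f := by
  simp only [Fintype.sum_bool, sgnOf, psiK]
  simp
  ring

/-- The signed sum of a product kernel. -/
lemma signed_product (φ : I → Bool → Bool → ℂ) :
    ∑ x : I → Bool, ∑ x' : I → Bool,
      (((∏ i, sgnOf (x i)) * ∏ i, sgnOf (x' i) : ℝ) : ℂ) * ∏ i, φ i (x i) (x' i)
      = 4 ^ Fintype.card I * ∏ i, psiK (φ i) := by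
  have h := sum_sum_prod (Q := I) (fun i a b => ((sgnOf a * sgnOf b : ℝ) : ℂ) * φ i a b)
  simp only [sum_sgn_two, Finset.prod_mul_distrib] at h
  rw [Finset.prod_const, Finset.card_univ] at h
  rw [← h]
  refine Finset.sum_congr rfl fun x _ => Finset.sum_congr rfl fun x' _ => ?_
  push_cast
  rw [Finset.prod_mul_distrib]

lemma norm_psiK_le (f : Bool → Bool → ℂ) (M : ℝ) (h : ∀ a b, ‖f a b‖ ≤ M) : ‖psiK f‖ ≤ M := by
  unfold psiK
  rw [norm_mul]
  have h1 : ‖f false false + f true true - f false true - f true false‖ ≤ 4 * M := by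
    have := h false false
    have := h true true
    have := h false true
    have := h true false
    calc _ ≤ ‖f false false + f true true - f false true‖ + ‖f true false‖ := norm_sub_le _ _
      _ ≤ ‖f false false + f true true‖ + ‖f false true‖ + ‖f true false‖ := by
          gcongr; exact norm_sub_le _ _
      _ ≤ ‖f false false‖ + ‖f true true‖ + ‖f false true‖ + ‖f true false‖ := by
          gcongr; exact norm_add_le _ _
      _ ≤ 4 * M := by linarith
  have h2 : ‖(1 / 4 : ℂ)‖ = 1 / 4 := by simp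
  rw [h2]
  linarith

/-- The key bound on one factor. -/
lemma psi_factor (f : Bool → Bool → ℂ) (Gi : ℂ) (r : Bool → Bool → ℝ) (hr : ∀ a b, 0 ≤ r a b)
    (M err H : ℝ) (hM : ∀ a b, ‖f a b‖ ≤ M) (hH : H = ‖Gi‖ * M) (herr0 : 0 ≤ err)
    (herr : 6 * err ≤ H) (hH0 : 0 < H)
    (hclose : ∀ a b, ‖(r a b : ℂ) - Gi * f a b‖ ≤ err) : ‖psiK f‖ ≤ 3 / 4 * M := by
  have hGi : 0 < ‖Gi‖ := by
    by_contra hcon
    have : ‖Gi‖ = 0 := le_antisymm (not_lt.mp hcon) (norm_nonneg _)
    rw [this] at hH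
    simp at hH
    linarith
  have hupper : ∀ a b, r a b ≤ H + err := by
    intro a b
    have h1 : ‖(r a b : ℂ)‖ ≤ ‖Gi * f a b‖ + ‖(r a b : ℂ) - Gi * f a b‖ := by
      have := norm_add_le (Gi * f a b) ((r a b : ℂ) - Gi * f a b)
      simpa using this
    have h2 : ‖(r a b : ℂ)‖ = r a b := by
      rw [Complex.norm_real, Real.norm_of_nonneg (hr a b)]
    have h3 : ‖Gi * f a b‖ ≤ H := by
      rw [norm_mul, hH]
      exact mul_le_mul_of_nonneg_left (hM a b) hGi.le
    have := hclose a b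
    linarith
  set R : ℝ := r false false + r true true - r false true - r true false with hR
  have hR1 : |R| ≤ 2 * (H + err) := by
    have h1 := hupper false false
    have h2 := hupper true true
    have h3 := hupper false true
    have h4 := hupper true false
    have h5 := hr false false
    have h6 := hr true true
    have h7 := hr false true
    have h8 := hr true false
    rw [abs_le]
    constructor <;> linarith
  have h1 : Gi * psiK f = (1 / 4 : ℂ) * ((R : ℂ)
      - (((r false false : ℂ) - Gi * f false false) + ((r true true : ℂ) - Gi * f true true)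
        - ((r false true : ℂ) - Gi * f false true) - ((r true false : ℂ) - Gi * f true false))) := by
    unfold psiK
    rw [hR]
    push_cast
    ring
  have h2 : ‖Gi * psiK f‖ ≤ (1 / 4 : ℝ) * (2 * (H + err) + 4 * err) := by
    rw [h1, norm_mul]
    have h3 : ‖(1 / 4 : ℂ)‖ = 1 / 4 := by simp
    rw [h3]
    refine mul_le_mul_of_nonneg_left ?_ (by norm_num)
    have h4 := hclose false false
    have h5 := hclose true true
    have h6 := hclose false true
    have h7 := hclose true false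
    have h8 : ‖(R : ℂ)‖ ≤ 2 * (H + err) := by
      rw [Complex.norm_real, Real.norm_eq_abs]
      exact hR1
    refine (norm_sub_le _ _).trans ?_
    have h9 : ‖((r false false : ℂ) - Gi * f false false) + ((r true true : ℂ) - Gi * f true true)
        - ((r false true : ℂ) - Gi * f false true) - ((r true false : ℂ) - Gi * f true false)‖
        ≤ 4 * err := by
      refine (norm_sub_le _ _).trans ?_
      have h10 := norm_sub_le (((r false false : ℂ) - Gi * f false false)
        + ((r true true : ℂ) - Gi * f true true)) ((r false true : ℂ) - Gi * f false true)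
      have h11 := norm_add_le ((r false false : ℂ) - Gi * f false false)
        ((r true true : ℂ) - Gi * f true true)
      linarith
    linarith
  rw [norm_mul] at h2
  have h3 : ‖Gi‖ * ‖psiK f‖ ≤ ‖Gi‖ * (3 / 4 * M) := by
    have : ‖Gi‖ * (3 / 4 * M) = 3 / 4 * H := by rw [hH]; ring
    rw [this]
    linarith
  exact le_of_mul_le_mul_left h3 hGi

/-- The bound for a nonnegative kernel close to a product. -/
theorem approx_product_bound (φ : I → Bool → Bool → ℂ) (G : ℂ)
    (Φ : (I → Bool) → (I → Bool) → ℂ) (err : ℝ) (herr0 : 0 ≤ err)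
    (herr : 6 * err ≤ (3 / 4 : ℝ) ^ Fintype.card I)
    (hnn : ∀ x x', ∃ r : ℝ, 0 ≤ r ∧ Φ x x' = r) (h1 : ∀ x x', ‖Φ x x'‖ ≤ 1)
    (hclose : ∀ x x', ‖Φ x x' - G * ∏ i, φ i (x i) (x' i)‖ ≤ err) :
    ‖G‖ * ∏ i, ‖psiK (φ i)‖ ≤ (3 / 4 : ℝ) ^ Fintype.card I * (1 + err) := by
  have hmax : ∀ i, ∃ d : Bool × Bool, ∀ a b, ‖φ i a b‖ ≤ ‖φ i d.1 d.2‖ := by
    intro i
    obtain ⟨d, _, hd⟩ := Finset.exists_max_image (Finset.univ : Finset (Bool × Bool))
      (fun d => ‖φ i d.1 d.2‖) ⟨(false, false), Finset.mem_univ _⟩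
    exact ⟨d, fun a b => hd (a, b) (Finset.mem_univ _)⟩
  choose d hd using hmax
  set xh : I → Bool := fun i => (d i).1 with hxh
  set xh' : I → Bool := fun i => (d i).2 with hxh'
  set M : I → ℝ := fun i => ‖φ i (xh i) (xh' i)‖ with hM
  have hM0 : ∀ i, 0 ≤ M i := fun i => norm_nonneg _
  have hMb : ∀ i a b, ‖φ i a b‖ ≤ M i := fun i a b => hd i a b
  set H : ℝ := ‖G‖ * ∏ i, M i with hH
  have hH0 : 0 ≤ H := mul_nonneg (norm_nonneg _) (Finset.prod_nonneg fun i _ => hM0 i)
  have hHeq : H = ‖G * ∏ i, φ i (xh i) (xh' i)‖ := by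
    rw [norm_mul, norm_prod]
  have hH1 : H ≤ 1 + err := by
    have h2 := norm_sub_norm_le (G * ∏ i, φ i (xh i) (xh' i)) (Φ xh xh')
    rw [norm_sub_rev] at h2
    have h3 := hclose xh xh'
    have h4 := h1 xh xh'
    rw [← hHeq] at h2
    linarith
  have hpsi0 : ∀ i, ‖psiK (φ i)‖ ≤ M i := fun i => norm_psiK_le _ _ (hMb i)
  have hp : (0 : ℝ) < (3 / 4 : ℝ) ^ Fintype.card I := by positivity
  by_cases hcase : H < (3 / 4 : ℝ) ^ Fintype.card I
  · have h2 : ‖G‖ * ∏ i, ‖psiK (φ i)‖ ≤ H :=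
      mul_le_mul_of_nonneg_left
        (Finset.prod_le_prod (fun _ _ => norm_nonneg _) fun i _ => hpsi0 i) (norm_nonneg _)
    have h3 : (3 / 4 : ℝ) ^ Fintype.card I ≤ (3 / 4 : ℝ) ^ Fintype.card I * (1 + err) := by
      have := mul_nonneg hp.le herr0
      nlinarith
    linarith
  · push Not at hcase
    have hfac : ∀ i, ‖psiK (φ i)‖ ≤ 3 / 4 * M i := by
      intro i
      set Gi : ℂ := G * ∏ j ∈ Finset.univ.erase i, φ j (xh j) (xh' j) with hGi
      have hHi : H = ‖Gi‖ * M i := by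
        rw [hH, hGi, norm_mul, norm_prod, ← Finset.mul_prod_erase _ _ (Finset.mem_univ i)]
        simp only [hM]
        ring
      have hprod : ∀ a b, G * ∏ j, φ j (Function.update xh i a j) (Function.update xh' i b j)
          = Gi * φ i a b := by
        intro a b
        rw [← Finset.mul_prod_erase _ _ (Finset.mem_univ i), hGi]
        simp only [Function.update_self]
        have : ∏ j ∈ Finset.univ.erase i, φ j (Function.update xh i a j) (Function.update xh' i b j)
            = ∏ j ∈ Finset.univ.erase i, φ j (xh j) (xh' j) := by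
          refine Finset.prod_congr rfl fun j hj => ?_
          have hji := Finset.ne_of_mem_erase hj
          rw [Function.update_of_ne hji, Function.update_of_ne hji]
        rw [this]
        ring
      choose r hr0 hr using fun a b => hnn (Function.update xh i a) (Function.update xh' i b)
      refine psi_factor (φ i) Gi r hr0 (M i) err H (hMb i) hHi herr0 (by linarith)
        (lt_of_lt_of_le hp hcase) ?_
      intro a b
      have h2 := hclose (Function.update xh i a) (Function.update xh' i b)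
      rw [hprod, hr] at h2
      exact h2
    have h2 : ∏ i, ‖psiK (φ i)‖ ≤ ∏ i, (3 / 4 * M i) :=
      Finset.prod_le_prod (fun _ _ => norm_nonneg _) fun i _ => hfac i
    rw [Finset.prod_mul_distrib, Finset.prod_const, Finset.card_univ] at h2
    calc ‖G‖ * ∏ i, ‖psiK (φ i)‖
        ≤ ‖G‖ * ((3 / 4 : ℝ) ^ Fintype.card I * ∏ i, M i) :=
          mul_le_mul_of_nonneg_left h2 (norm_nonneg _)
      _ = (3 / 4 : ℝ) ^ Fintype.card I * H := by rw [hH]; ring
      _ ≤ _ := by gcongr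

/-- The signed sum of a kernel close to a product. -/
theorem signed_bound (φ : I → Bool → Bool → ℂ) (G : ℂ)
    (Φ : (I → Bool) → (I → Bool) → ℂ) (err : ℝ) (herr0 : 0 ≤ err)
    (herr : 6 * err ≤ (3 / 4 : ℝ) ^ Fintype.card I)
    (hnn : ∀ x x', ∃ r : ℝ, 0 ≤ r ∧ Φ x x' = r) (h1 : ∀ x x', ‖Φ x x'‖ ≤ 1)
    (hclose : ∀ x x', ‖Φ x x' - G * ∏ i, φ i (x i) (x' i)‖ ≤ err) :
    ‖∑ x : I → Bool, ∑ x' : I → Bool,
      (((∏ i, sgnOf (x i)) * ∏ i, sgnOf (x' i) : ℝ) : ℂ) * Φ x x'‖
      ≤ 4 ^ Fintype.card I * (2 * (3 / 4 : ℝ) ^ Fintype.card I) := by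
  have h2 := approx_product_bound φ G Φ err herr0 herr hnn h1 hclose
  have hs : ∀ x : I → Bool, |∏ i, sgnOf (x i)| = 1 := by
    intro x
    rw [Finset.abs_prod]
    exact Finset.prod_eq_one fun i _ => abs_sgnOf _
  have hdecomp : ∑ x : I → Bool, ∑ x' : I → Bool,
      (((∏ i, sgnOf (x i)) * ∏ i, sgnOf (x' i) : ℝ) : ℂ) * Φ x x'
      = (∑ x : I → Bool, ∑ x' : I → Bool,
          (((∏ i, sgnOf (x i)) * ∏ i, sgnOf (x' i) : ℝ) : ℂ)
            * (Φ x x' - G * ∏ i, φ i (x i) (x' i)))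
        + G * (4 ^ Fintype.card I * ∏ i, psiK (φ i)) := by
    rw [← signed_product, Finset.mul_sum, ← Finset.sum_add_distrib]
    refine Finset.sum_congr rfl fun x _ => ?_
    rw [Finset.mul_sum, ← Finset.sum_add_distrib]
    refine Finset.sum_congr rfl fun x' _ => ?_
    ring
  have hcard : ∑ x : I → Bool, ∑ x' : I → Bool, err = 4 ^ Fintype.card I * err := by
    simp only [Finset.sum_const, Finset.card_univ, Fintype.card_pi, Fintype.card_bool,
      Finset.prod_const, nsmul_eq_mul]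
    push_cast
    have : (2 : ℝ) ^ Fintype.card I * (2 : ℝ) ^ Fintype.card I = 4 ^ Fintype.card I := by
      rw [← mul_pow]; norm_num
    calc (2 : ℝ) ^ Fintype.card I * ((2 : ℝ) ^ Fintype.card I * err)
        = ((2 : ℝ) ^ Fintype.card I * (2 : ℝ) ^ Fintype.card I) * err := by ring
      _ = _ := by rw [this]
  have h3 : ‖∑ x : I → Bool, ∑ x' : I → Bool,
          (((∏ i, sgnOf (x i)) * ∏ i, sgnOf (x' i) : ℝ) : ℂ)
            * (Φ x x' - G * ∏ i, φ i (x i) (x' i))‖ ≤ 4 ^ Fintype.card I * err := by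
    rw [← hcard]
    refine (norm_sum_le _ _).trans (Finset.sum_le_sum fun x _ => ?_)
    refine (norm_sum_le _ _).trans (Finset.sum_le_sum fun x' _ => ?_)
    rw [norm_mul, Complex.norm_real, Real.norm_eq_abs, abs_mul, hs, hs]
    simpa using hclose x x'
  have h4 : ‖G * (4 ^ Fintype.card I * ∏ i, psiK (φ i))‖
      = 4 ^ Fintype.card I * (‖G‖ * ∏ i, ‖psiK (φ i)‖) := by
    rw [norm_mul, norm_mul, norm_prod, norm_pow]
    simp
    ring
  rw [hdecomp]
  have hp : (0 : ℝ) < (3 / 4 : ℝ) ^ Fintype.card I := by positivity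
  have hp1 : (3 / 4 : ℝ) ^ Fintype.card I ≤ 1 := pow_le_one₀ (by norm_num) (by norm_num)
  have h4pos : (0 : ℝ) < 4 ^ Fintype.card I := by positivity
  calc _ ≤ _ := norm_add_le _ _
    _ ≤ 4 ^ Fintype.card I * err + 4 ^ Fintype.card I * ((3 / 4 : ℝ) ^ Fintype.card I * (1 + err)) := by
        rw [h4]
        gcongr
    _ ≤ _ := by
        rw [← mul_add]
        refine mul_le_mul_of_nonneg_left ?_ h4pos.le
        nlinarith

/-! ### From the near-product property to the signed bound -/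

section Near

variable {𝔈 : Type} [Fintype 𝔈] [DecidableEq 𝔈] [Nonempty 𝔈]

/-- The constant of the near-product bound. -/
noncomputable def nearConst (B0 : ℝ) (m : ℕ) : ℝ := B0 ^ m * (B0 ^ m / (3 / 4 : ℝ) ^ m) ^ m

lemma nearConst_nonneg {B0 : ℝ} (hB : 0 ≤ B0) (m : ℕ) : 0 ≤ nearConst B0 m := by
  unfold nearConst; positivity

/-- The signed sum of a nonnegative kernel which is a weighted sum of values of a function `Γ`
with the near-product property. -/
theorem near_to_signed (w : 𝔈 → ℂ) (Γ : (I → Bool × Bool × 𝔈) → ℂ)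
    (Φ : (I → Bool) → (I → Bool) → ℂ)
    (hB : 0 < ∑ ε, ‖w ε‖)
    (hΦ : ∀ x x', Φ x x' = ∑ ε : I → 𝔈, (∏ i, w (ε i)) * Γ (fun i => (x i, x' i, ε i)))
    (κ : ℝ) (hκ : 0 ≤ κ)
    (hnear : ∀ cs c : I → Bool × Bool × 𝔈,
      ‖Γ c * Γ cs ^ Fintype.card I - Γ cs * ∏ i, Γ (Function.update cs i (c i))‖ ≤ κ)
    (hsmall : 6 * (nearConst (∑ ε, ‖w ε‖) (Fintype.card I) * κ) ≤ (3 / 4 : ℝ) ^ Fintype.card I)
    (hnn : ∀ x x', ∃ r : ℝ, 0 ≤ r ∧ Φ x x' = r) (h1 : ∀ x x', ‖Φ x x'‖ ≤ 1) :
    ‖∑ x : I → Bool, ∑ x' : I → Bool,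
      (((∏ i, sgnOf (x i)) * ∏ i, sgnOf (x' i) : ℝ) : ℂ) * Φ x x'‖
      ≤ 4 ^ Fintype.card I * (2 * (3 / 4 : ℝ) ^ Fintype.card I) := by
  classical
  set B0 : ℝ := ∑ ε, ‖w ε‖ with hB0
  set m := Fintype.card I with hm
  have hsumw : ∑ ε : I → 𝔈, ∏ i, ‖w (ε i)‖ = B0 ^ m := by
    have := Finset.prod_univ_sum (fun _ : I => (Finset.univ : Finset 𝔈)) (fun _ ε => ‖w ε‖)
    rw [Fintype.piFinset_univ] at this
    rw [← this]
    simp [hB0, hm, Finset.card_univ]
  have hs : ∀ x : I → Bool, |∏ i, sgnOf (x i)| = 1 := by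
    intro x
    rw [Finset.abs_prod]
    exact Finset.prod_eq_one fun i _ => abs_sgnOf _
  have hp : (0 : ℝ) < (3 / 4 : ℝ) ^ m := by positivity
  have hBm : (0 : ℝ) < B0 ^ m := by positivity
  -- the maximizer
  have : Nonempty (I → Bool × Bool × 𝔈) := by
    obtain ⟨ε0⟩ := (inferInstance : Nonempty 𝔈)
    exact ⟨fun _ => (false, false, ε0)⟩
  obtain ⟨cs, _, hcs⟩ := Finset.exists_max_image (Finset.univ : Finset (I → Bool × Bool × 𝔈))
    (fun c => ‖Γ c‖) Finset.univ_nonempty
  set g := Γ cs with hg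
  have hcs' : ∀ c, ‖Γ c‖ ≤ ‖g‖ := fun c => hcs c (Finset.mem_univ _)
  have hcount : ∑ x : I → Bool, ∑ x' : I → Bool, ((3 / 4 : ℝ) ^ m) = 4 ^ m * (3 / 4 : ℝ) ^ m := by
    simp only [Finset.sum_const, Finset.card_univ, Fintype.card_pi, Fintype.card_bool,
      Finset.prod_const, nsmul_eq_mul]
    push_cast
    have : (2 : ℝ) ^ Fintype.card I * (2 : ℝ) ^ Fintype.card I = 4 ^ Fintype.card I := by
      rw [← mul_pow]; norm_num
    rw [← hm] at this ⊢
    rw [← this]
    ring
  by_cases hcase : ‖g‖ * B0 ^ m < (3 / 4 : ℝ) ^ m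
  · -- the small case
    have hΦsmall : ∀ x x', ‖Φ x x'‖ ≤ (3 / 4 : ℝ) ^ m := by
      intro x x'
      rw [hΦ]
      calc _ ≤ ∑ ε : I → 𝔈, ‖(∏ i, w (ε i)) * Γ (fun i => (x i, x' i, ε i))‖ := norm_sum_le _ _
        _ ≤ ∑ ε : I → 𝔈, (∏ i, ‖w (ε i)‖) * ‖g‖ := by
            refine Finset.sum_le_sum fun ε _ => ?_
            rw [norm_mul, norm_prod]
            exact mul_le_mul_of_nonneg_left (hcs' _) (Finset.prod_nonneg fun _ _ => norm_nonneg _)
        _ = B0 ^ m * ‖g‖ := by rw [← Finset.sum_mul, hsumw]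
        _ ≤ _ := by rw [mul_comm]; exact hcase.le
    calc _ ≤ ∑ x : I → Bool, ∑ x' : I → Bool, ((3 / 4 : ℝ) ^ m) := by
          refine (norm_sum_le _ _).trans (Finset.sum_le_sum fun x _ => ?_)
          refine (norm_sum_le _ _).trans (Finset.sum_le_sum fun x' _ => ?_)
          rw [norm_mul, Complex.norm_real, Real.norm_eq_abs, abs_mul, hs, hs]
          simpa using hΦsmall x x'
      _ = 4 ^ m * (3 / 4 : ℝ) ^ m := hcount
      _ ≤ _ := by
          have h4 : (0 : ℝ) < 4 ^ m := by positivity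
          nlinarith [mul_pos h4 hp]
  · -- the main case
    push Not at hcase
    set η : ℝ := (3 / 4 : ℝ) ^ m / B0 ^ m with hη
    have hη0 : 0 < η := by positivity
    have hgη : η ≤ ‖g‖ := by
      rw [hη, div_le_iff₀ hBm]
      exact hcase
    have hg0 : 0 < ‖g‖ := lt_of_lt_of_le hη0 hgη
    have hgne : g ≠ 0 := norm_pos_iff.mp hg0
    set G : ℂ := g / g ^ m with hG
    set φ : I → Bool → Bool → ℂ :=
      fun i a b => ∑ ε, w ε * Γ (Function.update cs i (a, b, ε)) with hφ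
    have hprodφ : ∀ x x' : I → Bool, ∏ i, φ i (x i) (x' i)
        = ∑ ε : I → 𝔈, ∏ i, (w (ε i) * Γ (Function.update cs i (x i, x' i, ε i))) := by
      intro x x'
      simp only [hφ]
      rw [Finset.prod_univ_sum, Fintype.piFinset_univ]
    -- the closeness of `Γ` to a product
    have hclose0 : ∀ c : I → Bool × Bool × 𝔈,
        ‖Γ c - G * ∏ i, Γ (Function.update cs i (c i))‖ ≤ κ / η ^ m := by
      intro c
      have h2 := hnear cs c
      have hgm : g ^ m ≠ 0 := pow_ne_zero _ hgne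
      have h3 : Γ c - G * ∏ i, Γ (Function.update cs i (c i))
          = (Γ c * g ^ m - g * ∏ i, Γ (Function.update cs i (c i))) / g ^ m := by
        rw [hG]
        field_simp
      rw [h3, norm_div, norm_pow]
      have h4 : η ^ m ≤ ‖g‖ ^ m := by gcongr
      have h5 : (0 : ℝ) < η ^ m := by positivity
      calc _ ≤ κ / ‖g‖ ^ m := by gcongr
        _ ≤ κ / η ^ m := by gcongr
    set err : ℝ := nearConst B0 m * κ with herr
    have herr0 : 0 ≤ err := mul_nonneg (nearConst_nonneg (by positivity) m) hκ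
    have herrEq : err = B0 ^ m * (κ / η ^ m) := by
      rw [herr, nearConst, hη]
      generalize (3 / 4 : ℝ) ^ m = y at hp ⊢
      generalize B0 ^ m = B at hBm ⊢
      rw [div_pow, div_pow]
      field_simp
    have hclose : ∀ x x', ‖Φ x x' - G * ∏ i, φ i (x i) (x' i)‖ ≤ err := by
      intro x x'
      rw [hΦ, hprodφ, Finset.mul_sum, ← Finset.sum_sub_distrib, herrEq, ← hsumw, Finset.sum_mul]
      refine (norm_sum_le _ _).trans (Finset.sum_le_sum fun ε _ => ?_)
      have h2 := hclose0 (fun i => (x i, x' i, ε i))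
      have h3 : (∏ i, w (ε i)) * Γ (fun i => (x i, x' i, ε i))
          - G * ∏ i, (w (ε i) * Γ (Function.update cs i (x i, x' i, ε i)))
          = (∏ i, w (ε i)) * (Γ (fun i => (x i, x' i, ε i))
            - G * ∏ i, Γ (Function.update cs i (x i, x' i, ε i))) := by
        rw [Finset.prod_mul_distrib]
        ring
      rw [h3, norm_mul, norm_prod]
      exact mul_le_mul_of_nonneg_left h2 (Finset.prod_nonneg fun _ _ => norm_nonneg _)
    exact signed_bound φ G Φ err herr0 hsmall hnn h1 hclose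

/-- The square-root form of the signed bound. -/
theorem sqrt_signed (w : 𝔈 → ℂ) (Γ : (I → Bool × Bool × 𝔈) → ℂ)
    (Φ : (I → Bool) → (I → Bool) → ℂ)
    (hB : 0 < ∑ ε, ‖w ε‖)
    (hΦ : ∀ x x', Φ x x' = ∑ ε : I → 𝔈, (∏ i, w (ε i)) * Γ (fun i => (x i, x' i, ε i)))
    (κ : ℝ) (hκ : 0 ≤ κ)
    (hnear : ∀ cs c : I → Bool × Bool × 𝔈,
      ‖Γ c * Γ cs ^ Fintype.card I - Γ cs * ∏ i, Γ (Function.update cs i (c i))‖ ≤ κ)
    (hnn : ∀ x x', ∃ r : ℝ, 0 ≤ r ∧ Φ x x' = r) (h1 : ∀ x x', ‖Φ x x'‖ ≤ 1) :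
    Real.sqrt (‖∑ x : I → Bool, ∑ x' : I → Bool,
      (((∏ i, sgnOf (x i)) * ∏ i, sgnOf (x' i) : ℝ) : ℂ) * Φ x x'‖ / 4 ^ Fintype.card I)
      ≤ Real.sqrt (2 * (3 / 4 : ℝ) ^ Fintype.card I)
        + 6 * nearConst (∑ ε, ‖w ε‖) (Fintype.card I) / (3 / 4 : ℝ) ^ Fintype.card I * κ := by
  classical
  set m := Fintype.card I with hm
  set A := nearConst (∑ ε, ‖w ε‖) m with hA
  have hA0 : 0 ≤ A := nearConst_nonneg hB.le m
  have hp : (0 : ℝ) < (3 / 4 : ℝ) ^ m := by positivity
  have h4 : (0 : ℝ) < 4 ^ m := by positivity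
  have hnonneg : 0 ≤ 6 * A / (3 / 4 : ℝ) ^ m * κ := by positivity
  by_cases hsmall : 6 * (A * κ) ≤ (3 / 4 : ℝ) ^ m
  · have h2 := near_to_signed w Γ Φ hB hΦ κ hκ hnear hsmall hnn h1
    have h3 : ‖∑ x : I → Bool, ∑ x' : I → Bool,
      (((∏ i, sgnOf (x i)) * ∏ i, sgnOf (x' i) : ℝ) : ℂ) * Φ x x'‖ / 4 ^ m
        ≤ 2 * (3 / 4 : ℝ) ^ m := by
      rw [div_le_iff₀ h4]
      linarith
    have h5 := Real.sqrt_le_sqrt h3
    linarith
  · push Not at hsmall
    have hs : ∀ x : I → Bool, |∏ i, sgnOf (x i)| = 1 := by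
      intro x
      rw [Finset.abs_prod]
      exact Finset.prod_eq_one fun i _ => abs_sgnOf _
    have h2 : ‖∑ x : I → Bool, ∑ x' : I → Bool,
      (((∏ i, sgnOf (x i)) * ∏ i, sgnOf (x' i) : ℝ) : ℂ) * Φ x x'‖ ≤ 4 ^ m := by
      calc _ ≤ ∑ x : I → Bool, ∑ x' : I → Bool, (1 : ℝ) := by
            refine (norm_sum_le _ _).trans (Finset.sum_le_sum fun x _ => ?_)
            refine (norm_sum_le _ _).trans (Finset.sum_le_sum fun x' _ => ?_)
            rw [norm_mul, Complex.norm_real, Real.norm_eq_abs, abs_mul, hs, hs]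
            simpa using h1 x x'
        _ = 4 ^ m := by
            simp only [Finset.sum_const, Finset.card_univ, Fintype.card_pi, Fintype.card_bool,
              Finset.prod_const, nsmul_eq_mul, mul_one]
            push_cast
            rw [← hm, ← mul_pow]
            norm_num
    have h3 : ‖∑ x : I → Bool, ∑ x' : I → Bool,
      (((∏ i, sgnOf (x i)) * ∏ i, sgnOf (x' i) : ℝ) : ℂ) * Φ x x'‖ / 4 ^ m ≤ 1 := by
      rw [div_le_one h4]
      exact h2
    have h5 : Real.sqrt (‖∑ x : I → Bool, ∑ x' : I → Bool,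
      (((∏ i, sgnOf (x i)) * ∏ i, sgnOf (x' i) : ℝ) : ℂ) * Φ x x'‖ / 4 ^ m) ≤ 1 := by
      refine Real.sqrt_le_iff.mpr ⟨by norm_num, ?_⟩
      simpa using h3
    have h6 : 1 ≤ 6 * A / (3 / 4 : ℝ) ^ m * κ := by
      rw [div_mul_eq_mul_div, one_le_div hp]
      nlinarith
    have h7 := Real.sqrt_nonneg (2 * (3 / 4 : ℝ) ^ m)
    linarith

end Near

end Vale.Agent.Lib.P368
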