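import Vale.Agent.Lib.P368.D3.CoreForm
import Vale.Agent.Lib.P368.D3.FinalAlg

/-! The kernel of the opened forms: nonnegativity, boundedness and its product expansion. -/

namespace Vale.Agent.Lib.P368

open Matrix Finset
open scoped Matrix.Norms.L2Operator InnerProductSpace ComplexConjugate

set_option linter.unusedSectionVars false
set_option linter.unusedSimpArgs false
set_option linter.unusedVariables false

variable {Q I G : Type} [Fintype Q] [DecidableEq Q] [Fintype I] [DecidableEq I] [Fintype G]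
  [DecidableEq G]

/-- Splitting a product according to a map to an option type. -/
lemma prod_fiber_option {T W : Type} [DecidableEq T] [Fintype W] [DecidableEq W] (s : Finset T)
    (b : T → Option W) (f : T → ℂ) :
    ∏ q ∈ s, f q = (∏ q ∈ s.filter (fun q => b q = none), f q)
      * ∏ w, ∏ q ∈ s.filter (fun q => b q = some w), f q := by
  rw [← Finset.prod_fiberwise s b f, Fintype.prod_option]

/-- The branch labels of the two copies of the two vectors of a block. -/
abbrev BrL := Bool × Bool × Bool × Bool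

/-- The configuration of a block: two bits and four branch labels. -/
abbrev Cfg := Bool × Bool × BrL

namespace CoreData

variable (D : CoreData Q I G)

/-- The kernel of the opened forms. -/
noncomputable def Phi (Y : G → Bool) (x x' : I → Bool) : ℂ :=
  ∑ a, ∑ a', D.rho Y x a a' * conj (D.rho Y x' a a')

lemma Phi_nonneg (Y : G → Bool) (x x' : I → Bool) : ∃ r : ℝ, 0 ≤ r ∧ D.Phi Y x x' = r := by
  have h := D.sys.hat_proj Y
  obtain ⟨r, hr, hr'⟩ := gram_nonneg (fun a => act (D.sys.hat Y) (act (D.sys.A a) (D.Φv x)))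
    (fun a => act (D.sys.hat Y) (act (D.sys.A a) (D.Φv x')))
  refine ⟨r, hr, ?_⟩
  rw [← hr']
  unfold Phi rho
  refine Finset.sum_congr rfl fun a _ => Finset.sum_congr rfl fun a' _ => ?_
  rw [HSys.inner_proj_self h (act (D.sys.A a) (D.Φv x)),
    HSys.inner_proj_self h (act (D.sys.A a) (D.Φv x'))]

lemma Phi_le (Y : G → Bool) (x x' : I → Bool) : ‖D.Phi Y x x'‖ ≤ 1 := by
  have h := D.sys.hs_bound Y (D.Φv x) (D.Φv x) (D.Φv x') (D.Φv x') (D.sys_P0_Φv x) (D.sys_P0_Φv x)
    (D.sys_P0_Φv x') (D.sys_P0_Φv x')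
  refine h.trans ?_
  have h1 := D.norm_Φv_le x
  have h2 := D.norm_Φv_le x'
  calc _ ≤ (1 : ℝ) * 1 * 1 * 1 := by gcongr
    _ = 1 := by norm_num

/-- The vectors of a configuration. -/
noncomputable def f1 (c : I → Cfg) : Q → V2 :=
  D.fv (fun i => (c i).1) (fun i => (c i).2.2.1)
/-- The vectors of a configuration. -/
noncomputable def f2 (c : I → Cfg) : Q → V2 :=
  D.fv (fun i => (c i).1) (fun i => (c i).2.2.2.1)
/-- The vectors of a configuration. -/
noncomputable def f3 (c : I → Cfg) : Q → V2 :=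
  D.fv (fun i => (c i).2.1) (fun i => (c i).2.2.2.2.1)
/-- The vectors of a configuration. -/
noncomputable def f4 (c : I → Cfg) : Q → V2 :=
  D.fv (fun i => (c i).2.1) (fun i => (c i).2.2.2.2.2)

/-- The value of a configuration. -/
noncomputable def Gam (Y : G → Bool) (c : I → Cfg) : ℂ :=
  ∑ κ : G → J × J, (∏ l, coσ (HSys.bc (Y l)) (κ l))
    * ∏ q, D.sys.Hq (D.f1 c q) (D.f2 c q) (D.f3 c q) (D.f4 c q) q
        (oext ((false, false), (false, false)) κ (D.sys.gt q))

/-- The weight of the branch labels. -/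
noncomputable def we (ε : BrL) : ℂ := wbr ε.1 * wbr ε.2.1 * wbr ε.2.2.1 * wbr ε.2.2.2

lemma conj_wbr (b : Bool) : conj (wbr b) = wbr b := by
  cases b
  · simp [wbr]
  · simp only [wbr, if_true, map_neg]
    congr 1
    exact Complex.conj_ofNat 2

lemma sum_norm_we : ∑ ε, ‖we ε‖ = 81 := by
  simp only [Fintype.sum_prod_type, Fintype.sum_bool, we, wbr]
  simp
  norm_num

lemma rho_sesq (Y : G → Bool) (x : I → Bool) (a a' : Q → Bool) :
    D.rho Y x a a' = ∑ r : I → Bool, ∑ r' : I → Bool, ((∏ i, wbr (r i)) * ∏ i, wbr (r' i))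
      * ⟪act (D.sys.A a) (pv (D.fv x r)), act (D.sys.hat Y) (act (D.sys.A a') (pv (D.fv x r')))⟫_ℂ := by
  unfold rho
  rw [Φv_eq, act_vsum, act_vsum, act_vsum, sum_inner]
  refine Finset.sum_congr rfl fun r _ => ?_
  rw [inner_sum]
  refine Finset.sum_congr rfl fun r' _ => ?_
  rw [act_vsmul, act_vsmul, act_vsmul, inner_smul_left, inner_smul_right, map_prod]
  simp only [conj_wbr]
  ring

/-- The algebra of the expansion of the kernel. -/
lemma phi_algebra {T X : Type} [Fintype T] [Fintype X] (w : T → ℂ) (g g' : T → T → X → X → ℂ) :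
    ∑ a, ∑ a', (∑ r, ∑ r', (w r * w r') * g r r' a a') * conj (∑ r, ∑ r', (w r * w r') * g' r r' a a')
      = ∑ r1, ∑ r2, ∑ r3, ∑ r4, (w r1 * w r2 * conj (w r3) * conj (w r4))
          * ∑ a, ∑ a', g r1 r2 a a' * conj (g' r3 r4 a a') := by
  have h1 : ∀ a a', (∑ r, ∑ r', (w r * w r') * g r r' a a')
      * conj (∑ r, ∑ r', (w r * w r') * g' r r' a a')
      = ∑ r1, ∑ r2, ∑ r3, ∑ r4, (w r1 * w r2 * conj (w r3) * conj (w r4))
          * (g r1 r2 a a' * conj (g' r3 r4 a a')) := by
    intro a a'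
    rw [Finset.sum_mul]
    refine Finset.sum_congr rfl fun r1 _ => ?_
    rw [Finset.sum_mul]
    refine Finset.sum_congr rfl fun r2 _ => ?_
    rw [map_sum, Finset.mul_sum]
    refine Finset.sum_congr rfl fun r3 _ => ?_
    rw [map_sum, Finset.mul_sum]
    refine Finset.sum_congr rfl fun r4 _ => ?_
    rw [map_mul, map_mul]
    ring
  simp_rw [h1]
  rw [sum_swap3]
  refine Finset.sum_congr rfl fun r1 _ => ?_
  rw [sum_swap3]
  refine Finset.sum_congr rfl fun r2 _ => ?_
  rw [sum_swap3]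
  refine Finset.sum_congr rfl fun r3 _ => ?_
  rw [sum_swap3]
  refine Finset.sum_congr rfl fun r4 _ => ?_
  rw [Finset.mul_sum]
  refine Finset.sum_congr rfl fun a _ => ?_
  rw [Finset.mul_sum]

/-- A fourfold sum over bit functions as a sum over functions to quadruples. -/
lemma sum4_eq (F : (I → Bool) → (I → Bool) → (I → Bool) → (I → Bool) → ℂ) :
    ∑ r1, ∑ r2, ∑ r3, ∑ r4, F r1 r2 r3 r4
      = ∑ ε : I → BrL, F (fun i => (ε i).1) (fun i => (ε i).2.1) (fun i => (ε i).2.2.1)
          (fun i => (ε i).2.2.2) := by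
  have h1 : ∀ r1 r2, ∑ r3, ∑ r4, F r1 r2 r3 r4
      = ∑ k : I → Bool × Bool, F r1 r2 (fun i => (k i).1) (fun i => (k i).2) :=
    fun r1 r2 => sum_sum_pair' (F r1 r2)
  simp_rw [h1]
  have h2 : ∀ r1, ∑ r2, ∑ k : I → Bool × Bool, F r1 r2 (fun i => (k i).1) (fun i => (k i).2)
      = ∑ k : I → Bool × Bool × Bool, F r1 (fun i => (k i).1) (fun i => (k i).2.1)
          (fun i => (k i).2.2) :=
    fun r1 => sum_sum_pair' (fun r2 (k : I → Bool × Bool) =>
      F r1 r2 (fun i => (k i).1) (fun i => (k i).2))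
  simp_rw [h2]
  exact sum_sum_pair' (fun r1 (k : I → Bool × Bool × Bool) =>
    F r1 (fun i => (k i).1) (fun i => (k i).2.1) (fun i => (k i).2.2))

/-- The expansion of the kernel. -/
theorem Phi_expand (Y : G → Bool) (x x' : I → Bool) :
    D.Phi Y x x' = ∑ ε : I → BrL, (∏ i, we (ε i)) * D.Gam Y (fun i => (x i, x' i, ε i)) := by
  unfold Phi
  simp_rw [rho_sesq]
  rw [phi_algebra (fun r : I → Bool => ∏ i, wbr (r i))
    (fun r r' a a' => ⟪act (D.sys.A a) (pv (D.fv x r)),
      act (D.sys.hat Y) (act (D.sys.A a') (pv (D.fv x r')))⟫_ℂ)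
    (fun r r' a a' => ⟪act (D.sys.A a) (pv (D.fv x' r)),
      act (D.sys.hat Y) (act (D.sys.A a') (pv (D.fv x' r')))⟫_ℂ)]
  rw [sum4_eq]
  refine Finset.sum_congr rfl fun ε _ => ?_
  congr 1
  · simp only [map_prod, conj_wbr, we]
    simp only [Finset.prod_mul_distrib]
  · rw [D.sys.gram_expand]
    rfl

/-! ### The product form -/

/-- The factor of a block qubit in the value of a configuration. -/
noncomputable def tq (q : Q) (cc : Cfg) (σ : J × J) : ℂ :=
  sc (D.ξ q cc.1 cc.2.2.1) (Oj D.sys.π D.sys.E σ.1 q) (D.ξ q cc.1 cc.2.2.2.1)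
    * conj (sc (D.ξ q cc.2.1 cc.2.2.2.2.1) (Oj D.sys.π D.sys.E σ.2 q) (D.ξ q cc.2.1 cc.2.2.2.2.2))

/-- The factor of a qubit outside the blocks in the value of a configuration. -/
noncomputable def uq (q : Q) (σ : J × J) : ℂ :=
  D.sys.Hq (e false) (e false) (e false) (e false) q σ

lemma Hq_block (c : I → Cfg) (q : Q) {i : I} (h : D.bl q = some i) (σ : J × J) :
    D.sys.Hq (D.f1 c q) (D.f2 c q) (D.f3 c q) (D.f4 c q) q σ = D.tq q (c i) σ := by
  have h1 : D.sys.RS q = false := by
    show D.RS q = false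
    simp [RS, isR, h]
  simp only [HSys.Hq, HSys.aq, h1, f1, f2, f3, f4, fv, h, tq]
  simp [Fintype.sum_bool, act_one, sc, act]

lemma Hq_R (c : I → Cfg) (q : Q) (h : D.bl q = none) (σ : J × J) :
    D.sys.Hq (D.f1 c q) (D.f2 c q) (D.f3 c q) (D.f4 c q) q σ = D.uq q σ := by
  simp only [uq, f1, f2, f3, f4, fv, h]

/-- The qubits of a gate and a block. -/
def Mset (o : Option G) (w : Option I) : Finset Q :=
  (Finset.univ.filter fun q => D.gt q = o).filter fun q => D.bl q = w

/-- The factor of a block and a gate in the value of a configuration. -/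
noncomputable def tG (o : Option G) (i : I) (cc : Cfg) (σ : J × J) : ℂ :=
  ∏ q ∈ D.Mset o (some i), D.tq q cc σ

/-- The label zero of a pair of terms. -/
abbrev σ0 : J × J := ((false, false), (false, false))

/-- The coefficient of a gate in the value of a configuration. -/
noncomputable def UG (Y : G → Bool) : Option G → (J × J) → ℂ
  | some l, σ => coσ (HSys.bc (Y l)) σ * ∏ q ∈ D.Mset (some l) none, D.uq q σ
  | none, σ => if σ = σ0 then ∏ q ∈ D.Mset none none, D.uq q σ0 else 0

lemma prod_gate_split (c : I → Cfg) (o : Option G) (σ : J × J) :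
    ∏ q ∈ Finset.univ.filter (fun q => D.gt q = o),
        D.sys.Hq (D.f1 c q) (D.f2 c q) (D.f3 c q) (D.f4 c q) q σ
      = (∏ q ∈ D.Mset o none, D.uq q σ) * ∏ i, D.tG o i (c i) σ := by
  have h1 : ∏ q ∈ (Finset.univ.filter fun q => D.gt q = o).filter (fun q => D.bl q = none),
      D.sys.Hq (D.f1 c q) (D.f2 c q) (D.f3 c q) (D.f4 c q) q σ = ∏ q ∈ D.Mset o none, D.uq q σ :=
    Finset.prod_congr rfl fun q hq => D.Hq_R c q (Finset.mem_filter.mp hq).2 σ
  have h2 : ∀ i, ∏ q ∈ (Finset.univ.filter fun q => D.gt q = o).filter (fun q => D.bl q = some i),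
      D.sys.Hq (D.f1 c q) (D.f2 c q) (D.f3 c q) (D.f4 c q) q σ = D.tG o i (c i) σ :=
    fun i => Finset.prod_congr rfl fun q hq => D.Hq_block c q (Finset.mem_filter.mp hq).2 σ
  refine (prod_fiber_option _ D.bl _).trans ?_
  rw [h1, Finset.prod_congr rfl fun i _ => h2 i]

/-- The value of a configuration as a product over the gates. -/
theorem Gam_eq (Y : G → Bool) (c : I → Cfg) :
    D.Gam Y c = ∏ o, thetaA (D.UG Y o) (D.tG o) c := by
  unfold Gam
  rw [D.sys.gram_fubini, Fintype.prod_option]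
  congr 1
  · rw [show D.sys.gt = D.gt from rfl, D.prod_gate_split c none σ0]
    unfold thetaA UG
    rw [Finset.sum_eq_single σ0]
    · simp
    · intro σ _ hσ
      simp [hσ]
    · simp
  · refine Finset.prod_congr rfl fun l _ => ?_
    unfold thetaA
    refine Finset.sum_congr rfl fun σ _ => ?_
    rw [show D.sys.gt = D.gt from rfl, D.prod_gate_split c (some l) σ]
    simp only [UG]
    ring

end CoreData

end Vale.Agent.Lib.P368
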