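import Vale.Agent.Lib.P368.D3.CoreBound

/-! The core theorem: the signed expectation over the bits of the blocks. -/

namespace Vale.Agent.Lib.P368

open Matrix Finset
open scoped Matrix.Norms.L2Operator InnerProductSpace ComplexConjugate

set_option linter.unusedSectionVars false
set_option linter.unusedSimpArgs false
set_option linter.unusedVariables false

variable {Q I G : Type} [Fintype Q] [DecidableEq Q] [Fintype I] [DecidableEq I] [Fintype G]
  [DecidableEq G]

lemma potW_nonneg (W : I → ℝ) (hW : ∀ i, 0 ≤ W i) (A : Finset I) : 0 ≤ potW W A := by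
  unfold potW
  refine Finset.sum_nonneg fun i _ => Finset.sum_nonneg fun j _ => ?_
  split_ifs
  · exact mul_nonneg (hW i) (hW j)
  · exact le_rfl

namespace CoreData

variable (D : CoreData Q I G)

/-- The projector of a gate on the qubits outside the blocks with trivial last projector. -/
noncomputable def Pml (l : G) : Op Q :=
  tp fun q => if D.RN q && decide (D.gt q = some l) then D.π q else 1

lemma sum_Pb_norm (Ω : Vec (Q → Bool)) :
    ∑ b, ‖act (Pb D.RN D.π b) Ω‖ ^ 2 = ‖Ω‖ ^ 2 := by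
  have h := Pb_sum_norm (R := D.RN) D.π_proj (fun _ => false) Ω
  simp only [Bool.and_false, Bool.false_and, Bool.false_eq_true, if_false, Finset.prod_const_one,
    one_mul] at h
  rw [tp_one] at h
  simp only [act_one] at h
  exact h.symm

lemma prod_Ybit (b : Q → Bool) (l : G) :
    (∏ q, if D.RN q && decide (D.gt q = some l) && !b q then (0 : ℝ) else 1)
      = if D.Ybit b l then 1 else 0 := by
  by_cases h : ∀ q, D.RN q = true → D.gt q = some l → b q = true
  · have h1 : D.Ybit b l = true := decide_eq_true h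
    rw [if_pos h1]
    refine Finset.prod_eq_one fun q _ => ?_
    rw [if_neg]
    simp only [Bool.and_eq_true, decide_eq_true_eq, Bool.not_eq_true']
    rintro ⟨⟨h2, h3⟩, h4⟩
    rw [h q h2 h3] at h4
    cases h4
  · have h1 : D.Ybit b l = false := decide_eq_false h
    rw [if_neg (by simp [h1])]
    push Not at h
    obtain ⟨q, h2, h3, h4⟩ := h
    refine Finset.prod_eq_zero (Finset.mem_univ q) ?_
    rw [if_pos]
    simp only [Bool.and_eq_true, decide_eq_true_eq, Bool.not_eq_true']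
    exact ⟨⟨h2, h3⟩, by simpa using h4⟩

lemma sum_Pb_Y (Ω : Vec (Q → Bool)) (l : G) :
    ∑ b, (if D.Ybit b l then (1 : ℝ) else 0) * ‖act (Pb D.RN D.π b) Ω‖ ^ 2
      = ‖act (D.Pml l) Ω‖ ^ 2 := by
  have h := Pb_sum_norm (R := D.RN) D.π_proj (fun q => decide (D.gt q = some l)) Ω
  simp only [D.prod_Ybit] at h
  exact h.symm

/-- The identity for the signed sums of the opened forms. -/
lemma sum_X_sq (Y : G → Bool) (s : (I → Bool) → ℝ) :
    ∑ a, ∑ a', ‖∑ x, (s x : ℂ) * D.rho Y x a a'‖ ^ 2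
      = ‖∑ x, ∑ x', ((s x * s x' : ℝ) : ℂ) * D.Phi Y x x'‖ := by
  have h1 : ∑ x, ∑ x', ((s x * s x' : ℝ) : ℂ) * D.Phi Y x x'
      = ((∑ a, ∑ a', ‖∑ x, (s x : ℂ) * D.rho Y x a a'‖ ^ 2 : ℝ) : ℂ) := by
    have h2 : ∀ a a', ((‖∑ x, (s x : ℂ) * D.rho Y x a a'‖ ^ 2 : ℝ) : ℂ)
        = ∑ x, ∑ x', ((s x * s x' : ℝ) : ℂ) * (D.rho Y x a a' * conj (D.rho Y x' a a')) := by
      intro a a'
      push_cast
      rw [← Complex.mul_conj', map_sum, Finset.sum_mul_sum]
      refine Finset.sum_congr rfl fun x _ => Finset.sum_congr rfl fun x' _ => ?_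
      rw [map_mul, Complex.conj_ofReal]
      ring
    push_cast
    push_cast at h2
    simp_rw [h2]
    unfold Phi
    calc _ = ∑ x, ∑ x', ∑ a, ∑ a', ((s x : ℂ) * s x') * (D.rho Y x a a' * conj (D.rho Y x' a a')) := by
          refine Finset.sum_congr rfl fun x _ => Finset.sum_congr rfl fun x' _ => ?_
          push_cast
          rw [Finset.mul_sum]
          refine Finset.sum_congr rfl fun a _ => ?_
          rw [Finset.mul_sum]
      _ = ∑ a, ∑ x, ∑ x', ∑ a', ((s x : ℂ) * s x') * (D.rho Y x a a' * conj (D.rho Y x' a a')) :=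
          (sum_swap3 _)
      _ = ∑ a, ∑ a', ∑ x, ∑ x', ((s x : ℂ) * s x') * (D.rho Y x a a' * conj (D.rho Y x' a a')) :=
          Finset.sum_congr rfl fun a _ => sum_swap3 _
  rw [h1, Complex.norm_real, Real.norm_of_nonneg]
  positivity

/-- The bound on the Hilbert-Schmidt norm of the signed opened forms. -/
theorem sqrt_X (W : G → I → ℝ) (hW0 : ∀ l i, 0 ≤ W l i)
    (hW : ∀ l i cc cc' σ σ', ‖D.tG (some l) i cc σ * D.tG (some l) i cc' σ'
      - D.tG (some l) i cc' σ * D.tG (some l) i cc σ'‖ ≤ W l i) (Y : G → Bool) :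
    Real.sqrt (∑ a, ∑ a', ‖∑ x : I → Bool, (((∏ i, sgnOf (x i) : ℝ)) : ℂ) * D.rho Y x a a'‖ ^ 2)
      ≤ 2 ^ Fintype.card I * (Real.sqrt (2 * (3 / 4 : ℝ) ^ Fintype.card I)
        + 6 * nearConst 81 (Fintype.card I) / (3 / 4 : ℝ) ^ Fintype.card I
          * (16 ^ 2 * 256 * ∑ l, (if Y l then D.sys.Cl l else 0) * potW (W l) Finset.univ)) := by
  have hκ : 0 ≤ 16 ^ 2 * 256 * ∑ l, (if Y l then D.sys.Cl l else 0) * potW (W l) Finset.univ := by
    refine mul_nonneg (by norm_num) (Finset.sum_nonneg fun l _ => mul_nonneg ?_ ?_)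
    · split_ifs
      · exact D.sys.Cl_nonneg l
      · exact le_rfl
    · exact potW_nonneg _ (hW0 l) _
  have h := sqrt_signed we (D.Gam Y) (D.Phi Y) (by rw [sum_norm_we]; norm_num)
    (D.Phi_expand Y) _ hκ (fun cs c => D.Gam_near W hW0 hW Y cs c) (D.Phi_nonneg Y) (D.Phi_le Y)
  rw [sum_norm_we] at h
  rw [D.sum_X_sq Y fun x => ∏ i, sgnOf (x i)]
  set S := ‖∑ x : I → Bool, ∑ x' : I → Bool,
    (((∏ i, sgnOf (x i)) * ∏ i, sgnOf (x' i) : ℝ) : ℂ) * D.Phi Y x x'‖ with hS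
  have h2 : Real.sqrt (S / 4 ^ Fintype.card I) = Real.sqrt S / 2 ^ Fintype.card I := by
    rw [Real.sqrt_div (norm_nonneg _)]
    congr 1
    rw [show (4 : ℝ) = 2 ^ 2 by norm_num, ← pow_mul, mul_comm, pow_mul,
      Real.sqrt_sq (by positivity)]
  rw [h2] at h
  have h3 : (0 : ℝ) < 2 ^ Fintype.card I := by positivity
  rw [div_le_iff₀ h3] at h
  linarith

/-- **The core theorem.** -/
theorem core_theorem (W : G → I → ℝ) (hW0 : ∀ l i, 0 ≤ W l i)
    (hW : ∀ l i cc cc' σ σ', ‖D.tG (some l) i cc σ * D.tG (some l) i cc' σ'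
      - D.tG (some l) i cc' σ * D.tG (some l) i cc σ'‖ ≤ W l i)
    (Ω : Vec (Q → Bool)) (hΩ : act D.Pref Ω = Ω) :
    ‖∑ x : I → Bool, ((∏ i, sgnOf (x i) : ℝ) : ℂ)
        * ⟪act (D.Kx x) Ω, act (D.full.hat fun _ => true) (act (D.Kx x) Ω)⟫_ℂ‖
      ≤ 2 ^ Fintype.card I * (Real.sqrt (2 * (3 / 4 : ℝ) ^ Fintype.card I) * ‖Ω‖ ^ 2
        + 6 * nearConst 81 (Fintype.card I) / (3 / 4 : ℝ) ^ Fintype.card I * (16 ^ 2 * 256)
          * ∑ l, D.sys.Cl l * ‖act (D.Pml l) Ω‖ ^ 2 * potW (W l) Finset.univ) := by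
  set m := Fintype.card I with hm
  set Ωb : (Q → Bool) → Vec (Q → Bool) := fun b => act (Pb D.RN D.π b) Ω with hΩb
  set z : (Q → Bool) → (Q → Bool) → (Q → Bool) → ℂ :=
    fun b a a' => ⟪Ωb b, act (MU D.RS a a') (Ωb b)⟫_ℂ with hz
  set X : (Q → Bool) → (Q → Bool) → (Q → Bool) → ℂ :=
    fun b a a' => ∑ x : I → Bool, ((∏ i, sgnOf (x i) : ℝ) : ℂ) * D.rho (D.Ybit b) x a a' with hX
  -- the form as a sum over the patterns
  have h1 : ∑ x : I → Bool, ((∏ i, sgnOf (x i) : ℝ) : ℂ)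
        * ⟪act (D.Kx x) Ω, act (D.full.hat fun _ => true) (act (D.Kx x) Ω)⟫_ℂ
      = ∑ b, ∑ a, ∑ a', X b a a' * z b a a' := by
    simp_rw [D.sform _ Ω hΩ]
    calc _ = ∑ x : I → Bool, ∑ b, ∑ a, ∑ a', ((∏ i, sgnOf (x i) : ℝ) : ℂ)
          * (D.rho (D.Ybit b) x a a' * z b a a') := by
          refine Finset.sum_congr rfl fun x _ => ?_
          rw [Finset.mul_sum]
          refine Finset.sum_congr rfl fun b _ => ?_
          rw [Finset.mul_sum]
          refine Finset.sum_congr rfl fun a _ => ?_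
          rw [Finset.mul_sum]
      _ = ∑ b, ∑ x : I → Bool, ∑ a, ∑ a', ((∏ i, sgnOf (x i) : ℝ) : ℂ)
          * (D.rho (D.Ybit b) x a a' * z b a a') := Finset.sum_comm
      _ = _ := by
          refine Finset.sum_congr rfl fun b _ => ?_
          rw [Finset.sum_comm]
          refine Finset.sum_congr rfl fun a _ => ?_
          rw [Finset.sum_comm]
          refine Finset.sum_congr rfl fun a' _ => ?_
          simp only [hX]
          rw [Finset.sum_mul]
          refine Finset.sum_congr rfl fun x _ => ?_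
          ring
  rw [h1]
  -- the bound for one pattern
  have hB : ∀ b, ‖∑ a, ∑ a', X b a a' * z b a a'‖
      ≤ Real.sqrt (∑ a, ∑ a', ‖X b a a'‖ ^ 2) * ‖Ωb b‖ ^ 2 :=
    fun b => cs_double _ _ _ (by positivity) (sum_inner_MU_sq D.RS (Ωb b))
  set A := 6 * nearConst 81 m / (3 / 4 : ℝ) ^ m with hA
  set r := Real.sqrt (2 * (3 / 4 : ℝ) ^ m) with hr
  have hB2 : ∀ b, ‖∑ a, ∑ a', X b a a' * z b a a'‖
      ≤ 2 ^ m * (r * ‖Ωb b‖ ^ 2 + A * (16 ^ 2 * 256)
          * ∑ l, D.sys.Cl l * ((if D.Ybit b l then (1 : ℝ) else 0) * ‖Ωb b‖ ^ 2)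
              * potW (W l) Finset.univ) := by
    intro b
    refine (hB b).trans ?_
    have h2 : Real.sqrt (∑ a, ∑ a', ‖X b a a'‖ ^ 2) ≤ 2 ^ m * (r + A * (16 ^ 2 * 256
        * ∑ l, (if D.Ybit b l then D.sys.Cl l else 0) * potW (W l) Finset.univ)) :=
      D.sqrt_X W hW0 hW (D.Ybit b)
    have h3 : 0 ≤ ‖Ωb b‖ ^ 2 := by positivity
    have hs : (∑ l, (if D.Ybit b l then D.sys.Cl l else 0) * potW (W l) Finset.univ) * ‖Ωb b‖ ^ 2
        = ∑ l, D.sys.Cl l * ((if D.Ybit b l then (1 : ℝ) else 0) * ‖Ωb b‖ ^ 2)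
              * potW (W l) Finset.univ := by
      rw [Finset.sum_mul]
      refine Finset.sum_congr rfl fun l _ => ?_
      split_ifs <;> ring
    refine (mul_le_mul_of_nonneg_right h2 h3).trans (le_of_eq ?_)
    rw [← hs]
    ring
  -- summing over the patterns
  refine (norm_sum_le _ _).trans ((Finset.sum_le_sum fun b _ => hB2 b).trans (le_of_eq ?_))
  rw [← Finset.mul_sum, Finset.sum_add_distrib, ← Finset.mul_sum, ← Finset.mul_sum]
  congr 2
  · rw [← D.sum_Pb_norm Ω]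
  · congr 1
    rw [Finset.sum_comm]
    refine Finset.sum_congr rfl fun l _ => ?_
    rw [← D.sum_Pb_Y Ω l, mul_assoc, mul_comm _ (potW (W l) Finset.univ), ← mul_assoc,
      Finset.mul_sum]
    refine Finset.sum_congr rfl fun b _ => ?_
    ring

end CoreData

end Vale.Agent.Lib.P368
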