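import Vale.Agent.Lib.P368.D3.Scal

/-! The expansion of a gate layer conjugating a tensor product. -/

namespace Vale.Agent.Lib.P368

open Matrix Finset
open scoped Matrix.Norms.L2Operator InnerProductSpace ComplexConjugate

set_option linter.unusedSectionVars false
set_option linter.unusedSimpArgs false
set_option linter.unusedVariables false

/-- Pairs of bits labelling the four terms of a conjugation by a reflection. -/
abbrev J := Bool × Bool

/-- The power of an operator by a bit. -/
def pw (b : Bool) (X : M2) : M2 := if b then X else 1

lemma pw_false (X : M2) : pw false X = 1 := rfl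
lemma pw_true (X : M2) : pw true X = X := rfl

/-- Extension of a function on gates to the option type. -/
def oext {G X : Type} (x0 : X) (k : G → X) : Option G → X
  | none => x0
  | some l => k l

@[simp] lemma oext_none {G X : Type} (x0 : X) (k : G → X) : oext x0 k none = x0 := rfl
@[simp] lemma oext_some {G X : Type} (x0 : X) (k : G → X) (l : G) : oext x0 k (some l) = k l := rfl

variable {Q G : Type} [Fintype Q] [DecidableEq Q] [Fintype G] [DecidableEq G]

/-- The projector of a gate. -/
noncomputable def gateP (gt : Q → Option G) (π : Q → M2) (l : G) : Op Q :=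
  tp fun q => if gt q = some l then π q else 1

/-- The weighted product of the reflections of the gates in a list. -/
noncomputable def Ty (gt : Q → Option G) (π : Q → M2) (y : G → ℂ) (L : List G) : Op Q :=
  lprod (fun l => 1 - (2 * y l) • gateP gt π l) L

/-- The coefficient of one term of a reflection. -/
def bw (y : ℂ) (b : Bool) : ℂ := if b then -2 * y else 1

@[simp] lemma bw_false (y : ℂ) : bw y false = 1 := rfl
@[simp] lemma bw_true (y : ℂ) : bw y true = -2 * y := rfl

/-- The product of the projectors of the gates selected by `A`. -/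
noncomputable def Pa (gt : Q → Option G) (π : Q → M2) (A : G → Bool) : Op Q :=
  tp fun q => pw (oext false A (gt q)) (π q)

/-- Splitting a sum over bit functions at one coordinate. -/
lemma sum_split_at {M : Type} [AddCommMonoid M] (a : G) (F : (G → Bool) → M) :
    ∑ A, F A = ∑ A, if A a then 0 else F A + F (Function.update A a true) := by
  rw [Finset.sum_ite]
  simp only [Finset.sum_const_zero, zero_add, Finset.sum_add_distrib]
  rw [← Finset.sum_filter_add_sum_filter_not Finset.univ (fun A : G → Bool => A a = false)]
  have h1 : (Finset.univ.filter fun A : G → Bool => ¬ A a = true)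
      = Finset.univ.filter fun A : G → Bool => A a = false := by
    ext A; simp
  rw [h1]
  congr 1
  refine Finset.sum_nbij' (fun A => Function.update A a false) (fun A => Function.update A a true)
    ?_ ?_ ?_ ?_ ?_
  · intro A _; simp
  · intro A _; simp
  · intro A hA
    have h2 : A a = true := by simpa using hA
    funext l
    by_cases hl : l = a
    · subst hl; simp [h2]
    · simp [Function.update_of_ne hl]
  · intro A hA
    have h2 : A a = false := by simpa using hA
    funext l
    by_cases hl : l = a
    · subst hl; simp [h2]
    · simp [Function.update_of_ne hl]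
  · intro A hA
    have h2 : A a = true := by simpa using hA
    congr 1
    funext l
    by_cases hl : l = a
    · subst hl; simp [h2]
    · simp [Function.update_of_ne hl]

lemma gateP_mul_Pa (gt : Q → Option G) (π : Q → M2) (a : G) (A : G → Bool) (hA : A a = false) :
    gateP gt π a * Pa gt π A = Pa gt π (Function.update A a true) := by
  unfold gateP Pa
  rw [tp_mul]
  congr 1
  funext q
  cases hq : gt q with
  | none => simp [pw]
  | some l =>
    by_cases hl : l = a
    · subst hl; simp [pw, hA]
    · have h1 : some l ≠ some a := by simpa using hl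
      simp only [oext_some, if_neg h1, one_mul, Function.update_of_ne hl]

lemma Pa_false (gt : Q → Option G) (π : Q → M2) : Pa gt π (fun _ => false) = 1 := by
  unfold Pa
  have : (fun q => pw (oext false (fun _ : G => false) (gt q)) (π q)) = fun _ => (1 : M2) := by
    funext q
    cases gt q <;> simp [pw]
  rw [this]
  exact tp_one

/-- The product expansion of the weighted reflections. -/
lemma Ty_expand_gen (gt : Q → Option G) (π : Q → M2) (y : G → ℂ) (L : List G) (hL : L.Nodup) :
    Ty gt π y L = ∑ A : G → Bool, (∏ l, bw (if l ∈ L then y l else 0) (A l)) • Pa gt π A := by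
  induction L with
  | nil =>
    unfold Ty
    rw [lprod_nil]
    rw [Finset.sum_eq_single (fun _ => false)]
    · simp [Pa_false]
    · intro A _ hA
      obtain ⟨l, hl⟩ := Function.ne_iff.mp hA
      have : A l = true := by simpa using hl
      rw [Finset.prod_eq_zero (Finset.mem_univ l) (by simp [this]), zero_smul]
    · simp
  | cons a L ih =>
    rw [List.nodup_cons] at hL
    have ih' := ih hL.2
    have hT : Ty gt π y (a :: L) = (1 - (2 * y a) • gateP gt π a) * Ty gt π y L := by
      unfold Ty; rw [lprod_cons]
    rw [hT, ih', sum_split_at a (fun A => (∏ l, bw (if l ∈ a :: L then y l else 0) (A l)) • Pa gt π A),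
      sum_split_at a (fun A => (∏ l, bw (if l ∈ L then y l else 0) (A l)) • Pa gt π A),
      Finset.mul_sum]
    refine Finset.sum_congr rfl fun A _ => ?_
    by_cases hA : A a = true
    · simp [hA]
    · have hA' : A a = false := by simpa using hA
      rw [if_neg hA, if_neg hA]
      -- the coefficients
      have hc0 : (∏ l, bw (if l ∈ L then y l else 0) (Function.update A a true l)) = 0 := by
        refine Finset.prod_eq_zero (Finset.mem_univ a) ?_
        simp [hL.1]
      have hrest : ∀ l ∈ Finset.univ.erase a,
          bw (if l ∈ a :: L then y l else 0) (A l) = bw (if l ∈ L then y l else 0) (A l) := by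
        intro l hl
        have hla := Finset.ne_of_mem_erase hl
        simp [hla]
      have hc1 : (∏ l, bw (if l ∈ a :: L then y l else 0) (A l))
          = ∏ l, bw (if l ∈ L then y l else 0) (A l) := by
        rw [← Finset.mul_prod_erase _ _ (Finset.mem_univ a),
          ← Finset.mul_prod_erase (a := a) (f := fun l => bw (if l ∈ L then y l else 0) (A l))
            Finset.univ (Finset.mem_univ a)]
        rw [Finset.prod_congr rfl hrest]
        simp [hA']
      have hc2 : (∏ l, bw (if l ∈ a :: L then y l else 0) (Function.update A a true l))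
          = (-2 * y a) * ∏ l, bw (if l ∈ L then y l else 0) (A l) := by
        rw [← Finset.mul_prod_erase _ _ (Finset.mem_univ a),
          ← Finset.mul_prod_erase (a := a) (f := fun l => bw (if l ∈ L then y l else 0) (A l))
            Finset.univ (Finset.mem_univ a)]
        have : ∏ l ∈ Finset.univ.erase a, bw (if l ∈ a :: L then y l else 0) (Function.update A a true l)
            = ∏ l ∈ Finset.univ.erase a, bw (if l ∈ L then y l else 0) (A l) := by
          rw [← Finset.prod_congr rfl hrest]
          refine Finset.prod_congr rfl fun l hl => ?_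
          rw [Function.update_of_ne (Finset.ne_of_mem_erase hl)]
        rw [this]
        simp [hA']
      rw [hc0, hc1, hc2, zero_smul, add_zero, ← gateP_mul_Pa gt π a A hA']
      set c := ∏ l, bw (if l ∈ L then y l else 0) (A l)
      rw [sub_mul, one_mul, smul_mul_assoc, mul_smul_comm, smul_smul, sub_eq_add_neg, ← neg_smul]
      have : (-2 * y a * c) = -(2 * y a * c) := by ring
      rw [this]

/-- The product expansion when the list contains all gates. -/
lemma Ty_expand (gt : Q → Option G) (π : Q → M2) (y : G → ℂ) (L : List G) (hL : L.Nodup)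
    (hall : ∀ l, l ∈ L) :
    Ty gt π y L = ∑ A : G → Bool, (∏ l, bw (y l) (A l)) • Pa gt π A := by
  rw [Ty_expand_gen gt π y L hL]
  simp [hall]

/-- The one-qubit operator of a term of the conjugation. -/
noncomputable def Oj (π E : Q → M2) (j : J) (q : Q) : M2 := pw j.1 (π q) * E q * pw j.2 (π q)

/-- The coefficient of a term of the conjugation by a reflection. -/
def cw (y : ℂ) (j : J) : ℂ := bw y j.1 * bw y j.2

/-- A sum over two bit functions is a sum over functions to pairs. -/
lemma sum_sum_pair {M : Type} [AddCommMonoid M] (F : (G → Bool) → (G → Bool) → M) :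
    ∑ A, ∑ B, F A B = ∑ k : G → J, F (fun l => (k l).1) (fun l => (k l).2) := by
  rw [← Finset.sum_product']
  refine Finset.sum_nbij' (fun p l => (p.1 l, p.2 l)) (fun k => (fun l => (k l).1, fun l => (k l).2))
    ?_ ?_ ?_ ?_ ?_
  · intro _ _; simp
  · intro _ _; simp
  · intro _ _; rfl
  · intro _ _; rfl
  · intro _ _; rfl

/-- **The master expansion.** -/
theorem Ty_conj (gt : Q → Option G) (π E : Q → M2) (y : G → ℂ) (L : List G) (hL : L.Nodup)
    (hall : ∀ l, l ∈ L) :
    Ty gt π y L * tp E * Ty gt π y L
      = ∑ k : G → J, (∏ l, cw (y l) (k l)) •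
          tp (fun q => Oj π E (oext (false, false) k (gt q)) q) := by
  rw [Ty_expand gt π y L hL hall, Finset.sum_mul, Finset.sum_mul]
  simp_rw [Finset.mul_sum]
  have key : ∀ A B : G → Bool, (∏ l, bw (y l) (A l)) • Pa gt π A * tp E *
      ((∏ l, bw (y l) (B l)) • Pa gt π B)
      = (∏ l, cw (y l) (A l, B l)) •
          tp (fun q => Oj π E (oext (false, false) (fun l => (A l, B l)) (gt q)) q) := by
    intro A B
    have h1 : (∏ l, cw (y l) (A l, B l))
        = (∏ l, bw (y l) (A l)) * ∏ l, bw (y l) (B l) := by
      rw [← Finset.prod_mul_distrib]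
      rfl
    simp only [h1, smul_mul_assoc, mul_smul_comm, smul_smul]
    rw [mul_comm (∏ l, bw (y l) (B l))]
    congr 1
    unfold Pa
    rw [tp_mul, tp_mul]
    congr 1
    funext q
    cases hq : gt q with
    | none => simp [Oj, pw]
    | some l => simp [Oj]
  simp_rw [key]
  exact sum_sum_pair (fun A B => (∏ l, cw (y l) (A l, B l)) •
          tp (fun q => Oj π E (oext (false, false) (fun l => (A l, B l)) (gt q)) q))

/-! ### Gate layers as weighted reflections -/

lemma gateP_star {π : Q → M2} (hπ : ∀ q, IsStarProjection (π q)) (gt : Q → Option G) (l : G) :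
    IsStarProjection (gateP gt π l) := by
  refine tp_proj fun q => ?_
  by_cases h : gt q = some l
  · simpa [h] using hπ q
  · simpa [h] using IsStarProjection.one _

lemma gateP_comm (gt : Q → Option G) (π : Q → M2) {l l' : G} (h : l ≠ l') :
    Commute (gateP gt π l) (gateP gt π l') := by
  show gateP gt π l * gateP gt π l' = gateP gt π l' * gateP gt π l
  unfold gateP
  rw [tp_mul, tp_mul]
  congr 1
  funext q
  by_cases h1 : gt q = some l
  · simp [h1, h]
  · simp [h1]

lemma Ty_invol {π : Q → M2} (hπ : ∀ q, IsStarProjection (π q)) (gt : Q → Option G) (y : G → ℂ)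
    (hy : ∀ l, y l = 0 ∨ y l = 1) (L : List G) (hL : L.Nodup) :
    star (Ty gt π y L) = Ty gt π y L ∧ Ty gt π y L * Ty gt π y L = 1 := by
  unfold Ty
  have hf : ∀ l, (1 - (2 * y l) • gateP gt π l) = 1 ∨
      (1 - (2 * y l) • gateP gt π l) = refl (gateP gt π l) := by
    intro l
    rcases hy l with h | h
    · left; simp [h]
    · right; simp [h, refl]
  refine lprod_invol _ L ?_ ?_ ?_
  · refine hL.imp ?_
    intro a b hab
    have hc := gateP_comm gt π hab
    refine Commute.sub_left (Commute.one_left _) ?_
    refine Commute.sub_right (Commute.one_right _) ?_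
    exact (hc.smul_left _).smul_right _
  · intro l _
    rcases hf l with h | h
    · rw [h]; simp
    · rw [h]; exact refl_star (gateP_star hπ gt l)
  · intro l _
    rcases hf l with h | h
    · rw [h]; simp
    · rw [h]; exact refl_sq (gateP_star hπ gt l)

/-- The conjugate of a tensor product of projectors is a projector. -/
lemma Ty_conj_proj {π E : Q → M2} (hπ : ∀ q, IsStarProjection (π q))
    (hE : ∀ q, IsStarProjection (E q)) (gt : Q → Option G) (y : G → ℂ)
    (hy : ∀ l, y l = 0 ∨ y l = 1) (L : List G) (hL : L.Nodup) :
    IsStarProjection (Ty gt π y L * tp E * Ty gt π y L) := by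
  obtain ⟨h1, h2⟩ := Ty_invol hπ gt y hy L hL
  have hE' := tp_proj hE
  set T := Ty gt π y L
  constructor
  · show T * tp E * T * (T * tp E * T) = T * tp E * T
    calc T * tp E * T * (T * tp E * T) = T * tp E * (T * T) * tp E * T := by
          simp only [mul_assoc]
      _ = T * (tp E * tp E) * T := by rw [h2, mul_one]; simp only [mul_assoc]
      _ = T * tp E * T := by rw [hE'.isIdempotentElem.eq]
  · show star (T * tp E * T) = T * tp E * T
    rw [star_mul, star_mul, h1, hE'.isSelfAdjoint.star_eq, mul_assoc]

/-! ### Fubini over gates -/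

/-- The product over the qubits split by gate. -/
lemma prod_by_gate {X : Type} (gt : Q → Option G) (x0 : X) (k : G → X) (h : Q → X → ℂ) :
    ∏ q, h q (oext x0 k (gt q))
      = (∏ q ∈ Finset.univ.filter (fun q => gt q = none), h q x0)
        * ∏ l, ∏ q ∈ Finset.univ.filter (fun q => gt q = some l), h q (k l) := by
  have h1 := (Finset.prod_fiberwise Finset.univ gt (fun q => h q (oext x0 k (gt q)))).symm
  rw [h1, Fintype.prod_option]
  congr 1
  · refine Finset.prod_congr rfl fun q hq => ?_
    have : gt q = none := (Finset.mem_filter.mp hq).2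
    rw [this]; rfl
  · refine Finset.prod_congr rfl fun l _ => Finset.prod_congr rfl fun q hq => ?_
    have : gt q = some l := (Finset.mem_filter.mp hq).2
    rw [this]; rfl

/-- Fubini over the gates. -/
theorem fubini_gate {X : Type} [Fintype X] [DecidableEq X] (gt : Q → Option G) (x0 : X)
    (w : G → X → ℂ) (h : Q → X → ℂ) :
    ∑ k : G → X, (∏ l, w l (k l)) * ∏ q, h q (oext x0 k (gt q))
      = (∏ q ∈ Finset.univ.filter (fun q => gt q = none), h q x0)
        * ∏ l, ∑ x, w l x * ∏ q ∈ Finset.univ.filter (fun q => gt q = some l), h q x := by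
  rw [Finset.prod_univ_sum, Fintype.piFinset_univ, Finset.mul_sum]
  refine Finset.sum_congr rfl fun k _ => ?_
  rw [prod_by_gate, Finset.prod_mul_distrib]
  ring

/-- A sum over two functions of a product over the qubits of a function of their values. -/
lemma sum_sum_prod (f : Q → Bool → Bool → ℂ) :
    ∑ a : Q → Bool, ∑ a' : Q → Bool, ∏ q, f q (a q) (a' q) = ∏ q, ∑ α, ∑ α', f q α α' := by
  have h1 : ∀ q, ∑ α, ∑ α', f q α α' = ∑ d : Bool × Bool, f q d.1 d.2 := by
    intro q
    rw [Fintype.sum_prod_type]
  simp_rw [h1]
  rw [Finset.prod_univ_sum, Fintype.piFinset_univ]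
  exact sum_sum_pair (G := Q) (fun A B => ∏ q, f q (A q) (B q))

end Vale.Agent.Lib.P368
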