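import Mathlib

/-! Estimates in an abstract Hilbert space for the mode of a block at a gate. -/

namespace Vale.Agent.Lib.P368

open scoped InnerProductSpace ComplexConjugate

set_option linter.unusedSectionVars false
set_option linter.unusedSimpArgs false
set_option linter.unusedVariables false

variable {H : Type} [NormedAddCommGroup H] [InnerProductSpace ℂ H]

/-- The squared norm of a vector, as a complex inner product. -/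
lemma inner_self_C (x : H) : ⟪x, x⟫_ℂ = ((‖x‖ ^ 2 : ℝ) : ℂ) := by
  rw [inner_self_eq_norm_sq_to_K]
  simp

lemma conj_mul_self_C (z : ℂ) : conj z * z = ((‖z‖ ^ 2 : ℝ) : ℂ) := by
  rw [mul_comm, Complex.mul_conj, Complex.normSq_eq_norm_sq]

lemma norm_sq_sub_C (x y : H) :
    ‖x - y‖ ^ 2 = ‖x‖ ^ 2 - 2 * (⟪x, y⟫_ℂ).re + ‖y‖ ^ 2 := by
  have := @norm_sub_sq ℂ H _ _ _ x y
  rw [this]
  simp

/-- The determinant for a pair of a functional and a projected functional. -/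
theorem mode_S (a p ξ ξ' : H) (ha : ‖a‖ = 1) (hp : ‖p‖ = 1) :
    ‖⟪a, ξ⟫_ℂ * (⟪a, p⟫_ℂ * ⟪p, ξ'⟫_ℂ) - (⟪a, p⟫_ℂ * ⟪p, ξ⟫_ℂ) * ⟪a, ξ'⟫_ℂ‖
      ≤ 2 * Real.sqrt (1 - ‖⟪a, p⟫_ℂ‖ ^ 2) * ‖ξ‖ * ‖ξ' - ξ‖ := by
  set c := ⟪a, p⟫_ℂ with hc
  set C := ‖c‖ ^ 2 with hC
  have hcp : ⟪p, a⟫_ℂ = conj c := by rw [hc, inner_conj_symm]
  have hC1 : C ≤ 1 := by
    have h := norm_inner_le_norm (𝕜 := ℂ) a p
    rw [ha, hp] at h
    have h0 := norm_nonneg c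
    simp only [hC]
    have h2 : ‖c‖ ≤ 1 := by simpa using h
    nlinarith
  have hC0 : 0 ≤ C := by positivity
  set η : H := conj c • p - (C : ℂ) • a with hη
  have hηv : ∀ x : H, ⟪η, x⟫_ℂ = c * ⟪p, x⟫_ℂ - C * ⟪a, x⟫_ℂ := by
    intro x
    rw [hη, inner_sub_left, inner_smul_left, inner_smul_left]
    simp
  -- the norm of `η`
  have hηn : ‖η‖ ^ 2 = C * (1 - C) := by
    rw [hη, norm_sq_sub_C, norm_smul, norm_smul, inner_smul_left, inner_smul_right, ha, hp]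
    have h1 : ‖conj c‖ = ‖c‖ := RCLike.norm_conj _
    have h2 : ⟪p, a⟫_ℂ = conj c := hcp
    rw [h1, h2]
    simp only [Complex.conj_conj]
    have h3 : c * (C * conj c) = ((C ^ 2 : ℝ) : ℂ) := by
      have h4 : c * conj c = ((‖c‖ ^ 2 : ℝ) : ℂ) := by
        rw [Complex.mul_conj, Complex.normSq_eq_norm_sq]
      calc c * (C * conj c) = C * (c * conj c) := by ring
        _ = _ := by rw [h4, ← hC]; push_cast; ring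
    rw [h3, Complex.ofReal_re, Complex.norm_real, Real.norm_of_nonneg hC0]
    simp only [hC]
    ring
  have hηs : ‖η‖ ≤ Real.sqrt (1 - C) := by
    apply Real.le_sqrt_of_sq_le
    rw [hηn]
    nlinarith
  -- the algebra
  have h1 : ⟪a, ξ⟫_ℂ * (c * ⟪p, ξ'⟫_ℂ) - (c * ⟪p, ξ⟫_ℂ) * ⟪a, ξ'⟫_ℂ
      = ⟪a, ξ⟫_ℂ * ⟪η, ξ' - ξ⟫_ℂ + ⟪η, ξ⟫_ℂ * ⟪a, -(ξ' - ξ)⟫_ℂ := by
    rw [hηv, hηv, inner_neg_right, inner_sub_right, inner_sub_right]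
    ring
  rw [h1]
  have hb1 : ‖⟪a, ξ⟫_ℂ‖ ≤ ‖ξ‖ := by
    have := norm_inner_le_norm (𝕜 := ℂ) a ξ
    rwa [ha, one_mul] at this
  have hb2 : ‖⟪a, -(ξ' - ξ)⟫_ℂ‖ ≤ ‖ξ' - ξ‖ := by
    have := norm_inner_le_norm (𝕜 := ℂ) a (-(ξ' - ξ))
    rwa [ha, one_mul, norm_neg] at this
  have hb3 := norm_inner_le_norm (𝕜 := ℂ) η (ξ' - ξ)
  have hb4 := norm_inner_le_norm (𝕜 := ℂ) η ξ
  set s := Real.sqrt (1 - C)
  have hs0 : 0 ≤ s := Real.sqrt_nonneg _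
  have hn0 := norm_nonneg ξ
  have hn1 := norm_nonneg (ξ' - ξ)
  have hn2 := norm_nonneg η
  calc _ ≤ ‖⟪a, ξ⟫_ℂ * ⟪η, ξ' - ξ⟫_ℂ‖ + ‖⟪η, ξ⟫_ℂ * ⟪a, -(ξ' - ξ)⟫_ℂ‖ := norm_add_le _ _
    _ = ‖⟪a, ξ⟫_ℂ‖ * ‖⟪η, ξ' - ξ⟫_ℂ‖ + ‖⟪η, ξ⟫_ℂ‖ * ‖⟪a, -(ξ' - ξ)⟫_ℂ‖ := by
        rw [norm_mul, norm_mul]
    _ ≤ ‖ξ‖ * (s * ‖ξ' - ξ‖) + (s * ‖ξ‖) * ‖ξ' - ξ‖ := by
        gcongr
        · exact hb3.trans (by gcongr)
        · exact hb4.trans (by gcongr)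
    _ = _ := by ring

/-- The data of a mode. -/
structure ModeV (H : Type) [NormedAddCommGroup H] [InnerProductSpace ℂ H] where
  Ψ : H
  Θ : H
  p : H
  hΨ : ‖Ψ‖ = 1
  hp : ‖p‖ = 1
  hΘ : ⟪Θ, Ψ⟫_ℂ = ⟪Θ, Θ⟫_ℂ

namespace ModeV

variable (V : ModeV H)

/-- The overlap of the first vector. -/
noncomputable def α : ℂ := ⟪V.p, V.Ψ⟫_ℂ
/-- The overlap of the second vector. -/
noncomputable def β : ℂ := ⟪V.p, V.Θ⟫_ℂ
/-- The defect of the overlap. -/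
noncomputable def f : ℝ := 1 - ‖V.α‖ ^ 2
/-- The norm defect of the second vector. -/
noncomputable def m : ℝ := 1 - ‖V.Θ‖ ^ 2

lemma norm_D_sq : ‖V.Ψ - V.Θ‖ ^ 2 = V.m := by
  rw [norm_sq_sub_C, V.hΨ]
  have h1 : ⟪V.Ψ, V.Θ⟫_ℂ = ⟪V.Θ, V.Θ⟫_ℂ := by
    rw [← inner_conj_symm, V.hΘ, inner_conj_symm]
  rw [h1, inner_self_C, Complex.ofReal_re]
  unfold m
  ring

lemma m_nonneg : 0 ≤ V.m := by
  rw [← V.norm_D_sq]
  positivity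

lemma norm_Θ_sq : ‖V.Θ‖ ^ 2 = 1 - V.m := by
  unfold m
  ring

lemma norm_Θ_le : ‖V.Θ‖ ≤ 1 := by
  have h := V.m_nonneg
  have h2 := V.norm_Θ_sq
  have h0 := norm_nonneg V.Θ
  nlinarith

lemma m_le_one : V.m ≤ 1 := by
  have h2 := V.norm_Θ_sq
  have h0 := norm_nonneg V.Θ
  nlinarith

lemma norm_α_le : ‖V.α‖ ≤ 1 := by
  have := norm_inner_le_norm (𝕜 := ℂ) V.p V.Ψ
  rw [V.hp, V.hΨ] at this
  simpa [α] using this

lemma norm_β_le : ‖V.β‖ ≤ 1 := by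
  have := norm_inner_le_norm (𝕜 := ℂ) V.p V.Θ
  rw [V.hp, one_mul] at this
  exact this.trans V.norm_Θ_le

lemma f_nonneg : 0 ≤ V.f := by
  have h0 := norm_nonneg V.α
  have h1 := V.norm_α_le
  unfold f
  nlinarith

lemma f_le_one : V.f ≤ 1 := by
  unfold f
  nlinarith [norm_nonneg V.α]

lemma pp : ⟪V.p, V.p⟫_ℂ = 1 := by
  rw [inner_self_C, V.hp]
  simp

/-- The component orthogonal to the direction `p`. -/
lemma inner_perp (x y : H) :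
    ⟪x - ⟪V.p, x⟫_ℂ • V.p, y - ⟪V.p, y⟫_ℂ • V.p⟫_ℂ = ⟪x, y⟫_ℂ - conj ⟪V.p, x⟫_ℂ * ⟪V.p, y⟫_ℂ := by
  rw [inner_sub_left, inner_sub_right, inner_sub_right, inner_smul_left, inner_smul_right,
    inner_smul_left, inner_smul_right, V.pp, inner_conj_symm]
  simp only [mul_one, ← inner_conj_symm x V.p]
  ring

lemma norm_perp_sq (x : H) :
    ‖x - ⟪V.p, x⟫_ℂ • V.p‖ ^ 2 = ‖x‖ ^ 2 - ‖⟪V.p, x⟫_ℂ‖ ^ 2 := by
  have h := V.inner_perp x x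
  rw [inner_self_C, inner_self_C, conj_mul_self_C] at h
  have h2 : ((‖x - ⟪V.p, x⟫_ℂ • V.p‖ ^ 2 : ℝ) : ℂ) = ((‖x‖ ^ 2 - ‖⟪V.p, x⟫_ℂ‖ ^ 2 : ℝ) : ℂ) := by
    rw [h]; push_cast; ring
  exact_mod_cast h2

/-- The difference of the overlaps. -/
noncomputable def δ : ℂ := V.α - V.β

lemma δ_eq : V.δ = ⟪V.p, V.Ψ - V.Θ⟫_ℂ := by
  rw [inner_sub_right]; rfl

/-- The main bound on the difference of the overlaps. -/
noncomputable def X : ℝ := Real.sqrt V.f * Real.sqrt V.m + V.m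

lemma X_nonneg : 0 ≤ V.X := by
  have := V.m_nonneg
  unfold X
  positivity

lemma norm_u : ‖V.Ψ - V.α • V.p‖ = Real.sqrt V.f := by
  have h := V.norm_perp_sq V.Ψ
  rw [V.hΨ] at h
  rw [eq_comm, Real.sqrt_eq_iff_mul_self_eq V.f_nonneg (norm_nonneg _)]
  unfold f α
  nlinarith

lemma norm_v_le : ‖(V.Ψ - V.Θ) - V.δ • V.p‖ ≤ Real.sqrt V.m := by
  have h := V.norm_perp_sq (V.Ψ - V.Θ)
  rw [V.norm_D_sq, ← V.δ_eq] at h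
  apply Real.le_sqrt_of_sq_le
  rw [h]
  nlinarith [norm_nonneg V.δ]

lemma inner_Ψ_D : ⟪V.Ψ, V.Ψ - V.Θ⟫_ℂ = (V.m : ℂ) := by
  rw [inner_sub_right, inner_self_C, V.hΨ, ← inner_conj_symm V.Ψ V.Θ, V.hΘ, inner_self_C,
    Complex.conj_ofReal]
  unfold m
  push_cast
  ring

lemma inner_Θ_D : ⟪V.Θ, V.Ψ - V.Θ⟫_ℂ = 0 := by
  rw [inner_sub_right, V.hΘ, sub_self]

lemma bound_α : ‖V.α‖ * ‖V.δ‖ ≤ V.X := by
  have h := V.inner_perp V.Ψ (V.Ψ - V.Θ)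
  rw [V.inner_Ψ_D, ← V.δ_eq] at h
  change ⟪V.Ψ - V.α • V.p, (V.Ψ - V.Θ) - V.δ • V.p⟫_ℂ = (V.m : ℂ) - conj V.α * V.δ at h
  have h1 : conj V.α * V.δ = (V.m : ℂ) - ⟪V.Ψ - V.α • V.p, (V.Ψ - V.Θ) - V.δ • V.p⟫_ℂ := by
    rw [h]; ring
  have h2 : ‖V.α‖ * ‖V.δ‖ = ‖conj V.α * V.δ‖ := by
    rw [norm_mul, RCLike.norm_conj]
  rw [h2, h1]
  refine (norm_sub_le _ _).trans ?_
  rw [Complex.norm_real, Real.norm_of_nonneg V.m_nonneg, X, add_comm]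
  gcongr
  refine (norm_inner_le_norm _ _).trans ?_
  rw [V.norm_u]
  gcongr
  exact V.norm_v_le

lemma bound_β : ‖V.β‖ * ‖V.δ‖ ≤ V.X := by
  have h := V.inner_perp V.Θ (V.Ψ - V.Θ)
  rw [V.inner_Θ_D, ← V.δ_eq] at h
  change ⟪V.Θ - V.β • V.p, (V.Ψ - V.Θ) - V.δ • V.p⟫_ℂ = 0 - conj V.β * V.δ at h
  have h1 : conj V.β * V.δ = - ⟪V.Θ - V.β • V.p, (V.Ψ - V.Θ) - V.δ • V.p⟫_ℂ := by
    rw [h]; ring
  have h2 : ‖V.β‖ * ‖V.δ‖ = ‖conj V.β * V.δ‖ := by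
    rw [norm_mul, RCLike.norm_conj]
  rw [h2, h1, norm_neg]
  refine (norm_inner_le_norm _ _).trans ?_
  have hw : V.Θ - V.β • V.p = (V.Ψ - V.α • V.p) - ((V.Ψ - V.Θ) - V.δ • V.p) := by
    unfold δ
    rw [sub_smul]
    abel
  have h3 : ‖V.Θ - V.β • V.p‖ ≤ Real.sqrt V.f + Real.sqrt V.m := by
    rw [hw]
    refine (norm_sub_le _ _).trans ?_
    rw [V.norm_u]
    gcongr
    exact V.norm_v_le
  have h4 := V.norm_v_le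
  have h5 : Real.sqrt V.m * Real.sqrt V.m = V.m := Real.mul_self_sqrt V.m_nonneg
  have h6 := Real.sqrt_nonneg V.f
  have h7 := Real.sqrt_nonneg V.m
  calc _ ≤ (Real.sqrt V.f + Real.sqrt V.m) * Real.sqrt V.m := by
        gcongr
    _ = _ := by
        unfold X
        rw [add_mul, h5]

/-- The two vectors of a mode. -/
def ξ : Bool → H
  | false => V.Ψ
  | true => V.Θ

/-- The overlaps of the two vectors of a mode. -/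
noncomputable def γ : Bool → ℂ
  | false => V.α
  | true => V.β

lemma inner_ξ (b b' : Bool) :
    ⟪V.ξ b, V.ξ b'⟫_ℂ = (if b || b' then ((1 - V.m : ℝ) : ℂ) else 1) := by
  have h0 : ⟪V.Ψ, V.Ψ⟫_ℂ = 1 := by
    rw [inner_self_C, V.hΨ]; simp
  have h1 : ⟪V.Θ, V.Θ⟫_ℂ = ((1 - V.m : ℝ) : ℂ) := by
    rw [inner_self_C, V.norm_Θ_sq]
  have h2 : ⟪V.Ψ, V.Θ⟫_ℂ = ⟪V.Θ, V.Θ⟫_ℂ := by
    rw [← inner_conj_symm, V.hΘ, inner_conj_symm]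
  cases b <;> cases b' <;> simp only [ξ, Bool.or_false, Bool.or_true, Bool.false_eq_true, if_false,
    if_true, h0, h1, h2, V.hΘ]

lemma inner_p_ξ (b : Bool) : ⟪V.p, V.ξ b⟫_ℂ = V.γ b := by
  cases b <;> rfl

lemma inner_ξ_p (b : Bool) : ⟪V.ξ b, V.p⟫_ℂ = conj (V.γ b) := by
  rw [← V.inner_p_ξ, inner_conj_symm]

lemma norm_γ_le (b : Bool) : ‖V.γ b‖ ≤ 1 := by
  cases b
  · exact V.norm_α_le
  · exact V.norm_β_le

lemma bound_γ (b b' b'' : Bool) : ‖V.γ b‖ * ‖V.γ b' - V.γ b''‖ ≤ V.X := by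
  have hX := V.X_nonneg
  have hb : ∀ b0, ‖V.γ b0‖ * ‖V.δ‖ ≤ V.X := by
    intro b0
    cases b0
    · exact V.bound_α
    · exact V.bound_β
  have hd : V.γ b' - V.γ b'' = 0 ∨ ‖V.γ b' - V.γ b''‖ = ‖V.δ‖ := by
    cases b' <;> cases b'' <;> simp [γ, δ, norm_sub_rev]
  rcases hd with h | h
  · rw [h, norm_zero, mul_zero]
    exact hX
  · rw [h]
    exact hb b

/-- **The minor of the untouched part of a mode.** -/
theorem minor_N (b1 b2 b3 b4 : Bool) :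
    ‖⟪V.ξ b1, V.ξ b2⟫_ℂ * (⟪V.ξ b3, V.p⟫_ℂ * ⟪V.p, V.ξ b4⟫_ℂ)
        - ⟪V.ξ b3, V.ξ b4⟫_ℂ * (⟪V.ξ b1, V.p⟫_ℂ * ⟪V.p, V.ξ b2⟫_ℂ)‖ ≤ 3 * V.X := by
  simp only [inner_p_ξ, inner_ξ_p]
  set n : Bool → Bool → ℂ := fun b b' => ⟪V.ξ b, V.ξ b'⟫_ℂ with hn
  have hnv : ∀ b b', n b b' = 1 ∨ n b b' = ((1 - V.m : ℝ) : ℂ) := by
    intro b b'
    simp only [hn, inner_ξ]
    split_ifs <;> simp
  have hm0 := V.m_nonneg
  have hm1 := V.m_le_one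
  have hnle : ∀ b b', ‖n b b'‖ ≤ 1 := by
    intro b b'
    rcases hnv b b' with h | h
    · rw [h]; simp
    · rw [h, Complex.norm_real, Real.norm_of_nonneg (by linarith)]
      linarith
  have hndiff : ∀ b b' b'' b''', ‖n b b' - n b'' b'''‖ ≤ V.m := by
    intro b b' b'' b'''
    rcases hnv b b' with h | h <;> rcases hnv b'' b''' with h' | h' <;> rw [h, h']
    · simpa using hm0
    · have : (1 : ℂ) - ((1 - V.m : ℝ) : ℂ) = (V.m : ℂ) := by push_cast; ring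
      rw [this, Complex.norm_real, Real.norm_of_nonneg hm0]
    · have : ((1 - V.m : ℝ) : ℂ) - 1 = -(V.m : ℂ) := by push_cast; ring
      rw [this, norm_neg, Complex.norm_real, Real.norm_of_nonneg hm0]
    · simpa using hm0
  have hX : V.m ≤ V.X := by
    unfold X
    have : 0 ≤ Real.sqrt V.f * Real.sqrt V.m := by positivity
    linarith
  have ho : ‖conj (V.γ b3) * V.γ b4 - conj (V.γ b1) * V.γ b2‖ ≤ 2 * V.X := by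
    have h1 : conj (V.γ b3) * V.γ b4 - conj (V.γ b1) * V.γ b2
        = conj (V.γ b3) * (V.γ b4 - V.γ b2) + conj (V.γ b3 - V.γ b1) * V.γ b2 := by
      rw [map_sub]; ring
    rw [h1]
    refine (norm_add_le _ _).trans ?_
    rw [norm_mul, norm_mul, RCLike.norm_conj, RCLike.norm_conj, mul_comm ‖V.γ b3 - V.γ b1‖]
    have h2 := V.bound_γ b3 b4 b2
    have h3 := V.bound_γ b2 b3 b1
    linarith
  have h1 : n b1 b2 * (conj (V.γ b3) * V.γ b4) - n b3 b4 * (conj (V.γ b1) * V.γ b2)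
      = (n b1 b2 - n b3 b4) * (conj (V.γ b3) * V.γ b4)
        + n b3 b4 * (conj (V.γ b3) * V.γ b4 - conj (V.γ b1) * V.γ b2) := by ring
  rw [h1]
  refine (norm_add_le _ _).trans ?_
  rw [norm_mul (n b1 b2 - n b3 b4), norm_mul (n b3 b4)]
  have h2 : ‖conj (V.γ b3) * V.γ b4‖ ≤ 1 := by
    rw [norm_mul, RCLike.norm_conj]
    exact mul_le_one₀ (V.norm_γ_le _) (norm_nonneg _) (V.norm_γ_le _)
  calc _ ≤ V.m * 1 + 1 * (2 * V.X) := by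
        gcongr
        · exact hndiff _ _ _ _
        · exact hnle _ _
    _ ≤ _ := by linarith

/-! ### The kill estimates -/

/-- The averaged weight of a mode. -/
noncomputable def hbar (V : ModeV H) (a : ℝ) : ℝ :=
  ‖V.α‖ ^ 2 - 2 * a * (conj V.α * V.β).re + 2 * a * ‖V.β‖ ^ 2

/-- The perpendicular parts. -/
lemma hbar_perp (a : ℝ) :
    1 - V.hbar a = ‖V.Ψ - V.α • V.p‖ ^ 2 - 2 * a * (⟪V.Ψ - V.α • V.p, V.Θ - V.β • V.p⟫_ℂ).re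
      + 2 * a * ‖V.Θ - V.β • V.p‖ ^ 2 := by
  have h1 := V.inner_perp V.Ψ V.Θ
  change ⟪V.Ψ - V.α • V.p, V.Θ - V.β • V.p⟫_ℂ = ⟪V.Ψ, V.Θ⟫_ℂ - conj V.α * V.β at h1
  have h2 : ⟪V.Ψ, V.Θ⟫_ℂ = ⟪V.Θ, V.Θ⟫_ℂ := by
    rw [← inner_conj_symm, V.hΘ, inner_conj_symm]
  rw [h1, h2, inner_self_C, Complex.sub_re, Complex.ofReal_re]
  have h3 := V.norm_perp_sq V.Ψ
  have h4 := V.norm_perp_sq V.Θ
  change ‖V.Ψ - V.α • V.p‖ ^ 2 = ‖V.Ψ‖ ^ 2 - ‖V.α‖ ^ 2 at h3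
  change ‖V.Θ - V.β • V.p‖ ^ 2 = ‖V.Θ‖ ^ 2 - ‖V.β‖ ^ 2 at h4
  rw [h3, h4, V.hΨ]
  unfold hbar
  ring

lemma perp_bounds (a : ℝ) (ha0 : 0 ≤ a) (ha1 : a ≤ 1) :
    ‖V.Ψ - V.α • V.p‖ ^ 2 ≤ 2 * (1 - V.hbar a)
      ∧ a * ‖V.Θ - V.β • V.p‖ ^ 2 ≤ 1 - V.hbar a := by
  set u := V.Ψ - V.α • V.p with hu
  set w := V.Θ - V.β • V.p with hw
  have h := V.hbar_perp a
  have h1 : (⟪u, w⟫_ℂ).re ≤ ‖u‖ * ‖w‖ :=
    (Complex.re_le_norm _).trans (norm_inner_le_norm _ _)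
  have hU := norm_nonneg u
  have hV := norm_nonneg w
  rw [h]
  set U := ‖u‖
  set W := ‖w‖
  have h2 : 2 * a * (⟪u, w⟫_ℂ).re ≤ 2 * a * (U * W) := by gcongr
  constructor
  · nlinarith [sq_nonneg (U - 2 * a * W), mul_nonneg ha0 (sq_nonneg W),
      mul_nonneg (mul_nonneg ha0 (sub_nonneg.mpr ha1)) (sq_nonneg W)]
  · nlinarith [sq_nonneg (U - a * W), mul_nonneg ha0 (sq_nonneg W),
      mul_nonneg (mul_nonneg ha0 (sub_nonneg.mpr ha1)) (sq_nonneg W)]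

/-- **Kill from the overlap.** -/
theorem kill_f (a : ℝ) (ha0 : 0 ≤ a) (ha1 : a ≤ 1) : V.f ≤ 2 * (1 - V.hbar a) := by
  have h := (V.perp_bounds a ha0 ha1).1
  have h3 := V.norm_perp_sq V.Ψ
  change ‖V.Ψ - V.α • V.p‖ ^ 2 = ‖V.Ψ‖ ^ 2 - ‖V.α‖ ^ 2 at h3
  rw [h3, V.hΨ] at h
  unfold f
  simpa using h

/-- The Bessel inequality for the two orthogonal directions. -/
lemma bessel : (1 - V.m) * ‖V.δ‖ ^ 2 + V.m * ‖V.β‖ ^ 2 ≤ V.m * (1 - V.m) := by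
  have hm0 := V.m_nonneg
  have hm1 := V.m_le_one
  set D := V.Ψ - V.Θ with hD
  set T := (1 - V.m) * ‖V.δ‖ ^ 2 + V.m * ‖V.β‖ ^ 2 with hT
  have hT0 : 0 ≤ T := by
    have : 0 ≤ 1 - V.m := by linarith
    positivity
  set y : H := (((1 - V.m : ℝ) : ℂ) * conj V.δ) • D + ((V.m : ℂ) * conj V.β) • V.Θ with hy
  have h1 : ⟪V.p, y⟫_ℂ = (T : ℂ) := by
    rw [hy, inner_add_right, inner_smul_right, inner_smul_right, ← V.δ_eq]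
    change _ * V.δ + _ * V.β = _
    rw [hT]
    push_cast
    have e1 := conj_mul_self_C V.δ
    have e2 := conj_mul_self_C V.β
    push_cast at e1 e2
    linear_combination (1 - (V.m : ℂ)) * e1 + (V.m : ℂ) * e2
  have hΘD : ⟪V.Θ, D⟫_ℂ = 0 := V.inner_Θ_D
  have hDΘ : ⟪D, V.Θ⟫_ℂ = 0 := by
    rw [← inner_conj_symm, hΘD, map_zero]
  have h2 : ‖y‖ ^ 2 = V.m * (1 - V.m) * T := by
    have h3 : ((‖y‖ ^ 2 : ℝ) : ℂ) = ((V.m * (1 - V.m) * T : ℝ) : ℂ) := by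
      rw [← inner_self_C, hy, inner_add_left, inner_add_right, inner_add_right]
      simp only [inner_smul_left, inner_smul_right, hDΘ, hΘD, mul_zero, zero_add, add_zero]
      rw [inner_self_C, inner_self_C, V.norm_D_sq, V.norm_Θ_sq, hT]
      simp only [map_mul, Complex.conj_conj, Complex.conj_ofReal]
      have e1 : V.δ * conj V.δ = ((‖V.δ‖ ^ 2 : ℝ) : ℂ) := by rw [mul_comm, conj_mul_self_C]
      have e2 : V.β * conj V.β = ((‖V.β‖ ^ 2 : ℝ) : ℂ) := by rw [mul_comm, conj_mul_self_C]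
      push_cast at e1 e2 ⊢
      linear_combination ((1 - (V.m : ℂ)) ^ 2 * V.m) * e1 + ((V.m : ℂ) ^ 2 * (1 - V.m)) * e2
    exact_mod_cast h3
  have h4 : T ^ 2 ≤ ‖y‖ ^ 2 := by
    have h5 := norm_inner_le_norm (𝕜 := ℂ) V.p y
    rw [h1, V.hp, one_mul, Complex.norm_real, Real.norm_of_nonneg hT0] at h5
    exact pow_le_pow_left₀ hT0 h5 2
  rw [h2] at h4
  by_contra hcon
  push Not at hcon
  have h6 : 0 < T := lt_of_le_of_lt (by nlinarith) hcon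
  nlinarith

/-- **Kill from the norm defect.** -/
theorem kill_m (a : ℝ) (ha0 : 0 ≤ a) (ha1 : a ≤ 1) :
    a * (V.m * (1 - V.m)) ≤ 6 * (1 - V.hbar a) := by
  obtain ⟨h1, h2⟩ := V.perp_bounds a ha0 ha1
  have hm0 := V.m_nonneg
  have hm1 := V.m_le_one
  set u := V.Ψ - V.α • V.p with hu
  set w := V.Θ - V.β • V.p with hw
  set v := (V.Ψ - V.Θ) - V.δ • V.p with hv
  have hvuw : v = u - w := by
    rw [hv, hu, hw]
    unfold δ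
    rw [sub_smul]
    abel
  have hvn : ‖v‖ ^ 2 = V.m - ‖V.δ‖ ^ 2 := by
    have h := V.norm_perp_sq (V.Ψ - V.Θ)
    rw [V.norm_D_sq, ← V.δ_eq] at h
    exact h
  have hwn : ‖w‖ ^ 2 = (1 - V.m) - ‖V.β‖ ^ 2 := by
    have h := V.norm_perp_sq V.Θ
    rw [V.norm_Θ_sq] at h
    exact h
  have hB := V.bessel
  have h3 : V.m * (1 - V.m) ≤ (1 - V.m) * ‖v‖ ^ 2 + V.m * ‖w‖ ^ 2 := by
    rw [hvn, hwn]
    nlinarith
  have h4 : ‖v‖ ^ 2 ≤ 2 * ‖u‖ ^ 2 + 2 * ‖w‖ ^ 2 := by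
    rw [hvuw]
    have h5 := norm_sub_le u w
    have h6 := norm_nonneg (u - w)
    have h7 := norm_nonneg u
    have h8 := norm_nonneg w
    nlinarith [sq_nonneg (‖u‖ - ‖w‖)]
  have h9 : V.m * (1 - V.m) ≤ 2 * ‖u‖ ^ 2 + 2 * ‖w‖ ^ 2 := by
    have h10 : 0 ≤ ‖w‖ ^ 2 := by positivity
    have h11 : 0 ≤ ‖u‖ ^ 2 := by positivity
    nlinarith
  have h12 : a * (V.m * (1 - V.m)) ≤ 2 * (a * ‖u‖ ^ 2) + 2 * (a * ‖w‖ ^ 2) := by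
    have := mul_le_mul_of_nonneg_left h9 ha0
    linarith
  have h13 : a * ‖u‖ ^ 2 ≤ ‖u‖ ^ 2 := by
    have h10 : 0 ≤ ‖u‖ ^ 2 := by positivity
    nlinarith
  linarith

/-- The weight of a mode at one value of the bit. -/
noncomputable def Hval (V : ModeV H) (a : ℝ) : ℝ :=
  ‖V.α‖ ^ 2 * (1 - a) + a * ‖V.α - 2 * V.β‖ ^ 2

lemma norm_α_sub_le : ‖V.α - 2 * V.β‖ ≤ 1 := by
  have h1 : V.α - 2 * V.β = ⟪V.p, V.Ψ - (2 : ℂ) • V.Θ⟫_ℂ := by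
    rw [inner_sub_right, inner_smul_right]
    rfl
  have h2 : ‖V.Ψ - (2 : ℂ) • V.Θ‖ ^ 2 = 1 := by
    have h3 : ⟪V.Ψ, V.Θ⟫_ℂ = ⟪V.Θ, V.Θ⟫_ℂ := by
      rw [← inner_conj_symm, V.hΘ, inner_conj_symm]
    rw [norm_sq_sub_C, inner_smul_right, h3, inner_self_C, norm_smul, V.hΨ]
    have h4 := V.norm_Θ_sq
    simp only [Complex.norm_ofNat]
    have h5 : ((2 : ℂ) * ((‖V.Θ‖ ^ 2 : ℝ) : ℂ)).re = 2 * ‖V.Θ‖ ^ 2 := by
      have : (2 : ℂ) * ((‖V.Θ‖ ^ 2 : ℝ) : ℂ) = ((2 * ‖V.Θ‖ ^ 2 : ℝ) : ℂ) := by push_cast; ring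
      rw [this, Complex.ofReal_re]
    rw [h5]
    ring
  have h6 : ‖V.Ψ - (2 : ℂ) • V.Θ‖ ≤ 1 := by
    have h7 := norm_nonneg (V.Ψ - (2 : ℂ) • V.Θ)
    nlinarith
  rw [h1]
  refine (norm_inner_le_norm _ _).trans ?_
  rw [V.hp, one_mul]
  exact h6

lemma Hval_nonneg (a : ℝ) (ha0 : 0 ≤ a) (ha1 : a ≤ 1) : 0 ≤ V.Hval a := by
  unfold Hval
  have : 0 ≤ 1 - a := by linarith
  positivity

lemma Hval_le_one (a : ℝ) (ha0 : 0 ≤ a) (ha1 : a ≤ 1) : V.Hval a ≤ 1 := by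
  unfold Hval
  have h1 := V.norm_α_le
  have h2 := V.norm_α_sub_le
  have h3 : ‖V.α‖ ^ 2 ≤ 1 := by
    have := norm_nonneg V.α
    nlinarith
  have h4 : ‖V.α - 2 * V.β‖ ^ 2 ≤ 1 := by
    have := norm_nonneg (V.α - 2 * V.β)
    nlinarith
  nlinarith

end ModeV

end Vale.Agent.Lib.P368
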