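import Mathlib

/-! The choice of the blocks: a purely numerical selection lemma. -/

namespace Vale.Agent.Lib.P368

open Finset

set_option linter.unusedSectionVars false
set_option linter.unusedSimpArgs false
set_option linter.unusedVariables false

/-- A product of numbers in the unit interval and the sum of their complements. -/
lemma prod_mul_one_add_sum_le {ι : Type} [DecidableEq ι] (s : Finset ι) (b : ι → ℝ)
    (h0 : ∀ i ∈ s, 0 ≤ b i) (h1 : ∀ i ∈ s, b i ≤ 1) :
    (∏ i ∈ s, (1 - b i)) * (1 + ∑ i ∈ s, b i) ≤ 1 := by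
  induction s using Finset.induction_on with
  | empty => simp
  | insert a s ha ih =>
    rw [Finset.prod_insert ha, Finset.sum_insert ha]
    have ih' := ih (fun i hi => h0 i (Finset.mem_insert_of_mem hi))
      (fun i hi => h1 i (Finset.mem_insert_of_mem hi))
    have ha0 := h0 a (Finset.mem_insert_self _ _)
    have ha1 := h1 a (Finset.mem_insert_self _ _)
    have hp0 : 0 ≤ ∏ i ∈ s, (1 - b i) := Finset.prod_nonneg fun i hi => by
      have := h1 i (Finset.mem_insert_of_mem hi)
      linarith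
    have hs0 : 0 ≤ ∑ i ∈ s, b i := Finset.sum_nonneg fun i hi => h0 i (Finset.mem_insert_of_mem hi)
    have hp1 : ∏ i ∈ s, (1 - b i) ≤ 1 := Finset.prod_le_one
      (fun i hi => by
        have := h1 i (Finset.mem_insert_of_mem hi)
        linarith)
      (fun i hi => by
        have := h0 i (Finset.mem_insert_of_mem hi)
        linarith)
    set P := ∏ i ∈ s, (1 - b i)
    set S := ∑ i ∈ s, b i
    -- (1 - a) P (1 + a + S) = P (1 + S) (1 - a) + P a (1 - a) ≤ (1 - a) + a (1 - a) ≤ 1
    have h2 : (1 - b a) * P * (1 + (b a + S)) = (1 - b a) * (P * (1 + S)) + (1 - b a) * (b a * P) := by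
      ring
    rw [h2]
    have h3 : (1 - b a) * (P * (1 + S)) ≤ (1 - b a) * 1 :=
      mul_le_mul_of_nonneg_left ih' (by linarith)
    have h4 : (1 - b a) * (b a * P) ≤ (1 - b a) * (b a * 1) := by
      apply mul_le_mul_of_nonneg_left _ (by linarith)
      exact mul_le_mul_of_nonneg_left hp1 ha0
    nlinarith

/-- Large finite sets with a symmetric relation of small degree contain large independent sets. -/
lemma exists_indep {P : Type} [DecidableEq P] (S : Finset P) (R : P → P → Prop) [DecidableRel R]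
    (hsym : ∀ i j, R i j → R j i)
    (d : ℕ) (hd : ∀ i ∈ S, (S.filter fun j => R i j).card ≤ d) (k : ℕ)
    (hk : k * (d + 1) ≤ S.card) :
    ∃ I : Finset P, I ⊆ S ∧ I.card = k ∧ ∀ i ∈ I, ∀ j ∈ I, i ≠ j → ¬ R i j := by
  induction k with
  | zero => exact ⟨∅, by simp, by simp, by simp⟩
  | succ k ih =>
    have hk' : k * (d + 1) ≤ S.card := by
      refine le_trans ?_ hk
      exact Nat.mul_le_mul_right _ (Nat.le_succ k)
    obtain ⟨I, hIS, hIc, hI⟩ := ih hk'
    set U := I ∪ I.biUnion fun i => S.filter fun j => R i j with hU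
    have hUc : U.card ≤ k * (d + 1) := by
      calc U.card ≤ I.card + (I.biUnion fun i => S.filter fun j => R i j).card :=
            Finset.card_union_le _ _
        _ ≤ k + k * d := by
            rw [hIc]
            gcongr
            refine (Finset.card_biUnion_le_card_mul _ _ d fun i hi => hd i (hIS hi)).trans ?_
            rw [hIc]
        _ = k * (d + 1) := by ring
    have hlt : U.card < S.card := by
      have h1 : (k + 1) * (d + 1) = k * (d + 1) + (d + 1) := by ring
      omega
    obtain ⟨j, hjS, hjU⟩ := Finset.exists_mem_notMem_of_card_lt_card hlt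
    have hjI : j ∉ I := fun h => hjU (Finset.mem_union_left _ h)
    have hjN : ∀ i ∈ I, ¬ R i j := by
      intro i hi hR
      exact hjU (Finset.mem_union_right _ (Finset.mem_biUnion.mpr
        ⟨i, hi, Finset.mem_filter.mpr ⟨hjS, hR⟩⟩))
    refine ⟨insert j I, Finset.insert_subset hjS hIS, ?_, ?_⟩
    · rw [Finset.card_insert_of_notMem hjI, hIc]
    · intro a ha b hb hab
      rcases Finset.mem_insert.mp ha with rfl | ha'
      · rcases Finset.mem_insert.mp hb with rfl | hb'
        · exact absurd rfl hab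
        · exact fun h => hjN b hb' (hsym _ _ h)
      · rcases Finset.mem_insert.mp hb with rfl | hb'
        · exact hjN a ha'
        · exact hI a ha' b hb' hab

/-- A nonnegative symmetric kernel of small total mass has a large set on which it is small. -/
lemma exists_small_kernel {P : Type} [Fintype P] [DecidableEq P] (A : P → P → ℝ)
    (hA0 : ∀ i j, 0 ≤ A i j) (hsym : ∀ i j, A i j = A j i) (B : ℝ) (hB : 0 < B)
    (hsum : ∑ i, ∑ j, A i j ≤ B * Fintype.card P) (δ : ℝ) (hδ : 0 < δ) (k d : ℕ)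
    (hd : 2 * B / δ ≤ d) (hk : 2 * (k * (d + 1)) ≤ Fintype.card P) :
    ∃ I : Finset P, I.card = k ∧ ∀ i ∈ I, ∀ j ∈ I, i ≠ j → A i j ≤ δ := by
  classical
  set S := Finset.univ.filter fun i => ∑ j, A i j ≤ 2 * B with hS
  -- the size of `S`
  have hScard : Fintype.card P ≤ 2 * S.card := by
    have h1 : ((Finset.univ.filter fun i => ¬ ∑ j, A i j ≤ 2 * B).card : ℝ) * (2 * B)
        ≤ ∑ i, ∑ j, A i j := by
      calc _ = ∑ i ∈ Finset.univ.filter (fun i => ¬ ∑ j, A i j ≤ 2 * B), 2 * B := by
            rw [Finset.sum_const, nsmul_eq_mul]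
        _ ≤ ∑ i ∈ Finset.univ.filter (fun i => ¬ ∑ j, A i j ≤ 2 * B), ∑ j, A i j := by
            refine Finset.sum_le_sum fun i hi => ?_
            have := (Finset.mem_filter.mp hi).2
            push Not at this
            exact this.le
        _ ≤ _ := Finset.sum_le_sum_of_subset_of_nonneg (Finset.subset_univ _) fun i _ _ =>
            Finset.sum_nonneg fun j _ => hA0 i j
    have h2 : ((Finset.univ.filter fun i => ¬ ∑ j, A i j ≤ 2 * B).card : ℝ) * 2
        ≤ Fintype.card P := by
      have h3 := h1.trans hsum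
      have h4 : (((Finset.univ.filter fun i => ¬ ∑ j, A i j ≤ 2 * B).card : ℝ) * 2) * B
          ≤ Fintype.card P * B := by nlinarith
      exact le_of_mul_le_mul_right h4 hB
    have h5 : S.card + (Finset.univ.filter fun i => ¬ ∑ j, A i j ≤ 2 * B).card
        = Fintype.card P := by
      rw [hS, Finset.card_filter_add_card_filter_not]
      rfl
    have h6 : (Finset.univ.filter fun i => ¬ ∑ j, A i j ≤ 2 * B).card * 2 ≤ Fintype.card P := by
      exact_mod_cast h2
    omega
  -- the degree bound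
  have hdeg : ∀ i ∈ S, (S.filter fun j => δ < A i j).card ≤ d := by
    intro i hi
    have hi2 := (Finset.mem_filter.mp hi).2
    have h1 : ((S.filter fun j => δ < A i j).card : ℝ) * δ ≤ 2 * B := by
      calc _ = ∑ j ∈ S.filter (fun j => δ < A i j), δ := by
            rw [Finset.sum_const, nsmul_eq_mul]
        _ ≤ ∑ j ∈ S.filter (fun j => δ < A i j), A i j :=
            Finset.sum_le_sum fun j hj => (Finset.mem_filter.mp hj).2.le
        _ ≤ ∑ j, A i j := Finset.sum_le_sum_of_subset_of_nonneg (Finset.subset_univ _)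
            fun j _ _ => hA0 i j
        _ ≤ _ := hi2
    have h2 : ((S.filter fun j => δ < A i j).card : ℝ) ≤ 2 * B / δ := by
      rw [le_div_iff₀ hδ]
      exact h1
    exact_mod_cast h2.trans hd
  obtain ⟨I, -, hIc, hI⟩ := exists_indep S (fun i j => δ < A i j)
    (fun i j h => by rw [← hsym]; exact h) d hdeg k (by omega)
  refine ⟨I, hIc, fun i hi j hj hij => ?_⟩
  have := hI i hi j hj hij
  push Not at this
  exact this

/-- The numerical selection theorem. -/
theorem selection {P G R : Type} [Fintype P] [DecidableEq P] [Fintype G] [Fintype R]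
    (ϖ m : R → P → G → ℝ) (h0 : ∀ r j l, 0 ≤ ϖ r j l) (h1 : ∀ r j l, ϖ r j l ≤ 1)
    (hm : ∀ r j l, 0 ≤ m r j l) (M0 : ℝ) (hM0 : 0 ≤ M0) (hM : ∀ r j, ∑ l, m r j l ≤ M0)
    (K : ℝ) (hK : 0 ≤ K) (k : ℕ) (δ : ℝ) (hδ : 0 < δ) (d : ℕ)
    (hd : 2 * (Fintype.card R * K ^ 2 * M0 + 1) / δ ≤ d)
    (hk : 2 * (k * (d + 1)) ≤ Fintype.card P) :
    ∃ I : Finset P, I.card = k ∧
      ∑ r, ∑ l, (∏ j ∈ Iᶜ, ϖ r j l) * ∑ i ∈ I, ∑ i' ∈ I,
        (if i' ≠ i then (K * Real.sqrt ((1 - ϖ r i l) * m r i l))
          * (K * Real.sqrt ((1 - ϖ r i' l) * m r i' l)) else 0)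
        ≤ (k + 1) * k ^ 2 * δ := by
  classical
  set W : R → G → P → ℝ := fun r l i => K * Real.sqrt ((1 - ϖ r i l) * m r i l) with hW
  have hW0 : ∀ r l i, 0 ≤ W r l i := fun r l i => mul_nonneg hK (Real.sqrt_nonneg _)
  set Θ : R → G → ℝ := fun r l => ∑ j, (1 - ϖ r j l) with hΘ
  have hΘ0 : ∀ r l, 0 ≤ Θ r l := fun r l => Finset.sum_nonneg fun j _ => by
    have := h1 r j l
    linarith
  set f : R → G → ℝ := fun r l => 1 / (1 + Θ r l) with hf
  have hf0 : ∀ r l, 0 < f r l := fun r l => by
    have := hΘ0 r l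
    simp only [hf]
    positivity
  set A : P → P → ℝ := fun i j => ∑ r, ∑ l, f r l * (W r l i * W r l j) with hA
  have hA0 : ∀ i j, 0 ≤ A i j := fun i j => Finset.sum_nonneg fun r _ => Finset.sum_nonneg fun l _ =>
    mul_nonneg (hf0 r l).le (mul_nonneg (hW0 _ _ _) (hW0 _ _ _))
  have hAs : ∀ i j, A i j = A j i := fun i j => Finset.sum_congr rfl fun r _ =>
    Finset.sum_congr rfl fun l _ => by ring
  -- the Cauchy-Schwarz bound for one gate
  have hCS : ∀ r l, (∑ i, W r l i) ^ 2 ≤ K ^ 2 * (Θ r l * ∑ i, m r i l) := by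
    intro r l
    have h2 : ∑ i, W r l i = K * ∑ i, Real.sqrt (1 - ϖ r i l) * Real.sqrt (m r i l) := by
      rw [Finset.mul_sum]
      refine Finset.sum_congr rfl fun i _ => ?_
      simp only [hW]
      rw [Real.sqrt_mul]
      have := h1 r i l
      linarith
    rw [h2, mul_pow]
    refine mul_le_mul_of_nonneg_left ?_ (by positivity)
    refine (Finset.sum_mul_sq_le_sq_mul_sq _ _ _).trans (le_of_eq ?_)
    congr 1
    · refine Finset.sum_congr rfl fun i _ => Real.sq_sqrt ?_
      have := h1 r i l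
      linarith
    · exact Finset.sum_congr rfl fun i _ => Real.sq_sqrt (hm r i l)
  -- the bound for the total mass
  have hgate : ∀ r l, f r l * (∑ i, W r l i) ^ 2 ≤ K ^ 2 * ∑ i, m r i l := by
    intro r l
    have h2 := hCS r l
    have h3 : 0 ≤ ∑ i, m r i l := Finset.sum_nonneg fun i _ => hm r i l
    have h4 : f r l * Θ r l ≤ 1 := by
      simp only [hf]
      rw [div_mul_eq_mul_div, one_mul, div_le_one (by have := hΘ0 r l; positivity)]
      linarith
    calc _ ≤ f r l * (K ^ 2 * (Θ r l * ∑ i, m r i l)) :=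
          mul_le_mul_of_nonneg_left h2 (hf0 r l).le
      _ = K ^ 2 * ((f r l * Θ r l) * ∑ i, m r i l) := by ring
      _ ≤ K ^ 2 * (1 * ∑ i, m r i l) := by gcongr
      _ = _ := by ring
  set B : ℝ := Fintype.card R * K ^ 2 * M0 + 1 with hB
  have hB0 : 0 < B := by positivity
  have hsum : ∑ i, ∑ j, A i j ≤ B * Fintype.card P := by
    have h2 : ∑ i, ∑ j, A i j = ∑ r, ∑ l, f r l * (∑ i, W r l i) ^ 2 := by
      have h3 : ∀ r l, f r l * (∑ i, W r l i) ^ 2 = ∑ i, ∑ j, f r l * (W r l i * W r l j) := by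
        intro r l
        rw [sq, Finset.sum_mul_sum, Finset.mul_sum]
        refine Finset.sum_congr rfl fun i _ => ?_
        rw [Finset.mul_sum]
      simp only [h3, hA]
      calc _ = ∑ i, ∑ r, ∑ j, ∑ l, f r l * (W r l i * W r l j) :=
            Finset.sum_congr rfl fun i _ => Finset.sum_comm
        _ = ∑ r, ∑ i, ∑ j, ∑ l, f r l * (W r l i * W r l j) := Finset.sum_comm
        _ = ∑ r, ∑ i, ∑ l, ∑ j, f r l * (W r l i * W r l j) :=
            Finset.sum_congr rfl fun r _ => Finset.sum_congr rfl fun i _ => Finset.sum_comm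
        _ = ∑ r, ∑ l, ∑ i, ∑ j, f r l * (W r l i * W r l j) :=
            Finset.sum_congr rfl fun r _ => Finset.sum_comm
    rw [h2]
    calc _ ≤ ∑ r : R, ∑ l, K ^ 2 * ∑ i, m r i l :=
          Finset.sum_le_sum fun r _ => Finset.sum_le_sum fun l _ => hgate r l
      _ = ∑ r : R, K ^ 2 * ∑ i, ∑ l, m r i l := by
          refine Finset.sum_congr rfl fun r _ => ?_
          rw [← Finset.mul_sum, Finset.sum_comm]
      _ ≤ ∑ r : R, K ^ 2 * ∑ i : P, M0 := by
          refine Finset.sum_le_sum fun r _ => ?_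
          gcongr with i _
          exact hM r i
      _ = Fintype.card R * K ^ 2 * M0 * Fintype.card P := by
          simp only [Finset.sum_const, Finset.card_univ, nsmul_eq_mul]
          ring
      _ ≤ _ := by
          rw [hB]
          nlinarith [(Nat.cast_nonneg (Fintype.card P) : (0 : ℝ) ≤ _)]
  obtain ⟨I, hIc, hI⟩ := exists_small_kernel A hA0 hAs B hB0 hsum δ hδ k d hd hk
  refine ⟨I, hIc, ?_⟩
  -- the product over the complement
  have hprod : ∀ r l, ∏ j ∈ Iᶜ, ϖ r j l ≤ (k + 1) * f r l := by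
    intro r l
    have h2 := prod_mul_one_add_sum_le Iᶜ (fun j => 1 - ϖ r j l)
      (fun j _ => by have := h1 r j l; linarith) (fun j _ => by have := h0 r j l; linarith)
    simp only [sub_sub_cancel] at h2
    set S := ∑ j ∈ Iᶜ, (1 - ϖ r j l) with hS
    have hS0 : 0 ≤ S := Finset.sum_nonneg fun j _ => by have := h1 r j l; linarith
    have h3 : Θ r l ≤ S + k := by
      have h4 : Θ r l = ∑ j ∈ I, (1 - ϖ r j l) + S := by
        rw [hS, Finset.sum_add_sum_compl]
      have h5 : ∑ j ∈ I, (1 - ϖ r j l) ≤ ∑ j ∈ I, (1 : ℝ) :=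
        Finset.sum_le_sum fun j _ => by have := h0 r j l; linarith
      rw [Finset.sum_const, hIc, nsmul_eq_mul, mul_one] at h5
      linarith
    have h6 : 0 ≤ ∏ j ∈ Iᶜ, ϖ r j l := Finset.prod_nonneg fun j _ => h0 r j l
    have h7 : 0 < 1 + Θ r l := by have := hΘ0 r l; linarith
    simp only [hf]
    rw [mul_one_div, le_div_iff₀ h7]
    have hk0 : (0 : ℝ) ≤ k := Nat.cast_nonneg k
    calc _ ≤ (∏ j ∈ Iᶜ, ϖ r j l) * ((k + 1) * (1 + S)) := by
          refine mul_le_mul_of_nonneg_left ?_ h6
          nlinarith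
      _ = (k + 1) * ((∏ j ∈ Iᶜ, ϖ r j l) * (1 + S)) := by ring
      _ ≤ (k + 1) * 1 := by gcongr
      _ = _ := by ring
  -- the total
  have hpair : ∀ r l, 0 ≤ ∑ i ∈ I, ∑ i' ∈ I, (if i' ≠ i then W r l i * W r l i' else 0) :=
    fun r l => Finset.sum_nonneg fun i _ => Finset.sum_nonneg fun i' _ => by
      split_ifs
      · exact mul_nonneg (hW0 _ _ _) (hW0 _ _ _)
      · exact le_rfl
  calc _ ≤ ∑ r, ∑ l, ((k + 1) * f r l) * ∑ i ∈ I, ∑ i' ∈ I,
        (if i' ≠ i then W r l i * W r l i' else 0) :=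
        Finset.sum_le_sum fun r _ => Finset.sum_le_sum fun l _ =>
          mul_le_mul_of_nonneg_right (hprod r l) (hpair r l)
    _ = (k + 1) * ∑ i ∈ I, ∑ i' ∈ I, (if i' ≠ i then A i i' else 0) := by
        simp only [Finset.mul_sum]
        calc _ = ∑ r, ∑ l, ∑ i ∈ I, ∑ i' ∈ I, (k + 1) * (if i' ≠ i then f r l * (W r l i * W r l i') else 0) := by
              refine Finset.sum_congr rfl fun r _ => Finset.sum_congr rfl fun l _ =>
                Finset.sum_congr rfl fun i _ => Finset.sum_congr rfl fun i' _ => ?_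
              split_ifs <;> ring
          _ = ∑ i ∈ I, ∑ i' ∈ I, ∑ r, ∑ l, (k + 1) * (if i' ≠ i then f r l * (W r l i * W r l i') else 0) := by
              calc _ = ∑ r, ∑ i ∈ I, ∑ l, ∑ i' ∈ I, (k + 1) * (if i' ≠ i then f r l * (W r l i * W r l i') else 0) :=
                    Finset.sum_congr rfl fun r _ => Finset.sum_comm
                _ = ∑ i ∈ I, ∑ r, ∑ l, ∑ i' ∈ I, (k + 1) * (if i' ≠ i then f r l * (W r l i * W r l i') else 0) :=
                    Finset.sum_comm
                _ = ∑ i ∈ I, ∑ r, ∑ i' ∈ I, ∑ l, (k + 1) * (if i' ≠ i then f r l * (W r l i * W r l i') else 0) :=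
                    Finset.sum_congr rfl fun i _ => Finset.sum_congr rfl fun r _ => Finset.sum_comm
                _ = _ :=
                    Finset.sum_congr rfl fun i _ => Finset.sum_comm
          _ = _ := by
              refine Finset.sum_congr rfl fun i _ => Finset.sum_congr rfl fun i' _ => ?_
              by_cases h : i' ≠ i
              · simp only [h, if_true, ne_eq, not_false_eq_true, hA, Finset.mul_sum]
              · simp [h]
    _ ≤ (k + 1) * ∑ i ∈ I, ∑ i' ∈ I, δ := by
        gcongr with i hi i' hi'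
        split_ifs with h
        · exact hI i hi i' hi' (Ne.symm h)
        · exact hδ.le
    _ = _ := by
        simp only [Finset.sum_const, hIc, nsmul_eq_mul]
        ring

end Vale.Agent.Lib.P368
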