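import Vale.Agent.Lib.P368.D3.CoreThm
import Vale.Agent.Lib.P368.D3.ModeAbs
import Vale.Agent.Lib.P368.D3.Selection

/-! The frame of the first two gate layers: inputs, gates and block structure. -/

namespace Vale.Agent.Lib.P368

open Matrix Finset
open scoped Matrix.Norms.L2Operator InnerProductSpace ComplexConjugate

set_option linter.unusedSectionVars false
set_option linter.unusedSimpArgs false
set_option linter.unusedVariables false

variable {Q P H G : Type} [Fintype Q] [DecidableEq Q] [Fintype P] [DecidableEq P] [Fintype H]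
  [DecidableEq H] [Fintype G] [DecidableEq G]

/-- The data of a last projector: the qubits where it has rank one, and its directions. -/
structure LastP (Q : Type) where
  /-- Is the last projector of rank one at this qubit? -/
  sS : Q → Bool
  /-- Its direction. -/
  s : Q → V2
  s_unit : ∀ q, ‖s q‖ = 1

/-- The frame of the first two gate layers. -/
structure Frame (Q P H G : Type) where
  /-- The first-layer gate of a qubit. -/
  bt : Q → Option H
  /-- The direction of the first-layer projector. -/
  c : Q → V2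
  /-- The second-layer gate of a qubit. -/
  gt : Q → Option G
  /-- The direction of the second-layer projector. -/
  p : Q → V2
  /-- The one-qubit unitary before the second layer. -/
  U : Q → M2
  /-- The qubit of an input of the pool. -/
  q0 : P → Q
  /-- The fixed bits. -/
  b0 : Q → Bool
  c_unit : ∀ q, ‖c q‖ = 1
  p_unit : ∀ q, ‖p q‖ = 1
  U_unit : ∀ q, U q ∈ Matrix.unitaryGroup Bool ℂ
  q0_inj : Function.Injective q0
  q0_gate : ∀ j j' h, bt (q0 j) = some h → bt (q0 j') = some h → j = j'

lemma norm_kb_act_sq (c : V2) (hc : ‖c‖ = 1) (v : V2) : ‖act (kb c c) v‖ ^ 2 = ‖⟪c, v⟫_ℂ‖ ^ 2 := by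
  rw [act_kb, norm_smul, hc, mul_one]

namespace LastP

variable (L : LastP Q)

/-- The last projector at a qubit. -/
noncomputable def Eq (q : Q) : M2 := if L.sS q then kb (L.s q) (L.s q) else 1

lemma Eq_proj (q : Q) : IsStarProjection (L.Eq q) := by
  unfold Eq
  split_ifs
  · exact kb_proj (L.s_unit q)
  · exact IsStarProjection.one _

end LastP

namespace Frame

variable (F : Frame Q P H G)

/-- The one-qubit vectors before the first layer, in the frame of the second layer. -/
noncomputable def v (q : Q) (b : Bool) : V2 := act (F.U q) (e b)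

lemma U_star_mul (q : Q) : star (F.U q) * F.U q = 1 := Matrix.mem_unitaryGroup_iff'.mp (F.U_unit q)
lemma U_mul_star (q : Q) : F.U q * star (F.U q) = 1 := Matrix.mem_unitaryGroup_iff.mp (F.U_unit q)

lemma norm_v (q : Q) (b : Bool) : ‖F.v q b‖ = 1 := by
  unfold v
  rw [norm_act_of_star_mul _ (F.U_star_mul q), norm_e]

/-- The completeness of the two vectors of a qubit. -/
lemma parseval (q : Q) (a a' : V2) :
    ∑ b, ⟪a, F.v q b⟫_ℂ * ⟪F.v q b, a'⟫_ℂ = ⟪a, a'⟫_ℂ := by
  have h1 : ∀ b, ⟪a, F.v q b⟫_ℂ = ⟪act (star (F.U q)) a, e b⟫_ℂ := by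
    intro b
    unfold v
    rw [inner_act]
  have h2 : ∀ b, ⟪F.v q b, a'⟫_ℂ = ⟪e b, act (star (F.U q)) a'⟫_ℂ := by
    intro b
    unfold v
    rw [inner_act, star_star]
  simp only [h1, h2]
  have h3 : ⟪a, a'⟫_ℂ = ⟪act (star (F.U q)) a, act (star (F.U q)) a'⟫_ℂ := by
    rw [inner_act, star_star, ← act_mul, F.U_mul_star, act_one]
  rw [h3]
  set x := act (star (F.U q)) a
  set y := act (star (F.U q)) a'
  have h4 : ∀ b, ⟪x, (e b : V2)⟫_ℂ * ⟪(e b : V2), y⟫_ℂ = y b * conj (x b) := by
    intro b
    have h5 : ⟪x, (e b : V2)⟫_ℂ = conj (x b) := by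
      simp [inner_V2, e, PiLp.single_apply, Fintype.sum_bool]
    have h6 : ⟪(e b : V2), y⟫_ℂ = y b := by
      simp [inner_V2, e, PiLp.single_apply, Fintype.sum_bool]
    rw [h5, h6]
    ring
  simp only [h4]
  rw [inner_V2]

/-- The first-layer projector at a qubit. -/
noncomputable def pt (q : Q) : M2 := kb (F.c q) (F.c q)

/-- The second-layer projector at a qubit. -/
noncomputable def πq (q : Q) : M2 := kb (F.p q) (F.p q)

lemma pt_proj (q : Q) : IsStarProjection (F.pt q) := kb_proj (F.c_unit q)
lemma πq_proj (q : Q) : IsStarProjection (F.πq q) := kb_proj (F.p_unit q)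

/-- The base vectors. -/
noncomputable def u (q : Q) : V2 := F.v q (F.b0 q)

lemma norm_u (q : Q) : ‖F.u q‖ = 1 := F.norm_v _ _

/-- The overlap of the base vector with the first-layer projector. -/
noncomputable def pa (q : Q) : ℝ := ‖act (F.pt q) (F.u q)‖ ^ 2

lemma pa_nonneg (q : Q) : 0 ≤ F.pa q := by unfold pa; positivity

lemma norm_pt_v_le (q : Q) (w : V2) (hw : ‖w‖ = 1) : ‖act (F.pt q) w‖ ≤ 1 := by
  have h := norm_act_proj_le (F.pt_proj q) w
  rw [hw] at h
  have h0 := norm_nonneg (act (F.pt q) w)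
  nlinarith

lemma pa_le_one (q : Q) : F.pa q ≤ 1 := by
  unfold pa
  have h := F.norm_pt_v_le q _ (F.norm_u q)
  have h0 := norm_nonneg (act (F.pt q) (F.u q))
  nlinarith

/-- Do two qubits share a first-layer gate? -/
def sameG (q q' : Q) : Bool := decide (F.bt q = F.bt q') && (F.bt q).isSome

lemma sameG_iff (q q' : Q) : F.sameG q q' = true ↔ ∃ h, F.bt q = some h ∧ F.bt q' = some h := by
  unfold sameG
  cases h1 : F.bt q with
  | none => simp
  | some h =>
    cases h2 : F.bt q' with
    | none => simp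
    | some h' => simp [eq_comm]

/-- The first-layer block of an input. -/
def trueB (j : P) : Finset Q :=
  Finset.univ.filter fun q => q = F.q0 j ∨ F.sameG q (F.q0 j) = true

lemma q0_mem_trueB (j : P) : F.q0 j ∈ F.trueB j := by simp [trueB]

lemma trueB_gate {j : P} {h : H} (hh : F.bt (F.q0 j) = some h) :
    F.trueB j = Finset.univ.filter fun q => F.bt q = some h := by
  ext q
  simp only [trueB, Finset.mem_filter, Finset.mem_univ, true_and, sameG_iff]
  constructor
  · rintro (rfl | ⟨h', h1, h2⟩)
    · exact hh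
    · rw [hh] at h2
      cases h2
      exact h1
  · intro h1
    exact Or.inr ⟨h, h1, hh⟩

lemma trueB_free {j : P} (hh : F.bt (F.q0 j) = none) : F.trueB j = {F.q0 j} := by
  ext q
  simp only [trueB, Finset.mem_filter, Finset.mem_univ, true_and, sameG_iff, Finset.mem_singleton]
  constructor
  · rintro (rfl | ⟨h', h1, h2⟩)
    · rfl
    · rw [hh] at h2
      cases h2
  · exact Or.inl

lemma trueB_disjoint {j j' : P} (hne : j ≠ j') : Disjoint (F.trueB j) (F.trueB j') := by
  rw [Finset.disjoint_left]
  intro q h1 h2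
  simp only [trueB, Finset.mem_filter, Finset.mem_univ, true_and, sameG_iff] at h1 h2
  rcases h1 with rfl | ⟨h, h3, h4⟩
  · rcases h2 with h5 | ⟨h, h3, h4⟩
    · exact hne (F.q0_inj h5)
    · exact hne (F.q0_gate _ _ h h3 h4)
  · rcases h2 with rfl | ⟨h', h5, h6⟩
    · exact hne (F.q0_gate _ _ h h4 h3)
    · rw [h3] at h5
      cases h5
      exact hne (F.q0_gate _ _ h h4 h6)

/-- The inputs in the block of an input. -/
lemma input_in_trueB {j j' : P} (h : F.q0 j' ∈ F.trueB j) : j' = j := by
  by_contra hne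
  exact Finset.disjoint_left.mp (F.trueB_disjoint hne) (F.q0_mem_trueB j') h

/-- The product of the overlaps of the other qubits of the gate of an input. -/
noncomputable def aP (j : P) : ℝ := ∏ q ∈ (F.trueB j).erase (F.q0 j), F.pa q

lemma aP_nonneg (j : P) : 0 ≤ F.aP j := Finset.prod_nonneg fun q _ => F.pa_nonneg q

lemma aP_le_one (j : P) : F.aP j ≤ 1 :=
  Finset.prod_le_one (fun q _ => F.pa_nonneg q) fun q _ => F.pa_le_one q

section Blocks

variable (a0 : ℝ)

open Classical in
/-- Is the gate of an input kept in its block? -/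
noncomputable def hi (j : P) : Bool := (F.bt (F.q0 j)).isSome && decide (a0 ≤ F.aP j)

/-- The block of an input when it is selected. -/
noncomputable def selB (j : P) : Finset Q := if F.hi a0 j then F.trueB j else {F.q0 j}

lemma q0_mem_selB (j : P) : F.q0 j ∈ F.selB a0 j := by
  unfold selB
  split_ifs
  · exact F.q0_mem_trueB j
  · simp

lemma selB_subset (j : P) : F.selB a0 j ⊆ F.trueB j := by
  unfold selB
  split_ifs
  · exact le_rfl
  · simpa using F.q0_mem_trueB j

lemma selB_disjoint {j j' : P} (hne : j ≠ j') : Disjoint (F.selB a0 j) (F.selB a0 j') :=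
  Finset.disjoint_of_subset_left (F.selB_subset a0 j)
    (Finset.disjoint_of_subset_right (F.selB_subset a0 j') (F.trueB_disjoint hne))

/-- The projector of a selected input. -/
noncomputable def ptj (j : P) (q : Q) : M2 := if F.hi a0 j then F.pt q else 0

lemma ptj_proj (j : P) (q : Q) : IsStarProjection (F.ptj a0 j q) := by
  unfold ptj
  split_ifs
  · exact F.pt_proj q
  · exact IsStarProjection.zero _

/-- Is the qubit an input of the pool? -/
def isIn (q : Q) : Bool := decide (∃ j, q = F.q0 j)

/-- The vector of a qubit as a function of the bit of its block. -/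
noncomputable def ξ0 (q : Q) (x : Bool) : V2 := F.v q (if F.isIn q then x else F.b0 q)

lemma norm_ξ0 (q : Q) (x : Bool) : ‖F.ξ0 q x‖ = 1 := F.norm_v _ _

lemma ξ0_other {j : P} {q : Q} (h1 : q ∈ F.trueB j) (h2 : q ≠ F.q0 j) (x : Bool) :
    F.ξ0 q x = F.u q := by
  have h3 : F.isIn q = false := by
    unfold isIn
    rw [decide_eq_false_iff_not]
    rintro ⟨j', rfl⟩
    have := F.input_in_trueB h1
    exact h2 (by rw [this])
  unfold ξ0 u
  simp [h3]

lemma ξ0_input (j : P) (x : Bool) : F.ξ0 (F.q0 j) x = F.v (F.q0 j) x := by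
  have h3 : F.isIn (F.q0 j) = true := by
    unfold isIn
    rw [decide_eq_true_iff]
    exact ⟨j, rfl⟩
  unfold ξ0
  simp [h3]

/-- The vectors of a selected block. -/
noncomputable def ξj (j : P) (q : Q) (x e' : Bool) : V2 :=
  if e' then act (F.ptj a0 j q) (F.ξ0 q x) else F.ξ0 q x

lemma norm_ξj_le (j : P) (q : Q) (x e' : Bool) : ‖F.ξj a0 j q x e'‖ ≤ 1 := by
  unfold ξj
  split_ifs
  · have h := norm_act_proj_le (F.ptj_proj a0 j q) (F.ξ0 q x)
    rw [F.norm_ξ0] at h
    have h0 := norm_nonneg (act (F.ptj a0 j q) (F.ξ0 q x))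
    nlinarith
  · exact (F.norm_ξ0 q x).le

end Blocks

end Frame

end Vale.Agent.Lib.P368
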