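import Vale.Agent.Lib.P368.D3.FrameW

/-! The system of selected blocks of a frame. -/

namespace Vale.Agent.Lib.P368

open Matrix Finset
open scoped Matrix.Norms.L2Operator InnerProductSpace ComplexConjugate

set_option linter.unusedSectionVars false
set_option linter.unusedSimpArgs false
set_option linter.unusedVariables false

variable {Q P H G : Type} [Fintype Q] [DecidableEq Q] [Fintype P] [DecidableEq P] [Fintype H]
  [DecidableEq H] [Fintype G] [DecidableEq G]

namespace Frame

variable (F : Frame Q P H G) (a0 : ℝ) (L : LastP Q) (S : Finset P)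

open Classical in
/-- The selected block of a qubit. -/
noncomputable def blS (q : Q) : Option {j // j ∈ S} :=
  if h : ∃ i : {j // j ∈ S}, q ∈ F.selB a0 i.1 then some h.choose else none

lemma blS_some {q : Q} {i : {j // j ∈ S}} : F.blS a0 S q = some i ↔ q ∈ F.selB a0 i.1 := by
  classical
  unfold blS
  constructor
  · intro h
    split_ifs at h with h1
    · have h2 := h1.choose_spec
      simp only [Option.some.injEq] at h
      rw [h] at h2
      exact h2
  · intro h
    have h1 : ∃ i : {j // j ∈ S}, q ∈ F.selB a0 i.1 := ⟨i, h⟩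
    rw [dif_pos h1]
    congr 1
    have h2 := h1.choose_spec
    by_contra hne
    have hne' : h1.choose.1 ≠ i.1 := fun h3 => hne (Subtype.ext h3)
    exact Finset.disjoint_left.mp (F.selB_disjoint a0 hne') h2 h

lemma blS_none {q : Q} : F.blS a0 S q = none ↔ ∀ i : {j // j ∈ S}, q ∉ F.selB a0 i.1 := by
  constructor
  · intro h i hi
    have := (F.blS_some a0 S).mpr hi
    rw [h] at this
    cases this
  · intro h
    cases h1 : F.blS a0 S q with
    | none => rfl
    | some i => exact absurd ((F.blS_some a0 S).mp h1) (h i)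

/-- The first-layer projector of the selected blocks. -/
noncomputable def ptS (q : Q) : M2 :=
  if ∃ i : {j // j ∈ S}, q ∈ F.selB a0 i.1 ∧ F.hi a0 i.1 = true then F.pt q else 0

lemma ptS_block {q : Q} {i : {j // j ∈ S}} (h : q ∈ F.selB a0 i.1) :
    F.ptS a0 S q = F.ptj a0 i.1 q := by
  unfold ptS ptj
  cases hh : F.hi a0 i.1 with
  | true => rw [if_pos ⟨i, h, hh⟩]; rfl
  | false =>
    rw [if_neg]
    · rfl
    · rintro ⟨i', h1, h2⟩
      have : i'.1 = i.1 := by
        by_contra hne
        exact Finset.disjoint_left.mp (F.selB_disjoint a0 hne) h1 h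
      rw [this, hh] at h2
      cases h2

lemma ptS_proj (q : Q) : IsStarProjection (F.ptS a0 S q) := by
  unfold ptS
  split_ifs
  · exact F.pt_proj q
  · exact IsStarProjection.zero _

/-- The system of selected blocks of a frame. -/
noncomputable def core : CoreData Q {j // j ∈ S} G where
  bl := F.blS a0 S
  gt := F.gt
  p := F.p
  sS := L.sS
  s := L.s
  ref := fun _ => e false
  pt := F.ptS a0 S
  ξ := fun q x b => if b then act (F.ptS a0 S q) (F.ξ0 q x) else F.ξ0 q x
  p_unit := F.p_unit
  s_unit := L.s_unit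
  ref_unit := fun _ => norm_e _
  pt_proj := F.ptS_proj a0 S
  ξ_unit := fun q x => by
    simp only [Bool.false_eq_true, if_false]
    exact F.norm_ξ0 q x
  ξ_true := fun q x => by simp

lemma core_ξ {q : Q} {i : {j // j ∈ S}} (h : q ∈ F.selB a0 i.1) (x b : Bool) :
    (F.core a0 L S).ξ q x b = F.ξj a0 i.1 q x b := by
  show (if b then act (F.ptS a0 S q) (F.ξ0 q x) else F.ξ0 q x) = _
  rw [F.ptS_block a0 S h]
  rfl

lemma core_Mset (i : {j // j ∈ S}) (l : G) :
    (F.core a0 L S).Mset (some l) (some i) = F.MM a0 i.1 l := by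
  ext q
  simp only [CoreData.Mset, MM, Finset.mem_filter, Finset.mem_univ, true_and]
  constructor
  · rintro ⟨h1, h2⟩
    exact ⟨(F.blS_some a0 S).mp h2, h1⟩
  · rintro ⟨h1, h2⟩
    exact ⟨h2, (F.blS_some a0 S).mpr h1⟩

lemma core_Oj {q : Q} (h : (F.core a0 L S).bl q ≠ none) (j : J) :
    Oj (F.core a0 L S).sys.π (F.core a0 L S).sys.E j q = Oj F.πq L.Eq j q := by
  have h1 : (F.core a0 L S).RN q = false := by
    unfold CoreData.RN CoreData.isR
    cases hb : (F.core a0 L S).bl q with
    | none => exact absurd hb h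
    | some i => simp
  have h2 : (F.core a0 L S).sys.π q = F.πq q := by
    show (if (F.core a0 L S).RN q then 1 else (F.core a0 L S).π q) = _
    rw [h1]
    rfl
  have h3 : (F.core a0 L S).sys.E q = L.Eq q := rfl
  unfold Oj
  rw [h2, h3]

/-- The functions of the system of selected blocks are the functions of the blocks. -/
lemma core_tG (i : {j // j ∈ S}) (l : G) (cc : Cfg) (σ : J × J) :
    (F.core a0 L S).tG (some l) i cc σ = F.tB a0 L i.1 l cc σ := by
  unfold CoreData.tG tB
  rw [core_Mset]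
  refine Finset.prod_congr rfl fun q hq => ?_
  have hq1 := (Finset.mem_filter.mp hq).1
  have hbl : (F.core a0 L S).bl q ≠ none := by
    have : F.blS a0 S q = some i := (F.blS_some a0 S).mpr hq1
    show F.blS a0 S q ≠ none
    rw [this]
    simp
  unfold CoreData.tq τq
  rw [core_Oj _ _ _ _ hbl, core_Oj _ _ _ _ hbl]
  simp only [F.core_ξ a0 L S hq1]

/-- The bound on the minors of a selected block. -/
noncomputable def Wb (i : {j // j ∈ S}) (l : G) : ℝ :=
  (41 / a0) * Real.sqrt ((1 - F.ϖ L i.1 l) * F.mT a0 L i.1 l)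

lemma Wb_nonneg (ha0 : 0 < a0) (i : {j // j ∈ S}) (l : G) : 0 ≤ F.Wb a0 L S i l := by
  unfold Wb
  positivity

/-- **The core theorem for a frame.** -/
theorem frame_core (ha0 : 0 < a0) (ha1 : a0 ≤ 1) (Ω : Vec (Q → Bool))
    (hΩ : act (F.core a0 L S).Pref Ω = Ω) :
    ‖∑ x : {j // j ∈ S} → Bool, ((∏ i, sgnOf (x i) : ℝ) : ℂ)
        * ⟪act ((F.core a0 L S).Kx x) Ω,
            act ((F.core a0 L S).full.hat fun _ => true) (act ((F.core a0 L S).Kx x) Ω)⟫_ℂ‖
      ≤ 2 ^ Fintype.card {j // j ∈ S} * (Real.sqrt (2 * (3 / 4 : ℝ) ^ Fintype.card {j // j ∈ S}) * ‖Ω‖ ^ 2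
        + 6 * nearConst 81 (Fintype.card {j // j ∈ S}) / (3 / 4 : ℝ) ^ Fintype.card {j // j ∈ S}
          * (16 ^ 2 * 256)
          * ∑ l, (F.core a0 L S).sys.Cl l * ‖act ((F.core a0 L S).Pml l) Ω‖ ^ 2
            * potW (fun i => F.Wb a0 L S i l) Finset.univ) := by
  refine (F.core a0 L S).core_theorem (fun l i => F.Wb a0 L S i l)
    (fun l i => F.Wb_nonneg a0 L S ha0 i l) ?_ Ω hΩ
  intro l i cc cc' σ σ'
  simp only [core_tG]
  exact (F.minor_tB a0 L i.1 l cc cc' σ σ').trans (F.minor_le_kill a0 L ha0 ha1 i.1 l)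

end Frame

end Vale.Agent.Lib.P368
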