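import Vale.Agent.Lib.P368.D3.FrameProd

/-! The weights of the gates on the state outside the selected blocks. -/

namespace Vale.Agent.Lib.P368

open Matrix Finset
open scoped Matrix.Norms.L2Operator InnerProductSpace ComplexConjugate

set_option linter.unusedSectionVars false
set_option linter.unusedSimpArgs false
set_option linter.unusedVariables false

variable {Q P H G : Type} [Fintype Q] [DecidableEq Q] [Fintype P] [DecidableEq P] [Fintype H]
  [DecidableEq H] [Fintype G] [DecidableEq G]

namespace Frame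

variable (F : Frame Q P H G) (a0 : ℝ) (L : LastP Q) (S : Finset P)

/-- The last-layer operators of the projector of a gate. -/
noncomputable def Fql (l : G) (q : Q) : M2 :=
  if (F.core a0 L S).RN q && decide (F.gt q = some l) then F.πq q else 1

lemma Fql_proj (l : G) (q : Q) : IsStarProjection (F.Fql a0 L S l q) := by
  unfold Fql
  split_ifs
  · exact F.πq_proj q
  · exact IsStarProjection.one _

lemma Pml_eq (l : G) : (F.core a0 L S).Pml l = tp (F.Fql a0 L S l) := rfl

/-- The qubits of a first-layer gate which are projected. -/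
noncomputable def MG (l : G) (h : H) : Finset Q :=
  (Finset.univ.filter fun q => F.bt q = some h).filter fun q =>
    ((F.core a0 L S).RN q && decide (F.gt q = some l)) = true

/-- The weight of a free qubit. -/
noncomputable def Az (z : P → Bool) (l : G) (q : Q) : ℝ :=
  ‖act (F.Fql a0 L S l q) (F.ub a0 S z q)‖ ^ 2

lemma Az_nonneg (z : P → Bool) (l : G) (q : Q) : 0 ≤ F.Az a0 L S z l q := by
  unfold Az; positivity

lemma Az_le_one (z : P → Bool) (l : G) (q : Q) : F.Az a0 L S z l q ≤ 1 := by
  unfold Az
  have h := norm_act_proj_le (F.Fql_proj a0 L S l q) (F.ub a0 S z q)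
  rw [F.norm_ub] at h
  have h0 := norm_nonneg (act (F.Fql a0 L S l q) (F.ub a0 S z q))
  nlinarith

lemma sc_Az (z : P → Bool) (l : G) (q : Q) :
    sc (F.ub a0 S z q) (F.Fql a0 L S l q) (F.ub a0 S z q) = (F.Az a0 L S z l q : ℂ) :=
  HSys.norm_proj_sq (F.Fql_proj a0 L S l q) _

/-- The mode of a first-layer gate. -/
noncomputable def VG (z : P → Bool) (l : G) (h : H) : ModeV (Vec (Q → Bool)) :=
  modeV (F.MG a0 L S l h) (F.ub a0 S z) F.pt F.p (F.norm_ub a0 S z) F.pt_proj F.p_unit

/-- The overlap of the qubits of a first-layer gate outside its mode. -/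
noncomputable def aG (z : P → Bool) (l : G) (h : H) : ℝ :=
  ∏ q ∈ (Finset.univ.filter fun q => F.bt q = some h) \ F.MG a0 L S l h,
    ‖act (F.pt q) (F.ub a0 S z q)‖ ^ 2

lemma aG_nonneg (z : P → Bool) (l : G) (h : H) : 0 ≤ F.aG a0 L S z l h :=
  Finset.prod_nonneg fun q _ => by positivity

lemma aG_le_one (z : P → Bool) (l : G) (h : H) : F.aG a0 L S z l h ≤ 1 :=
  Finset.prod_le_one (fun q _ => by positivity) fun q _ => by
    have h1 := F.norm_pt_v_le q _ (F.norm_ub a0 S z q)
    have h0 := norm_nonneg (act (F.pt q) (F.ub a0 S z q))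
    nlinarith

/-- The weight of a first-layer gate. -/
noncomputable def KR (z : P → Bool) (l : G) (h : H) : ℝ :=
  if F.yRest S h = 0 then
    ∏ q ∈ Finset.univ.filter (fun q => F.bt q = some h), F.Az a0 L S z l q
  else (F.VG a0 L S z l h).Hval (F.aG a0 L S z l h)

lemma KR_nonneg (z : P → Bool) (l : G) (h : H) : 0 ≤ F.KR a0 L S z l h := by
  unfold KR
  split_ifs
  · exact Finset.prod_nonneg fun q _ => F.Az_nonneg a0 L S z l q
  · exact ModeV.Hval_nonneg _ _ (F.aG_nonneg a0 L S z l h) (F.aG_le_one a0 L S z l h)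

lemma KR_le_one (z : P → Bool) (l : G) (h : H) : F.KR a0 L S z l h ≤ 1 := by
  unfold KR
  split_ifs
  · exact Finset.prod_le_one (fun q _ => F.Az_nonneg a0 L S z l q)
      fun q _ => F.Az_le_one a0 L S z l q
  · exact ModeV.Hval_le_one _ _ (F.aG_nonneg a0 L S z l h) (F.aG_le_one a0 L S z l h)

/-- The product formula on the state outside the selected blocks. -/
theorem norm_Pml_Ωz (z : P → Bool) (l : G) :
    ‖act ((F.core a0 L S).Pml l) (F.Ωz a0 S z)‖ ^ 2
      = (∏ q ∈ Finset.univ.filter (fun q => F.bt q = none), F.Az a0 L S z l q)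
        * ∏ h, F.KR a0 L S z l h := by
  have h1 := norm_tp_Ty F.bt F.pt_proj (F.yRest S) (F.yRest_cases S) LH LH_nodup mem_LH
    (F.Fql_proj a0 L S l) (F.ub a0 S z)
  rw [Pml_eq]
  unfold Ωz Trest
  have h2 : ((‖act (tp (F.Fql a0 L S l)) (act (Ty F.bt F.pt (F.yRest S) LH) (pv (F.ub a0 S z)))‖ ^ 2 : ℝ) : ℂ)
      = (((∏ q ∈ Finset.univ.filter (fun q => F.bt q = none), F.Az a0 L S z l q)
        * ∏ h, F.KR a0 L S z l h : ℝ) : ℂ) := by
    rw [h1]
    push_cast
    congr 1
    · exact Finset.prod_congr rfl fun q _ => F.sc_Az a0 L S z l q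
    · refine Finset.prod_congr rfl fun h _ => ?_
      unfold KR
      rcases F.yRest_cases S h with h0 | h0
      · rw [h0, if_pos rfl, factor_zero]
        push_cast
        exact Finset.prod_congr rfl fun q _ => F.sc_Az a0 L S z l q
      · rw [h0, if_neg one_ne_zero]
        refine gate_factor _ _ (Finset.filter_subset _ _) _ _ _ _ _ _ ?_ ?_
        · intro q hq
          have hq' := (Finset.mem_filter.mp hq).2
          unfold Fql
          rw [if_pos hq']
          rfl
        · intro q _ hq
          have hq' : ¬ ((F.core a0 L S).RN q && decide (F.gt q = some l)) = true := by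
            intro h3
            exact hq (Finset.mem_filter.mpr ⟨by assumption, h3⟩)
          unfold Fql
          rw [if_neg hq']
  exact_mod_cast h2

/-- The qubits of the block of an unselected input are outside the selected blocks. -/
lemma blS_of_unselected {j : P} (hj : j ∉ S) {q : Q} (hq : q ∈ F.trueB j) :
    F.blS a0 S q = none := by
  rw [F.blS_none]
  intro i hi
  have hne : i.1 ≠ j := fun h => hj (h ▸ i.2)
  exact Finset.disjoint_left.mp (F.trueB_disjoint hne) (F.selB_subset a0 i.1 hi) hq

lemma RN_of_unselected {j : P} (hj : j ∉ S) {q : Q} (hq : q ∈ F.trueB j) :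
    (F.core a0 L S).RN q = !L.sS q := by
  have h := F.blS_of_unselected a0 S hj hq
  have h2 : (F.core a0 L S).bl q = none := h
  show ((F.core a0 L S).isR q && !(L.sS q)) = _
  unfold CoreData.isR
  rw [h2]
  simp

lemma ub_of_unselected {j : P} (hj : j ∉ S) {q : Q} (hq : q ∈ F.trueB j) (z : P → Bool) :
    F.ub a0 S z q = F.uj j (z j) q := by
  unfold ub uj
  rw [if_pos (F.blS_of_unselected a0 S hj hq)]
  by_cases h : q = F.q0 j
  · subst h
    rw [if_pos rfl]
    unfold uz
    rw [bitOf_q0]
  · rw [if_neg h]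
    unfold uz u
    rw [F.bitOf_other]
    rintro ⟨j', rfl⟩
    exact h (by rw [F.input_in_trueB hq])

lemma Hval_congr {E : Type} [NormedAddCommGroup E] [InnerProductSpace ℂ E] {V V' : ModeV E}
    (hα : V.α = V'.α) (hβ : V.β = V'.β) (a : ℝ) : V.Hval a = V'.Hval a := by
  unfold ModeV.Hval
  rw [hα, hβ]

lemma MG_eq_MK {j : P} (hj : j ∉ S) {h : H} (hh : F.bt (F.q0 j) = some h) (l : G) :
    F.MG a0 L S l h = F.MK L j l := by
  ext q
  simp only [MG, MK, F.trueB_gate hh, Finset.mem_filter, Finset.mem_univ, true_and]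
  constructor
  · rintro ⟨h1, h2⟩
    have hq : q ∈ F.trueB j := by
      rw [F.trueB_gate hh]
      exact Finset.mem_filter.mpr ⟨Finset.mem_univ _, h1⟩
    rw [F.RN_of_unselected a0 L S hj hq] at h2
    simp only [Bool.and_eq_true, Bool.not_eq_true', decide_eq_true_eq] at h2
    exact ⟨h1, h2.2, h2.1⟩
  · rintro ⟨h1, h2, h3⟩
    have hq : q ∈ F.trueB j := by
      rw [F.trueB_gate hh]
      exact Finset.mem_filter.mpr ⟨Finset.mem_univ _, h1⟩
    refine ⟨h1, ?_⟩
    rw [F.RN_of_unselected a0 L S hj hq]
    simp [h2, h3]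

/-- The weight of the gate of an unselected input. -/
lemma KR_gate {j : P} (hj : j ∉ S) {h : H} (hh : F.bt (F.q0 j) = some h) (z : P → Bool) (l : G) :
    F.KR a0 L S z l h = F.Hre L j l (z j) := by
  have hy : F.yRest S h ≠ 0 := by
    unfold yRest
    rw [if_neg]
    · exact one_ne_zero
    · rintro ⟨i, hi⟩
      have : i.1 = j := F.q0_gate _ _ _ hi hh
      exact hj (this ▸ i.2)
  have hB : (Finset.univ.filter fun q => F.bt q = some h) = F.trueB j := (F.trueB_gate hh).symm
  have hM := F.MG_eq_MK a0 L S hj hh l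
  unfold KR Hre
  rw [if_neg hy]
  have hg : (F.bt (F.q0 j)).isSome = true := by rw [hh]; rfl
  have ha : F.aG a0 L S z l h = F.aK L j l (z j) := by
    unfold aG aK
    rw [if_pos hg, hB, hM]
    refine Finset.prod_congr rfl fun q hq => ?_
    rw [F.ub_of_unselected a0 S hj (Finset.mem_sdiff.mp hq).1]
  rw [ha]
  refine Hval_congr ?_ ?_ _
  · unfold VG VK
    rw [modeV_α, modeV_α, hM]
    refine Finset.prod_congr rfl fun q hq => ?_
    rw [F.ub_of_unselected a0 S hj (Finset.mem_filter.mp hq).1]
  · unfold VG VK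
    rw [modeV_β, modeV_β, hM]
    refine Finset.prod_congr rfl fun q hq => ?_
    rw [F.ub_of_unselected a0 S hj (Finset.mem_filter.mp hq).1]

/-- The weight of an unselected input without gate. -/
lemma Az_free {j : P} (hj : j ∉ S) (hh : F.bt (F.q0 j) = none) (z : P → Bool) (l : G) :
    F.Az a0 L S z l (F.q0 j) = F.Hre L j l (z j) := by
  have hq0 := F.q0_mem_trueB j
  have hg : ¬ (F.bt (F.q0 j)).isSome = true := by rw [hh]; simp
  have hmk : ∀ q ∈ F.MK L j l, q = F.q0 j := by
    intro q hq
    have h1 := (Finset.mem_filter.mp hq).1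
    rw [F.trueB_free hh] at h1
    simpa using h1
  unfold Az Hre
  have ha : F.aK L j l (z j) = 0 := by
    unfold aK
    rw [if_neg hg]
  rw [ha, ModeV.Hval_zero]
  unfold VK
  rw [modeV_α, F.ub_of_unselected a0 S hj hq0, F.uj_input]
  by_cases hM : F.q0 j ∈ F.MK L j l
  · have hM2 : F.MK L j l = {F.q0 j} := by
      ext q
      constructor
      · intro hq
        simpa using hmk q hq
      · intro hq
        rw [Finset.mem_singleton.mp hq]
        exact hM
    rw [hM2, Finset.prod_singleton, F.uj_input]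
    have hM3 := (F.q0_mem_MK_iff L j l).mp hM
    have hF : F.Fql a0 L S l (F.q0 j) = F.πq (F.q0 j) := by
      unfold Fql
      rw [if_pos]
      rw [F.RN_of_unselected a0 L S hj hq0]
      simp [hM3.1, hM3.2]
    rw [hF]
    exact norm_kb_act_sq _ (F.p_unit _) _
  · have hM2 : F.MK L j l = ∅ := by
      ext q
      simp only [Finset.notMem_empty, iff_false]
      intro hq
      exact hM (hmk q hq ▸ hq)
    have hF : F.Fql a0 L S l (F.q0 j) = 1 := by
      unfold Fql
      rw [if_neg]
      rw [F.RN_of_unselected a0 L S hj hq0]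
      intro h3
      simp only [Bool.and_eq_true, Bool.not_eq_true', decide_eq_true_eq] at h3
      exact hM ((F.q0_mem_MK_iff L j l).mpr ⟨h3.2, h3.1⟩)
    rw [hF, act_one, F.norm_v, hM2]
    simp

/-- **The bound for the weight of a gate on the state outside the selected blocks.** -/
theorem Pml_le_prod (z : P → Bool) (l : G) :
    ‖act ((F.core a0 L S).Pml l) (F.Ωz a0 S z)‖ ^ 2 ≤ ∏ j ∈ Sᶜ, F.Hre L j l (z j) := by
  rw [F.norm_Pml_Ωz]
  set Jf := Sᶜ.filter fun j => F.bt (F.q0 j) = none with hJf
  set Jg := Sᶜ.filter fun j => ¬ F.bt (F.q0 j) = none with hJg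
  rw [← Finset.prod_filter_mul_prod_filter_not Sᶜ (fun j => F.bt (F.q0 j) = none), ← hJf, ← hJg]
  -- the free qubits
  have h1 : ∏ q ∈ Finset.univ.filter (fun q => F.bt q = none), F.Az a0 L S z l q
      ≤ ∏ j ∈ Jf, F.Hre L j l (z j) := by
    have h2 : ∏ j ∈ Jf, F.Hre L j l (z j) = ∏ q ∈ Jf.image F.q0, F.Az a0 L S z l q := by
      rw [Finset.prod_image fun a _ b _ hab => F.q0_inj hab]
      refine Finset.prod_congr rfl fun j hj => ?_
      have hj' := Finset.mem_filter.mp hj
      exact (F.Az_free a0 L S (by simpa using hj'.1) hj'.2 z l).symm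
    rw [h2]
    refine prod_le_prod_of_subset_unit ?_ _ (fun q _ => F.Az_nonneg a0 L S z l q)
      fun q _ => F.Az_le_one a0 L S z l q
    intro q hq
    obtain ⟨j, hj, rfl⟩ := Finset.mem_image.mp hq
    exact Finset.mem_filter.mpr ⟨Finset.mem_univ _, (Finset.mem_filter.mp hj).2⟩
  -- the gates
  have h3 : ∏ h, F.KR a0 L S z l h ≤ ∏ j ∈ Jg, F.Hre L j l (z j) := by
    set K' : Option H → ℝ := fun o => match o with
      | some h => F.KR a0 L S z l h
      | none => 1 with hK'
    have h4 : ∏ h, F.KR a0 L S z l h = ∏ o, K' o := by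
      rw [Fintype.prod_option]
      simp [hK']
    have h5 : ∏ j ∈ Jg, F.Hre L j l (z j) = ∏ o ∈ Jg.image (fun j => F.bt (F.q0 j)), K' o := by
      rw [Finset.prod_image]
      · refine Finset.prod_congr rfl fun j hj => ?_
        have hj' := Finset.mem_filter.mp hj
        cases hh : F.bt (F.q0 j) with
        | none => exact absurd hh hj'.2
        | some h =>
          simp only [hK']
          exact (F.KR_gate a0 L S (by simpa using hj'.1) hh z l).symm
      · intro a ha b hb hab
        have ha' := (Finset.mem_filter.mp ha).2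
        simp only at hab
        cases hh : F.bt (F.q0 a) with
        | none => exact absurd hh ha'
        | some h =>
          exact F.q0_gate _ _ h hh (hab ▸ hh)
    rw [h4, h5]
    refine prod_le_prod_of_subset_unit (Finset.subset_univ _) _ ?_ ?_
    · intro o _
      cases o with
      | none => exact zero_le_one
      | some h => exact F.KR_nonneg a0 L S z l h
    · intro o _
      cases o with
      | none => exact le_rfl
      | some h => exact F.KR_le_one a0 L S z l h
  exact mul_le_mul h1 h3 (Finset.prod_nonneg fun h _ => F.KR_nonneg a0 L S z l h)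
    (Finset.prod_nonneg fun j _ => F.Hre_nonneg L j l (z j))

/-- **The bound for the overlap of the opened qubits of a gate.** -/
theorem Cl_le_prod (l : G) : (F.core a0 L S).sys.Cl l ≤ ∏ j ∈ Sᶜ, F.σb L j l := by
  set D := F.core a0 L S with hD
  have hg0 : ∀ q, 0 ≤ (if D.sys.RS q then Cq (D.sys.s q) (D.sys.p q) else 1) := fun q => by
    split_ifs
    · exact Cq_nonneg _ _
    · exact zero_le_one
  have hg1 : ∀ q, (if D.sys.RS q then Cq (D.sys.s q) (D.sys.p q) else 1) ≤ 1 := fun q => by
    split_ifs with h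
    · exact Cq_le_one (L.s_unit q) (F.p_unit q)
    · exact le_rfl
  unfold HSys.Cl
  have h1 : ∏ j ∈ Sᶜ, F.σb L j l
      = ∏ q ∈ Sᶜ.biUnion (fun j => F.SK L j l), if D.sys.RS q then Cq (D.sys.s q) (D.sys.p q) else 1 := by
    rw [Finset.prod_biUnion]
    · refine Finset.prod_congr rfl fun j hj => Finset.prod_congr rfl fun q hq => ?_
      have hj' : j ∉ S := by simpa using hj
      have hq1 := Finset.mem_filter.mp hq
      have h2 : D.sys.RS q = true := by
        show D.RS q = true
        unfold CoreData.RS CoreData.isR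
        have h3 : D.bl q = none := F.blS_of_unselected a0 S hj' hq1.1
        have h4 : D.sS q = true := hq1.2.2
        rw [h3, h4]
        rfl
      rw [if_pos h2]
      rfl
    · intro a _ b _ hab
      exact Finset.disjoint_of_subset_left (Finset.filter_subset _ _)
        (Finset.disjoint_of_subset_right (Finset.filter_subset _ _) (F.trueB_disjoint hab))
  rw [h1]
  refine prod_le_prod_of_subset_unit ?_ _ (fun q _ => hg0 q) fun q _ => hg1 q
  intro q hq
  obtain ⟨j, -, hq2⟩ := Finset.mem_biUnion.mp hq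
  exact Finset.mem_filter.mpr ⟨Finset.mem_univ _, (Finset.mem_filter.mp hq2).2.1⟩

end Frame

end Vale.Agent.Lib.P368
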