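import Vale.Agent.Lib.P368.D3.FrameMinor

/-! The weights of an unselected block at a gate. -/

namespace Vale.Agent.Lib.P368

open Matrix Finset
open scoped Matrix.Norms.L2Operator InnerProductSpace ComplexConjugate

set_option linter.unusedSectionVars false
set_option linter.unusedSimpArgs false
set_option linter.unusedVariables false

variable {Q P H G : Type} [Fintype Q] [DecidableEq Q] [Fintype P] [DecidableEq P] [Fintype H]
  [DecidableEq H] [Fintype G] [DecidableEq G]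

lemma norm_sub_two_mul_sq (α β : ℂ) :
    ‖α - 2 * β‖ ^ 2 = ‖α‖ ^ 2 - 4 * (conj α * β).re + 4 * ‖β‖ ^ 2 := by
  rw [← Complex.normSq_eq_norm_sq, ← Complex.normSq_eq_norm_sq, ← Complex.normSq_eq_norm_sq]
  simp only [Complex.normSq_apply, Complex.sub_re, Complex.sub_im, Complex.mul_re, Complex.mul_im,
    Complex.conj_re, Complex.conj_im]
  norm_num
  ring

namespace ModeV

variable {E : Type} [NormedAddCommGroup E] [InnerProductSpace ℂ E] (V : ModeV E)

lemma Hval_eq (a : ℝ) :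
    V.Hval a = ‖V.α‖ ^ 2 + a * (- 4 * (conj V.α * V.β).re + 4 * ‖V.β‖ ^ 2) := by
  unfold Hval
  rw [norm_sub_two_mul_sq]
  ring

lemma Hval_zero : V.Hval 0 = ‖V.α‖ ^ 2 := by
  rw [Hval_eq]; ring

lemma hbar_eq (a : ℝ) :
    V.hbar a = ‖V.α‖ ^ 2 + (a / 2) * (- 4 * (conj V.α * V.β).re + 4 * ‖V.β‖ ^ 2) := by
  unfold hbar
  ring

end ModeV

namespace Frame

variable (F : Frame Q P H G) (L : LastP Q)

/-- The vectors of the qubits of the block of an input with a given bit. -/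
noncomputable def uj (j : P) (b : Bool) (q : Q) : V2 := if q = F.q0 j then F.v q b else F.u q

lemma norm_uj (j : P) (b : Bool) (q : Q) : ‖F.uj j b q‖ = 1 := by
  unfold uj
  split_ifs
  · exact F.norm_v _ _
  · exact F.norm_u _

/-- The qubits of an unselected block at a gate with trivial last projector. -/
def MK (j : P) (l : G) : Finset Q :=
  (F.trueB j).filter fun q => F.gt q = some l ∧ L.sS q = false

/-- The qubits of an unselected block at a gate with rank-one last projector. -/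
def SK (j : P) (l : G) : Finset Q :=
  (F.trueB j).filter fun q => F.gt q = some l ∧ L.sS q = true

/-- The mode of an unselected block at a gate. -/
noncomputable def VK (j : P) (l : G) (b : Bool) : ModeV (Vec (Q → Bool)) :=
  modeV (F.MK L j l) (F.uj j b) F.pt F.p (F.norm_uj j b) F.pt_proj F.p_unit

/-- The overlap of the qubits of the gate of an input outside the mode. -/
noncomputable def aK (j : P) (l : G) (b : Bool) : ℝ :=
  if (F.bt (F.q0 j)).isSome then ∏ q ∈ F.trueB j \ F.MK L j l, ‖act (F.pt q) (F.uj j b q)‖ ^ 2 else 0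

lemma aK_nonneg (j : P) (l : G) (b : Bool) : 0 ≤ F.aK L j l b := by
  unfold aK
  split_ifs
  · exact Finset.prod_nonneg fun q _ => by positivity
  · exact le_rfl

lemma aK_le_one (j : P) (l : G) (b : Bool) : F.aK L j l b ≤ 1 := by
  unfold aK
  split_ifs
  · refine Finset.prod_le_one (fun q _ => by positivity) fun q _ => ?_
    have h := F.norm_pt_v_le q _ (F.norm_uj j b q)
    have h0 := norm_nonneg (act (F.pt q) (F.uj j b q))
    nlinarith
  · exact zero_le_one

/-- The weight of an unselected block at a gate with a given bit. -/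
noncomputable def Hre (j : P) (l : G) (b : Bool) : ℝ := (F.VK L j l b).Hval (F.aK L j l b)

lemma Hre_nonneg (j : P) (l : G) (b : Bool) : 0 ≤ F.Hre L j l b :=
  ModeV.Hval_nonneg _ _ (F.aK_nonneg L j l b) (F.aK_le_one L j l b)

lemma Hre_le_one (j : P) (l : G) (b : Bool) : F.Hre L j l b ≤ 1 :=
  ModeV.Hval_le_one _ _ (F.aK_nonneg L j l b) (F.aK_le_one L j l b)

/-- The averaged weight of an unselected block at a gate. -/
noncomputable def hb (j : P) (l : G) : ℝ := (F.Hre L j l false + F.Hre L j l true) / 2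

lemma hb_nonneg (j : P) (l : G) : 0 ≤ F.hb L j l := by
  have := F.Hre_nonneg L j l false
  have := F.Hre_nonneg L j l true
  unfold hb
  linarith

lemma hb_le_one (j : P) (l : G) : F.hb L j l ≤ 1 := by
  have := F.Hre_le_one L j l false
  have := F.Hre_le_one L j l true
  unfold hb
  linarith

/-- The overlap of the directions of an unselected block at a gate. -/
noncomputable def σb (j : P) (l : G) : ℝ := ∏ q ∈ F.SK L j l, Cq (L.s q) (F.p q)

lemma σb_nonneg (j : P) (l : G) : 0 ≤ F.σb L j l :=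
  Finset.prod_nonneg fun q _ => Cq_nonneg _ _

lemma σb_le_one (j : P) (l : G) : F.σb L j l ≤ 1 :=
  Finset.prod_le_one (fun q _ => Cq_nonneg _ _) fun q _ => Cq_le_one (L.s_unit q) (F.p_unit q)

/-- The kill factor of a block at a gate. -/
noncomputable def ϖ (j : P) (l : G) : ℝ := F.hb L j l * F.σb L j l

lemma ϖ_nonneg (j : P) (l : G) : 0 ≤ F.ϖ L j l :=
  mul_nonneg (F.hb_nonneg L j l) (F.σb_nonneg L j l)

lemma ϖ_le_one (j : P) (l : G) : F.ϖ L j l ≤ 1 :=
  mul_le_one₀ (F.hb_le_one L j l) (F.σb_nonneg L j l) (F.σb_le_one L j l)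

lemma ϖ_le_hb (j : P) (l : G) : F.ϖ L j l ≤ F.hb L j l :=
  mul_le_of_le_one_right (F.hb_nonneg L j l) (F.σb_le_one L j l)

lemma ϖ_le_σb (j : P) (l : G) : F.ϖ L j l ≤ F.σb L j l :=
  mul_le_of_le_one_left (F.σb_nonneg L j l) (F.hb_le_one L j l)

/-! ### The case of an input outside the mode -/

lemma sum_pt_v (q : Q) : ‖act (F.pt q) (F.v q false)‖ ^ 2 + ‖act (F.pt q) (F.v q true)‖ ^ 2 = 1 := by
  have h := F.parseval q (F.c q) (F.c q)
  rw [Fintype.sum_bool] at h
  have h1 : ∀ b, ‖act (F.pt q) (F.v q b)‖ ^ 2 = ‖⟪F.c q, F.v q b⟫_ℂ‖ ^ 2 :=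
    fun b => norm_kb_act_sq _ (F.c_unit q) _
  rw [h1, h1]
  have h2 : ∀ b, ⟪F.c q, F.v q b⟫_ℂ * ⟪F.v q b, F.c q⟫_ℂ = ((‖⟪F.c q, F.v q b⟫_ℂ‖ ^ 2 : ℝ) : ℂ) := by
    intro b
    rw [← inner_conj_symm (F.v q b) (F.c q), Complex.mul_conj, Complex.normSq_eq_norm_sq]
  rw [h2, h2, inner_self_eq_norm_sq_to_K, F.c_unit] at h
  have h3 : ((‖⟪F.c q, F.v q true⟫_ℂ‖ ^ 2 + ‖⟪F.c q, F.v q false⟫_ℂ‖ ^ 2 : ℝ) : ℂ) = ((1 : ℝ) : ℂ) := by
    push_cast at h ⊢
    simpa using h
  have h4 : ‖⟪F.c q, F.v q true⟫_ℂ‖ ^ 2 + ‖⟪F.c q, F.v q false⟫_ℂ‖ ^ 2 = 1 := by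
    exact_mod_cast h3
  linarith

/-- The mode of a block at a gate when the input is outside. -/
noncomputable def VK0 (j : P) (l : G) : ModeV (Vec (Q → Bool)) :=
  modeV (F.MK L j l) F.u F.pt F.p F.norm_u F.pt_proj F.p_unit

/-- The overlap of the other qubits of the gate outside the mode. -/
noncomputable def aR (j : P) (l : G) : ℝ := ∏ q ∈ (F.trueB j \ F.MK L j l).erase (F.q0 j), F.pa q

lemma aR_nonneg (j : P) (l : G) : 0 ≤ F.aR L j l := Finset.prod_nonneg fun q _ => F.pa_nonneg q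

lemma aR_le_one (j : P) (l : G) : F.aR L j l ≤ 1 :=
  Finset.prod_le_one (fun q _ => F.pa_nonneg q) fun q _ => F.pa_le_one q

lemma uj_other {j : P} {q : Q} (h : q ≠ F.q0 j) (b : Bool) : F.uj j b q = F.u q := by
  simp [uj, h]

lemma uj_input (j : P) (b : Bool) : F.uj j b (F.q0 j) = F.v (F.q0 j) b := by
  simp [uj]

lemma q0_mem_MK_iff (j : P) (l : G) :
    F.q0 j ∈ F.MK L j l ↔ F.gt (F.q0 j) = some l ∧ L.sS (F.q0 j) = false := by
  simp [MK, F.q0_mem_trueB j]

/-- The averaged weight when the input is outside the mode. -/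
lemma hb_outside (j : P) (l : G) (h : F.q0 j ∉ F.MK L j l) (hg : (F.bt (F.q0 j)).isSome = true) :
    F.hb L j l = (F.VK0 L j l).hbar (F.aR L j l) := by
  have hα : ∀ b, (F.VK L j l b).α = (F.VK0 L j l).α := by
    intro b
    unfold VK VK0
    rw [modeV_α, modeV_α]
    refine Finset.prod_congr rfl fun q hq => ?_
    rw [F.uj_other]
    rintro rfl
    exact h hq
  have hβ : ∀ b, (F.VK L j l b).β = (F.VK0 L j l).β := by
    intro b
    unfold VK VK0
    rw [modeV_β, modeV_β]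
    refine Finset.prod_congr rfl fun q hq => ?_
    rw [F.uj_other]
    rintro rfl
    exact h hq
  have haK : ∀ b, F.aK L j l b = ‖act (F.pt (F.q0 j)) (F.v (F.q0 j) b)‖ ^ 2 * F.aR L j l := by
    intro b
    unfold aK aR
    rw [if_pos hg]
    have hm : F.q0 j ∈ F.trueB j \ F.MK L j l :=
      Finset.mem_sdiff.mpr ⟨F.q0_mem_trueB j, h⟩
    rw [← Finset.mul_prod_erase _ _ hm, F.uj_input]
    congr 1
    refine Finset.prod_congr rfl fun q hq => ?_
    rw [F.uj_other (Finset.ne_of_mem_erase hq)]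
    rfl
  unfold hb Hre
  rw [ModeV.Hval_eq, ModeV.Hval_eq, ModeV.hbar_eq, hα, hα, hβ, hβ, haK, haK]
  have h1 := F.sum_pt_v (F.q0 j)
  set X := - 4 * (conj (F.VK0 L j l).α * (F.VK0 L j l).β).re + 4 * ‖(F.VK0 L j l).β‖ ^ 2
  set A := ‖act (F.pt (F.q0 j)) (F.v (F.q0 j) false)‖ ^ 2
  set B := ‖act (F.pt (F.q0 j)) (F.v (F.q0 j) true)‖ ^ 2
  have h2 : (A + B) * (F.aR L j l * X) = F.aR L j l * X := by rw [h1, one_mul]
  linear_combination h2 / 2

/-! ### The case of an input inside the mode -/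

/-- The completeness of the vectors of a qubit for the square of a functional. -/
lemma sum_inner_sq (q : Q) (w : V2) : ‖⟪w, F.v q false⟫_ℂ‖ ^ 2 + ‖⟪w, F.v q true⟫_ℂ‖ ^ 2 = ‖w‖ ^ 2 := by
  have h := F.parseval q w w
  rw [Fintype.sum_bool] at h
  have h2 : ∀ b, ⟪w, F.v q b⟫_ℂ * ⟪F.v q b, w⟫_ℂ = ((‖⟪w, F.v q b⟫_ℂ‖ ^ 2 : ℝ) : ℂ) := by
    intro b
    rw [← inner_conj_symm (F.v q b) w, Complex.mul_conj, Complex.normSq_eq_norm_sq]
  rw [h2, h2, inner_self_C] at h
  have h3 : ‖⟪w, F.v q true⟫_ℂ‖ ^ 2 + ‖⟪w, F.v q false⟫_ℂ‖ ^ 2 = ‖w‖ ^ 2 := by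
    exact_mod_cast h
  linarith

/-- **The averaged weight is at most one half when the input is in the mode.** -/
theorem hb_inside (j : P) (l : G) (h : F.q0 j ∈ F.MK L j l) : F.hb L j l ≤ 1 / 2 := by
  set q := F.q0 j with hq
  set M' := (F.MK L j l).erase q with hM'
  set V' := modeV M' F.u F.pt F.p F.norm_u F.pt_proj F.p_unit with hV'
  set c0 := ⟪F.p q, F.c q⟫_ℂ with hc0
  set C0 := ‖c0‖ ^ 2 with hC0
  have hC00 : 0 ≤ C0 := by positivity
  have hC01 : C0 ≤ 1 := by
    have h1 := norm_inner_le_norm (𝕜 := ℂ) (F.p q) (F.c q)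
    rw [F.p_unit, F.c_unit] at h1
    have h0 := norm_nonneg c0
    have h2 : ‖c0‖ ≤ 1 := by simpa using h1
    simp only [hC0]
    nlinarith
  -- the overlaps
  have hα : ∀ b, (F.VK L j l b).α = ⟪F.p q, F.v q b⟫_ℂ * V'.α := by
    intro b
    unfold VK
    rw [modeV_α, hV', modeV_α, ← Finset.mul_prod_erase _ _ h, F.uj_input]
    congr 1
    refine Finset.prod_congr rfl fun r hr => ?_
    rw [F.uj_other (Finset.ne_of_mem_erase hr)]
  have hβ : ∀ b, (F.VK L j l b).β = c0 * ⟪F.c q, F.v q b⟫_ℂ * V'.β := by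
    intro b
    unfold VK
    rw [modeV_β, hV', modeV_β, ← Finset.mul_prod_erase _ _ h, F.uj_input]
    congr 1
    · show ⟪F.p q, act (kb (F.c q) (F.c q)) (F.v q b)⟫_ℂ = _
      rw [act_kb, inner_smul_right, hc0]
      ring
    · refine Finset.prod_congr rfl fun r hr => ?_
      rw [F.uj_other (Finset.ne_of_mem_erase hr)]
  have hqM : q ∉ F.trueB j \ F.MK L j l := fun hh => (Finset.mem_sdiff.mp hh).2 h
  -- the second factor does not depend on the bit
  have haK : ∀ b, F.aK L j l b = F.aK L j l false := by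
    intro b
    unfold aK
    split_ifs
    · refine Finset.prod_congr rfl fun r hr => ?_
      have : r ≠ F.q0 j := by
        rintro rfl
        exact hqM hr
      rw [F.uj_other this, F.uj_other this]
    · rfl
  set a := F.aK L j l false with ha
  have ha0 : 0 ≤ a := F.aK_nonneg L j l false
  have ha1 : a ≤ 1 := F.aK_le_one L j l false
  -- the sums
  have h1 : ‖(F.VK L j l false).α‖ ^ 2 + ‖(F.VK L j l true).α‖ ^ 2 = ‖V'.α‖ ^ 2 := by
    have h2 := F.sum_inner_sq q (F.p q)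
    rw [F.p_unit] at h2
    rw [hα, hα, norm_mul, norm_mul, mul_pow, mul_pow, ← add_mul, h2]
    simp
  set w : V2 := conj V'.α • F.p q + conj (-(2 * c0 * V'.β)) • F.c q with hw
  have hwv : ∀ b, (F.VK L j l b).α - 2 * (F.VK L j l b).β = ⟪w, F.v q b⟫_ℂ := by
    intro b
    rw [hα, hβ, hw, inner_add_left, inner_smul_left, inner_smul_left]
    simp only [Complex.conj_conj]
    ring
  have h2 : ‖(F.VK L j l false).α - 2 * (F.VK L j l false).β‖ ^ 2
      + ‖(F.VK L j l true).α - 2 * (F.VK L j l true).β‖ ^ 2 = ‖w‖ ^ 2 := by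
    rw [hwv, hwv]
    exact F.sum_inner_sq q w
  -- the norm of `w`
  have hwn : ‖w‖ ^ 2 = ‖V'.α‖ ^ 2 + C0 * (- 4 * (conj V'.α * V'.β).re + 4 * ‖V'.β‖ ^ 2) := by
    rw [hw]
    have h3 := @norm_add_sq ℂ (Vec Bool) _ _ _ (conj V'.α • F.p q)
      (conj (-(2 * c0 * V'.β)) • F.c q)
    rw [h3, norm_smul, norm_smul, F.p_unit, F.c_unit, inner_smul_left, inner_smul_right, ← hc0]
    simp only [Complex.conj_conj, RCLike.norm_conj, mul_one, norm_neg, norm_mul, Complex.norm_ofNat]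
    have h4 : V'.α * (conj (-(2 * c0 * V'.β)) * c0)
        = ((-2 * C0 : ℝ) : ℂ) * (V'.α * conj V'.β) := by
      have h5 : conj c0 * c0 = (C0 : ℂ) := conj_mul_self_C c0
      simp only [map_neg, map_mul, Complex.conj_ofNat]
      push_cast
      linear_combination (-2 * V'.α * conj V'.β) * h5
    have h6 : (RCLike.re (V'.α * (conj (-(2 * c0 * V'.β)) * c0)) : ℝ)
        = -2 * C0 * (conj V'.α * V'.β).re := by
      rw [h4]
      have h7 : (V'.α * conj V'.β).re = (conj V'.α * V'.β).re := by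
        simp only [Complex.mul_re, Complex.conj_re, Complex.conj_im]
        ring
      simp only [RCLike.re_to_complex, Complex.re_ofReal_mul, h7]
    rw [h6]
    simp only [hC0]
    ring
  -- the total
  have htotal : F.Hre L j l false + F.Hre L j l true = V'.Hval (a * C0) := by
    unfold Hre ModeV.Hval
    rw [haK true, ← ha]
    have h8 : ‖(F.VK L j l false).α‖ ^ 2 * (1 - a) + a * ‖(F.VK L j l false).α - 2 * (F.VK L j l false).β‖ ^ 2
        + (‖(F.VK L j l true).α‖ ^ 2 * (1 - a) + a * ‖(F.VK L j l true).α - 2 * (F.VK L j l true).β‖ ^ 2)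
        = (‖(F.VK L j l false).α‖ ^ 2 + ‖(F.VK L j l true).α‖ ^ 2) * (1 - a)
          + a * (‖(F.VK L j l false).α - 2 * (F.VK L j l false).β‖ ^ 2
            + ‖(F.VK L j l true).α - 2 * (F.VK L j l true).β‖ ^ 2) := by ring
    rw [h8, h1, h2, hwn, norm_sub_two_mul_sq]
    ring
  have hle := V'.Hval_le_one (a * C0) (mul_nonneg ha0 hC00) (mul_le_one₀ ha1 hC00 hC01)
  unfold hb
  rw [htotal]
  linarith

end Frame

end Vale.Agent.Lib.P368
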