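import Vale.Agent.Lib.P368.D3.FrameKB

/-! The main bound for a frame. -/

namespace Vale.Agent.Lib.P368

open Matrix Finset
open scoped Matrix.Norms.L2Operator InnerProductSpace ComplexConjugate

set_option linter.unusedSectionVars false
set_option linter.unusedSimpArgs false
set_option linter.unusedVariables false

variable {Q P H G : Type} [Fintype Q] [DecidableEq Q] [Fintype P] [DecidableEq P] [Fintype H]
  [DecidableEq H] [Fintype G] [DecidableEq G]

/-- Merging the bits of the selected and of the other inputs. -/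
def merge (S : Finset P) (x : {j // j ∈ S} → Bool) (y : {j // j ∉ S} → Bool) : P → Bool :=
  fun j => if h : j ∈ S then x ⟨j, h⟩ else y ⟨j, h⟩

lemma merge_in (S : Finset P) (x : {j // j ∈ S} → Bool) (y : {j // j ∉ S} → Bool)
    (i : {j // j ∈ S}) : merge S x y i.1 = x i := by
  simp [merge]

lemma merge_out (S : Finset P) (x : {j // j ∈ S} → Bool) (y : {j // j ∉ S} → Bool)
    (j : {j // j ∉ S}) : merge S x y j.1 = y j := by
  simp [merge, j.2]

lemma sum_merge {M : Type} [AddCommMonoid M] (S : Finset P) (f : (P → Bool) → M) :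
    ∑ z, f z = ∑ x : {j // j ∈ S} → Bool, ∑ y : {j // j ∉ S} → Bool, f (merge S x y) := by
  rw [← Fintype.sum_prod_type']
  exact (Fintype.sum_equiv (Equiv.piEquivPiSubtypeProd (fun j => j ∈ S) (fun _ => Bool)) _ _
    fun z => by
      congr 1
      funext j
      by_cases h : j ∈ S <;> simp [merge, h, Equiv.piEquivPiSubtypeProd])

lemma prod_merge (S : Finset P) (x : {j // j ∈ S} → Bool) (y : {j // j ∉ S} → Bool) (g : Bool → ℝ) :
    ∏ j, g (merge S x y j) = (∏ i, g (x i)) * ∏ j, g (y j) := by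
  rw [← Finset.prod_mul_prod_compl S, Finset.prod_subtype S (p := fun j => j ∈ S) (fun _ => Iff.rfl),
    Finset.prod_subtype Sᶜ (p := fun j => j ∉ S) (fun _ => Finset.mem_compl)]
  congr 1
  · exact Finset.prod_congr rfl fun i _ => by rw [merge_in]
  · exact Finset.prod_congr rfl fun j _ => by rw [merge_out]

lemma potW_coe (S : Finset P) (W : P → ℝ) :
    potW (fun i : {j // j ∈ S} => W i.1) Finset.univ
      = ∑ i ∈ S, ∑ i' ∈ S, if i' ≠ i then W i * W i' else 0 := by
  unfold potW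
  rw [← Finset.sum_coe_sort S]
  refine Finset.sum_congr rfl fun i _ => ?_
  rw [← Finset.sum_coe_sort S]
  refine Finset.sum_congr rfl fun j _ => ?_
  simp only [ne_eq, Subtype.ext_iff]

namespace Frame

variable (F : Frame Q P H G) (a0 : ℝ)

/-- The second gate layer. -/
noncomputable def T2 : Op Q := Ty F.gt F.πq (fun _ => 1) (Finset.univ : Finset G).toList

/-- The projector of the last layers in the frame. -/
noncomputable def hatL (L : LastP Q) : Op Q := F.T2 * tp L.Eq * F.T2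

lemma hat_eq (L : LastP Q) (S : Finset P) :
    (F.core a0 L S).full.hat (fun _ => true) = F.hatL L := rfl

lemma inner_Kx (L : LastP Q) (S : Finset P) (x : {j // j ∈ S} → Bool) (y : {j // j ∉ S} → Bool) :
    ⟪act (F.Tkept a0 S) (pv (F.uz (merge S x y))),
        act (F.hatL L) (act (F.Tkept a0 S) (pv (F.uz (merge S x y))))⟫_ℂ
      = ⟪act ((F.core a0 L S).Kx x) (F.Ωz a0 S (merge S (fun _ => false) y)),
          act ((F.core a0 L S).full.hat fun _ => true)
            (act ((F.core a0 L S).Kx x) (F.Ωz a0 S (merge S (fun _ => false) y)))⟫_ℂ := by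
  have h1 : F.Ωz a0 S (merge S (fun _ => false) y) = F.Ωz a0 S (merge S x y) := by
    refine F.Ωz_congr a0 S fun j hj => ?_
    simp [merge, hj]
  rw [h1, F.Kx_Ωz a0 L S x (merge S x y) (merge_in S x y)]
  rfl

/-- The sum over the bits of the other inputs of the weight of a gate. -/
lemma sum_Pml_le (L : LastP Q) (S : Finset P) (l : G) :
    (F.core a0 L S).sys.Cl l * ∑ y : {j // j ∉ S} → Bool,
        ‖act ((F.core a0 L S).Pml l) (F.Ωz a0 S (merge S (fun _ => false) y))‖ ^ 2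
      ≤ (Fintype.card ({j // j ∉ S} → Bool) : ℝ) * ∏ j ∈ Sᶜ, F.ϖ L j l := by
  have hC0 := (F.core a0 L S).sys.Cl_nonneg l
  have h1 : ∑ y : {j // j ∉ S} → Bool,
        ‖act ((F.core a0 L S).Pml l) (F.Ωz a0 S (merge S (fun _ => false) y))‖ ^ 2
      ≤ ∑ y : {j // j ∉ S} → Bool, ∏ j : {j // j ∉ S}, F.Hre L j.1 l (y j) := by
    refine Finset.sum_le_sum fun y _ => ?_
    refine (F.Pml_le_prod a0 L S _ l).trans (le_of_eq ?_)
    rw [Finset.prod_subtype Sᶜ (p := fun j => j ∉ S) (fun x => Finset.mem_compl)]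
    refine Finset.prod_congr rfl fun j _ => ?_
    rw [merge_out]
  have h2 : ∑ y : {j // j ∉ S} → Bool, ∏ j : {j // j ∉ S}, F.Hre L j.1 l (y j)
      = (Fintype.card ({j // j ∉ S} → Bool) : ℝ) * ∏ j ∈ Sᶜ, F.hb L j l := by
    have h3 := (Finset.prod_univ_sum (fun _ : {j // j ∉ S} => (Finset.univ : Finset Bool))
      (fun j b => F.Hre L j.1 l b))
    rw [Fintype.piFinset_univ] at h3
    rw [← h3, Finset.prod_subtype Sᶜ (p := fun j => j ∉ S) (fun x => Finset.mem_compl)]
    have h4 : (Fintype.card ({j // j ∉ S} → Bool) : ℝ) = ∏ _j : {j // j ∉ S}, (2 : ℝ) := by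
      rw [Fintype.card_fun, Fintype.card_bool, Finset.prod_const, Finset.card_univ]
      push_cast
      rfl
    rw [h4, ← Finset.prod_mul_distrib]
    refine Finset.prod_congr rfl fun j _ => ?_
    rw [Fintype.sum_bool]
    unfold hb
    ring
  have h5 := F.Cl_le_prod a0 L S l
  have hcard : (0 : ℝ) ≤ (Fintype.card ({j // j ∉ S} → Bool) : ℝ) := Nat.cast_nonneg _
  have hh0 : 0 ≤ ∏ j ∈ Sᶜ, F.hb L j l := Finset.prod_nonneg fun j _ => F.hb_nonneg L j l
  calc _ ≤ (F.core a0 L S).sys.Cl l * ((Fintype.card ({j // j ∉ S} → Bool) : ℝ)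
        * ∏ j ∈ Sᶜ, F.hb L j l) := by
        refine mul_le_mul_of_nonneg_left ?_ hC0
        rw [← h2]
        exact h1
    _ ≤ (∏ j ∈ Sᶜ, F.σb L j l) * ((Fintype.card ({j // j ∉ S} → Bool) : ℝ)
        * ∏ j ∈ Sᶜ, F.hb L j l) := by
        refine mul_le_mul_of_nonneg_right h5 (by positivity)
    _ = _ := by
        unfold ϖ
        rw [Finset.prod_mul_distrib]
        ring

/-- The bound for one term of the observable and one choice of the other inputs. -/
lemma bound_one (ha0 : 0 < a0) (ha1 : a0 ≤ 1) (L : LastP Q) (S : Finset P)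
    (y : {j // j ∉ S} → Bool) :
    ‖∑ x : {j // j ∈ S} → Bool, ((∏ i, sgnOf (x i) : ℝ) : ℂ)
        * ⟪act (F.Tkept a0 S) (pv (F.uz (merge S x y))),
          act (F.hatL L) (act (F.Tkept a0 S) (pv (F.uz (merge S x y))))⟫_ℂ‖
      ≤ 2 ^ Fintype.card {j // j ∈ S} * (Real.sqrt (2 * (3 / 4 : ℝ) ^ Fintype.card {j // j ∈ S})
        + 6 * nearConst 81 (Fintype.card {j // j ∈ S}) / (3 / 4 : ℝ) ^ Fintype.card {j // j ∈ S}
          * (16 ^ 2 * 256)
          * ∑ l, (F.core a0 L S).sys.Cl l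
            * ‖act ((F.core a0 L S).Pml l) (F.Ωz a0 S (merge S (fun _ => false) y))‖ ^ 2
            * potW (fun i => F.Wb a0 L S i l) Finset.univ) := by
  simp only [F.inner_Kx a0 L S]
  have h := F.frame_core a0 L S ha0 ha1 (F.Ωz a0 S (merge S (fun _ => false) y)) (F.Pref_Ωz a0 L S _)
  rw [F.norm_Ωz, one_pow, mul_one] at h
  exact h

/-- The bound for one term of the observable, summed over the other inputs. -/
lemma bound_sum (ha0 : 0 < a0) (ha1 : a0 ≤ 1) (L : LastP Q) (S : Finset P) :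
    ∑ y : {j // j ∉ S} → Bool,
      ‖∑ x : {j // j ∈ S} → Bool, ((∏ i, sgnOf (x i) : ℝ) : ℂ)
        * ⟪act (F.Tkept a0 S) (pv (F.uz (merge S x y))),
          act (F.hatL L) (act (F.Tkept a0 S) (pv (F.uz (merge S x y))))⟫_ℂ‖
      ≤ 2 ^ Fintype.card {j // j ∈ S} * ((Fintype.card ({j // j ∉ S} → Bool) : ℝ) *
        (Real.sqrt (2 * (3 / 4 : ℝ) ^ Fintype.card {j // j ∈ S})
        + 6 * nearConst 81 (Fintype.card {j // j ∈ S}) / (3 / 4 : ℝ) ^ Fintype.card {j // j ∈ S}
          * (16 ^ 2 * 256)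
          * ∑ l, (∏ j ∈ Sᶜ, F.ϖ L j l) * potW (fun i => F.Wb a0 L S i l) Finset.univ)) := by
  set m := Fintype.card {j // j ∈ S}
  set A := 6 * nearConst 81 m / (3 / 4 : ℝ) ^ m * (16 ^ 2 * 256) with hA
  set r := Real.sqrt (2 * (3 / 4 : ℝ) ^ m) with hr
  set B := (Fintype.card ({j // j ∉ S} → Bool) : ℝ) with hB
  have hA0 : 0 ≤ A := by
    have := nearConst_nonneg (show (0 : ℝ) ≤ 81 by norm_num) m
    rw [hA]
    positivity
  have h0 : ∀ y : {j // j ∉ S} → Bool, ‖∑ x : {j // j ∈ S} → Bool, ((∏ i, sgnOf (x i) : ℝ) : ℂ)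
        * ⟪act (F.Tkept a0 S) (pv (F.uz (merge S x y))),
          act (F.hatL L) (act (F.Tkept a0 S) (pv (F.uz (merge S x y))))⟫_ℂ‖
      ≤ 2 ^ m * (r + A * ∑ l, (F.core a0 L S).sys.Cl l
            * ‖act ((F.core a0 L S).Pml l) (F.Ωz a0 S (merge S (fun _ => false) y))‖ ^ 2
            * potW (fun i => F.Wb a0 L S i l) Finset.univ) :=
    fun y => F.bound_one a0 ha0 ha1 L S y
  refine (Finset.sum_le_sum fun y _ => h0 y).trans ?_
  rw [← Finset.mul_sum]
  refine mul_le_mul_of_nonneg_left ?_ (by positivity)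
  rw [Finset.sum_add_distrib, Finset.sum_const, Finset.card_univ, nsmul_eq_mul, ← Finset.mul_sum,
    mul_add]
  refine add_le_add le_rfl ?_
  rw [mul_left_comm]
  refine mul_le_mul_of_nonneg_left ?_ hA0
  rw [Finset.sum_comm, Finset.mul_sum]
  refine Finset.sum_le_sum fun l _ => ?_
  have h1 := F.sum_Pml_le a0 L S l
  have hW : 0 ≤ potW (fun i => F.Wb a0 L S i l) Finset.univ :=
    potW_nonneg _ (fun i => F.Wb_nonneg a0 L S ha0 i l) _
  calc _ = ((F.core a0 L S).sys.Cl l * ∑ y : {j // j ∉ S} → Bool,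
        ‖act ((F.core a0 L S).Pml l) (F.Ωz a0 S (merge S (fun _ => false) y))‖ ^ 2)
        * potW (fun i => F.Wb a0 L S i l) Finset.univ := by
        rw [Finset.mul_sum, Finset.sum_mul]
    _ ≤ (B * ∏ j ∈ Sᶜ, F.ϖ L j l) * potW (fun i => F.Wb a0 L S i l) Finset.univ :=
        mul_le_mul_of_nonneg_right h1 hW
    _ = _ := by ring

/-- **The main bound for a frame.** -/
theorem frame_main {R : Type} [Fintype R] (ha0 : 0 < a0) (ha1 : a0 ≤ 1) (L : R → LastP Q)
    (c : R → ℝ) (hc : ∀ r, |c r| ≤ 1) (c0 : ℝ) (hc0 : |c0| ≤ 1) (m : ℕ) (δ : ℝ) (hδ : 0 < δ) (d : ℕ)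
    (hd : 2 * (Fintype.card R * (41 / a0) ^ 2 * (1 / a0 + 1) + 1) / δ ≤ d)
    (hm : 2 * (m * (d + 1)) ≤ Fintype.card P) (κ : ℝ)
    (hκ : ∀ S : Finset P, S.card = m → ∀ z : P → Bool,
      κ ≤ c0 * (∏ j, sgnOf (z j)) * ∑ r, c r
        * (⟪act (F.Tkept a0 S) (pv (F.uz z)),
            act (F.hatL (L r)) (act (F.Tkept a0 S) (pv (F.uz z)))⟫_ℂ).re) :
    κ ≤ Fintype.card R * Real.sqrt (2 * (3 / 4 : ℝ) ^ m)
      + 6 * nearConst 81 m / (3 / 4 : ℝ) ^ m * (16 ^ 2 * 256) * ((m + 1) * m ^ 2 * δ) := by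
  -- the selection
  have hM : ∀ (r : R) (j : P), ∑ l, F.mT a0 (L r) j l ≤ 1 / a0 + 1 :=
    fun r j => F.sum_mT_le a0 (L r) ha0 j
  obtain ⟨S, hS, hsel⟩ := selection (fun r j l => F.ϖ (L r) j l) (fun r j l => F.mT a0 (L r) j l)
    (fun r j l => F.ϖ_nonneg _ j l) (fun r j l => F.ϖ_le_one _ j l)
    (fun r j l => F.mT_nonneg a0 _ j l) (1 / a0 + 1) (by positivity) hM (41 / a0) (by positivity)
    m δ hδ d hd hm
  have hcardS : Fintype.card {j // j ∈ S} = m := by
    rw [Fintype.card_coe, hS]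
  set A := 6 * nearConst 81 m / (3 / 4 : ℝ) ^ m * (16 ^ 2 * 256) with hA
  set r0 := Real.sqrt (2 * (3 / 4 : ℝ) ^ m) with hr0
  have hA0 : 0 ≤ A := by
    have := nearConst_nonneg (show (0 : ℝ) ≤ 81 by norm_num) m
    rw [hA]
    positivity
  set nx : ℝ := (Fintype.card ({j // j ∈ S} → Bool) : ℝ) with hnx
  set ny : ℝ := (Fintype.card ({j // j ∉ S} → Bool) : ℝ) with hny
  have hnx2 : nx = 2 ^ m := by
    rw [hnx, Fintype.card_fun, Fintype.card_bool, hcardS]
    push_cast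
    rfl
  have hnx0 : 0 < nx := by rw [hnx2]; positivity
  have hny0 : 0 < ny := by
    rw [hny]
    exact_mod_cast Fintype.card_pos
  -- the terms of the observable
  set G' : R → ({j // j ∉ S} → Bool) → ℂ := fun r y =>
    ∑ x : {j // j ∈ S} → Bool, ((∏ i, sgnOf (x i) : ℝ) : ℂ)
        * ⟪act (F.Tkept a0 S) (pv (F.uz (merge S x y))),
          act (F.hatL (L r)) (act (F.Tkept a0 S) (pv (F.uz (merge S x y))))⟫_ℂ with hG'
  -- the lower bound
  have h1 : nx * ny * κ ≤ ∑ y, ∑ r, ‖G' r y‖ := by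
    have h2 : nx * ny * κ = ∑ x : {j // j ∈ S} → Bool, ∑ y : {j // j ∉ S} → Bool, κ := by
      simp only [Finset.sum_const, Finset.card_univ, nsmul_eq_mul, hnx, hny]
      push_cast
      ring
    rw [h2, Finset.sum_comm]
    refine (Finset.sum_le_sum fun y _ => Finset.sum_le_sum fun x _ =>
      hκ S hS (merge S x y)).trans ?_
    refine Finset.sum_le_sum fun y _ => ?_
    -- the sum over the selected inputs
    have h3 : ∑ x : {j // j ∈ S} → Bool, c0 * (∏ j, sgnOf (merge S x y j)) * ∑ r, c r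
        * (⟪act (F.Tkept a0 S) (pv (F.uz (merge S x y))),
            act (F.hatL (L r)) (act (F.Tkept a0 S) (pv (F.uz (merge S x y))))⟫_ℂ).re
        = c0 * (∏ j, sgnOf (y j)) * ∑ r, c r * (G' r y).re := by
      simp only [hG', Complex.re_sum]
      simp_rw [Finset.mul_sum]
      rw [Finset.sum_comm]
      refine Finset.sum_congr rfl fun r _ => Finset.sum_congr rfl fun x _ => ?_
      rw [prod_merge S x y sgnOf, Complex.re_ofReal_mul]
      ring
    rw [h3]
    have hy : |c0 * ∏ j, sgnOf (y j)| ≤ 1 := by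
      rw [abs_mul, Finset.abs_prod]
      simp only [abs_sgnOf, Finset.prod_const_one, mul_one]
      exact hc0
    calc _ ≤ |c0 * (∏ j, sgnOf (y j)) * ∑ r, c r * (G' r y).re| := le_abs_self _
      _ = |c0 * ∏ j, sgnOf (y j)| * |∑ r, c r * (G' r y).re| := abs_mul _ _
      _ ≤ 1 * |∑ r, c r * (G' r y).re| := by gcongr
      _ = |∑ r, c r * (G' r y).re| := one_mul _
      _ ≤ ∑ r, |c r * (G' r y).re| := Finset.abs_sum_le_sum_abs _ _
      _ ≤ _ := by
          refine Finset.sum_le_sum fun r _ => ?_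
          rw [abs_mul]
          calc _ ≤ 1 * |(G' r y).re| := by gcongr; exact hc r
            _ ≤ _ := by rw [one_mul]; exact Complex.abs_re_le_norm _
  -- the upper bound
  have h4 : ∑ y, ∑ r, ‖G' r y‖ ≤ ∑ r, nx * (ny * (r0 + 6 * nearConst 81 m / (3 / 4 : ℝ) ^ m
      * (16 ^ 2 * 256) * ∑ l, (∏ j ∈ Sᶜ, F.ϖ (L r) j l)
        * potW (fun i => F.Wb a0 (L r) S i l) Finset.univ)) := by
    rw [Finset.sum_comm]
    refine Finset.sum_le_sum fun r _ => ?_
    have h5 := F.bound_sum a0 ha0 ha1 (L r) S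
    rw [hcardS] at h5
    rw [hnx2]
    exact h5
  -- the total of the potentials
  have h6 : ∑ r, ∑ l, (∏ j ∈ Sᶜ, F.ϖ (L r) j l) * potW (fun i => F.Wb a0 (L r) S i l) Finset.univ
      ≤ (m + 1) * m ^ 2 * δ := by
    refine le_of_eq_of_le ?_ hsel
    refine Finset.sum_congr rfl fun r _ => Finset.sum_congr rfl fun l _ => ?_
    congr 1
    exact potW_coe S (fun i => (41 / a0) * Real.sqrt ((1 - F.ϖ (L r) i l) * F.mT a0 (L r) i l))
  -- conclusion
  have h7 : nx * ny * κ ≤ nx * ny * (Fintype.card R * r0 + A * ((m + 1) * m ^ 2 * δ)) := by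
    refine (h1.trans h4).trans ?_
    have h8 : ∑ r : R, nx * (ny * (r0 + 6 * nearConst 81 m / (3 / 4 : ℝ) ^ m
      * (16 ^ 2 * 256) * ∑ l, (∏ j ∈ Sᶜ, F.ϖ (L r) j l)
        * potW (fun i => F.Wb a0 (L r) S i l) Finset.univ))
        = nx * ny * (Fintype.card R * r0 + A * ∑ r, ∑ l, (∏ j ∈ Sᶜ, F.ϖ (L r) j l)
            * potW (fun i => F.Wb a0 (L r) S i l) Finset.univ) := by
      simp only [← hA]
      rw [← Finset.mul_sum, ← Finset.mul_sum, Finset.sum_add_distrib, Finset.sum_const,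
        Finset.card_univ, nsmul_eq_mul, ← Finset.mul_sum]
      ring
    rw [h8]
    refine mul_le_mul_of_nonneg_left ?_ (by positivity)
    refine add_le_add le_rfl (mul_le_mul_of_nonneg_left h6 hA0)
  exact le_of_mul_le_mul_left h7 (by positivity)

end Frame

end Vale.Agent.Lib.P368
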