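import Vale.Agent.Lib.P368.D3.FrameMode

/-! The minors of a selected block at a gate of the second layer. -/

namespace Vale.Agent.Lib.P368

open Matrix Finset
open scoped Matrix.Norms.L2Operator InnerProductSpace ComplexConjugate

set_option linter.unusedSectionVars false
set_option linter.unusedSimpArgs false
set_option linter.unusedVariables false

variable {Q P H G : Type} [Fintype Q] [DecidableEq Q] [Fintype P] [DecidableEq P] [Fintype H]
  [DecidableEq H] [Fintype G] [DecidableEq G]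

lemma PV_congr {M : Finset Q} {f g : Q → V2} (h : ∀ q ∈ M, f q = g q) : PV M f = PV M g := by
  unfold PV
  congr 1
  funext q
  split_ifs with hq
  · exact h q hq
  · rfl

lemma norm_Oj_gen {π E : Q → M2} (hπ : ∀ q, IsStarProjection (π q))
    (hE : ∀ q, IsStarProjection (E q)) (j : J) (q : Q) : ‖Oj π E j q‖ ≤ 1 := by
  unfold Oj
  have hp : ∀ b, ‖pw b (π q)‖ ≤ 1 := by
    intro b
    cases b
    · exact norm_proj_le (IsStarProjection.one _)
    · exact norm_proj_le (hπ q)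
  have h3 := norm_proj_le (hE q)
  calc _ ≤ ‖pw j.1 (π q) * E q‖ * ‖pw j.2 (π q)‖ := norm_mul_le _ _
    _ ≤ (‖pw j.1 (π q)‖ * ‖E q‖) * ‖pw j.2 (π q)‖ := by
        gcongr; exact norm_mul_le _ _
    _ ≤ (1 * 1) * 1 := by
        gcongr
        · exact hp _
        · exact hp _
    _ = 1 := by norm_num

/-- Half of a configuration: a bit and two branch labels. -/
abbrev HC := Bool × Bool × Bool

namespace Frame

variable (F : Frame Q P H G) (a0 : ℝ) (L : LastP Q)

/-- The qubits of a selected block at a gate. -/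
noncomputable def MM (j : P) (l : G) : Finset Q := (F.selB a0 j).filter fun q => F.gt q = some l

/-- The part of a mode with trivial last projector. -/
noncomputable def MN (j : P) (l : G) : Finset Q := (F.MM a0 j l).filter fun q => L.sS q = false

/-- The part of a mode with rank-one last projector. -/
noncomputable def MS (j : P) (l : G) : Finset Q := (F.MM a0 j l).filter fun q => L.sS q = true

/-- The function of a qubit of a selected block. -/
noncomputable def τq (j : P) (q : Q) (a : HC) (σ : J) : ℂ :=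
  sc (F.ξj a0 j q a.1 a.2.1) (Oj F.πq L.Eq σ q) (F.ξj a0 j q a.1 a.2.2)

/-- The function of a set of qubits of a selected block. -/
noncomputable def τM (j : P) (M : Finset Q) (a : HC) (σ : J) : ℂ := ∏ q ∈ M, F.τq a0 L j q a σ

lemma norm_τq_le (j : P) (q : Q) (a : HC) (σ : J) : ‖F.τq a0 L j q a σ‖ ≤ 1 :=
  norm_sc_le (F.norm_ξj_le a0 j q _ _) (F.norm_ξj_le a0 j q _ _)
    (norm_Oj_gen F.πq_proj L.Eq_proj σ q)

lemma norm_τM_le (j : P) (M : Finset Q) (a : HC) (σ : J) : ‖F.τM a0 L j M a σ‖ ≤ 1 := by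
  unfold τM
  rw [norm_prod]
  exact Finset.prod_le_one (fun _ _ => norm_nonneg _) fun q _ => F.norm_τq_le a0 L j q a σ

lemma τM_split (j : P) (l : G) (a : HC) (σ : J) :
    F.τM a0 L j (F.MM a0 j l) a σ
      = F.τM a0 L j (F.MN a0 L j l) a σ * F.τM a0 L j (F.MS a0 L j l) a σ := by
  unfold τM MN MS
  rw [← Finset.prod_filter_mul_prod_filter_not (F.MM a0 j l) (fun q => L.sS q = false)]
  congr 1
  refine Finset.prod_congr ?_ fun _ _ => rfl
  ext q
  simp

/-- The mode of a block with trivial last projector. -/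
noncomputable def VN (j : P) (l : G) : ModeV (Vec (Q → Bool)) :=
  modeV (F.MN a0 L j l) F.u (F.ptj a0 j) F.p F.norm_u (F.ptj_proj a0 j) F.p_unit

/-- The mode of a block with rank-one last projector. -/
noncomputable def VS (j : P) (l : G) : ModeV (Vec (Q → Bool)) :=
  modeV (F.MS a0 L j l) F.u (F.ptj a0 j) F.p F.norm_u (F.ptj_proj a0 j) F.p_unit

lemma MM_subset (j : P) (l : G) : F.MM a0 j l ⊆ F.trueB j :=
  (Finset.filter_subset _ _).trans (F.selB_subset a0 j)

lemma MN_subset (j : P) (l : G) : F.MN a0 L j l ⊆ F.MM a0 j l := Finset.filter_subset _ _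
lemma MS_subset (j : P) (l : G) : F.MS a0 L j l ⊆ F.MM a0 j l := Finset.filter_subset _ _

lemma ξj_other {j : P} {q : Q} (h1 : q ∈ F.trueB j) (h2 : q ≠ F.q0 j) (x b : Bool) :
    F.ξj a0 j q x b = if b then act (F.ptj a0 j q) (F.u q) else F.u q := by
  unfold ξj
  rw [F.ξ0_other h1 h2]

/-- The value of the function of a mode with trivial last projector. -/
lemma τM_N_pv (j : P) (l : G) (a : HC) (σ : J) :
    F.τM a0 L j (F.MN a0 L j l) a σ
      = if σ = (false, false) then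
          ⟪PV (F.MN a0 L j l) (fun q => F.ξj a0 j q a.1 a.2.1),
            PV (F.MN a0 L j l) (fun q => F.ξj a0 j q a.1 a.2.2)⟫_ℂ
        else ⟪PV (F.MN a0 L j l) (fun q => F.ξj a0 j q a.1 a.2.1), PV (F.MN a0 L j l) F.p⟫_ℂ
          * ⟪PV (F.MN a0 L j l) F.p, PV (F.MN a0 L j l) (fun q => F.ξj a0 j q a.1 a.2.2)⟫_ℂ := by
  have h1 : ∀ q ∈ F.MN a0 L j l, F.τq a0 L j q a σ
      = if σ = (false, false) then ⟪F.ξj a0 j q a.1 a.2.1, F.ξj a0 j q a.1 a.2.2⟫_ℂ
        else ⟪F.ξj a0 j q a.1 a.2.1, F.p q⟫_ℂ * ⟪F.p q, F.ξj a0 j q a.1 a.2.2⟫_ℂ := by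
    intro q hq
    have hS : L.sS q = false := (Finset.mem_filter.mp hq).2
    have hE : L.Eq q = 1 := by simp [LastP.Eq, hS]
    unfold τq Oj
    rw [hE]
    exact sc_N _ _ _ (F.p_unit q) σ
  unfold τM
  rw [Finset.prod_congr rfl h1]
  split_ifs
  · rw [inner_PV]
  · rw [inner_PV, inner_PV, Finset.prod_mul_distrib]

/-- The value of the function of a mode with trivial last projector without input. -/
lemma τM_N_eq (j : P) (l : G) (h : F.q0 j ∉ F.MN a0 L j l) (a : HC) (σ : J) :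
    F.τM a0 L j (F.MN a0 L j l) a σ = τN (F.VN a0 L j l) (a.2.1, a.2.2) σ := by
  rw [τM_N_pv]
  unfold τN
  simp only [VN, modeV_ξ, modeV_p]
  have hv : ∀ x b, PV (F.MN a0 L j l) (fun q => F.ξj a0 j q x b)
      = PV (F.MN a0 L j l) fun q => if b then act (F.ptj a0 j q) (F.u q) else F.u q := by
    intro x b
    refine PV_congr fun q hq => ?_
    refine F.ξj_other a0 (F.MM_subset a0 j l (F.MN_subset a0 L j l hq)) ?_ x b
    rintro rfl
    exact h hq
  simp only [hv]

/-- The overlap of the directions of a mode with rank-one last projector. -/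
noncomputable def CS (j : P) (l : G) : ℝ := ∏ q ∈ F.MS a0 L j l, Cq (L.s q) (F.p q)

lemma CS_eq (j : P) (l : G) :
    ‖⟪PV (F.MS a0 L j l) L.s, PV (F.MS a0 L j l) F.p⟫_ℂ‖ ^ 2 = F.CS a0 L j l := by
  rw [inner_PV, norm_prod, ← Finset.prod_pow]
  rfl

/-- The value of the function of a mode with rank-one last projector. -/
lemma τM_S_eq (j : P) (l : G) (a : HC) (σ : J) :
    F.τM a0 L j (F.MS a0 L j l) a σ
      = τS (PV (F.MS a0 L j l) L.s) (PV (F.MS a0 L j l) F.p)
          (PV (F.MS a0 L j l) (fun q => F.ξj a0 j q a.1 a.2.1))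
          (PV (F.MS a0 L j l) (fun q => F.ξj a0 j q a.1 a.2.2)) σ := by
  have h1 : ∀ q ∈ F.MS a0 L j l, F.τq a0 L j q a σ
      = conj (uS (F.p q) (L.s q) σ.1 (F.ξj a0 j q a.1 a.2.1))
        * uS (F.p q) (L.s q) σ.2 (F.ξj a0 j q a.1 a.2.2) := by
    intro q hq
    have hS : L.sS q = true := (Finset.mem_filter.mp hq).2
    have hE : L.Eq q = kb (L.s q) (L.s q) := by simp [LastP.Eq, hS]
    unfold τq Oj
    rw [hE]
    exact sc_S _ _ _ _ σ
  have h2 : ∀ (b : Bool) (f : Q → V2), ∏ q ∈ F.MS a0 L j l, uS (F.p q) (L.s q) b (f q)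
      = US (PV (F.MS a0 L j l) L.s) (PV (F.MS a0 L j l) F.p) b (PV (F.MS a0 L j l) f) := by
    intro b f
    unfold US uS
    cases b
    · simp only [Bool.false_eq_true, if_false]
      rw [inner_PV]
    · simp only [if_true]
      rw [inner_PV, inner_PV, Finset.prod_mul_distrib]
  unfold τM
  rw [Finset.prod_congr rfl h1, Finset.prod_mul_distrib, ← map_prod, h2, h2]
  rfl

/-- The bound for the part with trivial last projector. -/
noncomputable def dN (j : P) (l : G) : ℝ :=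
  if F.q0 j ∈ F.MN a0 L j l then 2 else 3 * (F.VN a0 L j l).X

/-- The bound for the difference of the vectors of the part with rank-one last projector. -/
noncomputable def δS (j : P) (l : G) : ℝ :=
  if F.q0 j ∈ F.MS a0 L j l then 2 else Real.sqrt (F.VS a0 L j l).m

lemma dN_nonneg (j : P) (l : G) : 0 ≤ F.dN a0 L j l := by
  unfold dN
  split_ifs
  · norm_num
  · have := (F.VN a0 L j l).X_nonneg
    positivity

lemma δS_nonneg (j : P) (l : G) : 0 ≤ F.δS a0 L j l := by
  unfold δS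
  split_ifs
  · norm_num
  · positivity

lemma minor_MN (j : P) (l : G) (a a' : HC) (σ σ' : J) :
    ‖F.τM a0 L j (F.MN a0 L j l) a σ * F.τM a0 L j (F.MN a0 L j l) a' σ'
        - F.τM a0 L j (F.MN a0 L j l) a' σ * F.τM a0 L j (F.MN a0 L j l) a σ'‖
      ≤ F.dN a0 L j l := by
  unfold dN
  split_ifs with h
  · have h1 := F.norm_τM_le a0 L j (F.MN a0 L j l) a σ
    have h2 := F.norm_τM_le a0 L j (F.MN a0 L j l) a' σ'
    have h3 := F.norm_τM_le a0 L j (F.MN a0 L j l) a' σ
    have h4 := F.norm_τM_le a0 L j (F.MN a0 L j l) a σ'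
    refine (norm_sub_le _ _).trans ?_
    rw [norm_mul, norm_mul]
    calc _ ≤ (1 : ℝ) * 1 + 1 * 1 := by gcongr
      _ = 2 := by norm_num
  · rw [F.τM_N_eq a0 L j l h, F.τM_N_eq a0 L j l h, F.τM_N_eq a0 L j l h, F.τM_N_eq a0 L j l h]
    exact minor_τN _ _ _ _ _

lemma minor_MS (j : P) (l : G) (a a' : HC) (σ σ' : J) :
    ‖F.τM a0 L j (F.MS a0 L j l) a σ * F.τM a0 L j (F.MS a0 L j l) a' σ'
        - F.τM a0 L j (F.MS a0 L j l) a' σ * F.τM a0 L j (F.MS a0 L j l) a σ'‖
      ≤ 4 * Real.sqrt (1 - F.CS a0 L j l) * F.δS a0 L j l := by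
  simp only [τM_S_eq]
  rw [← F.CS_eq]
  have hle : ∀ x b, ‖PV (F.MS a0 L j l) (fun q => F.ξj a0 j q x b)‖ ≤ 1 := fun x b =>
    norm_PV_le _ fun q _ => F.norm_ξj_le a0 j q x b
  have hδ : ∀ x b x' b', ‖PV (F.MS a0 L j l) (fun q => F.ξj a0 j q x' b')
      - PV (F.MS a0 L j l) (fun q => F.ξj a0 j q x b)‖ ≤ F.δS a0 L j l := by
    intro x b x' b'
    unfold δS
    split_ifs with h
    · refine (norm_sub_le _ _).trans ?_
      have h1 := hle x b
      have h2 := hle x' b'
      linarith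
    · have hv : ∀ x b, PV (F.MS a0 L j l) (fun q => F.ξj a0 j q x b) = (F.VS a0 L j l).ξ b := by
        intro x b
        simp only [VS, modeV_ξ]
        refine PV_congr fun q hq => ?_
        refine F.ξj_other a0 (F.MM_subset a0 j l (F.MS_subset a0 L j l hq)) ?_ x b
        rintro rfl
        exact h hq
      rw [hv, hv]
      exact ModeV.ξ_sub_le _ _ _
  exact minor_τS (norm_PV_one _ fun q _ => L.s_unit q) (norm_PV_one _ fun q _ => F.p_unit q) _ _ _ _
    (hle _ _) (hle _ _) (hle _ _) (hle _ _) _ (hδ _ _ _ _) (hδ _ _ _ _) σ σ'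

/-- The minor of a selected block at a gate. -/
theorem minor_block (j : P) (l : G) (a a' : HC) (σ σ' : J) :
    ‖F.τM a0 L j (F.MM a0 j l) a σ * F.τM a0 L j (F.MM a0 j l) a' σ'
        - F.τM a0 L j (F.MM a0 j l) a' σ * F.τM a0 L j (F.MM a0 j l) a σ'‖
      ≤ F.dN a0 L j l + 4 * Real.sqrt (1 - F.CS a0 L j l) * F.δS a0 L j l := by
  simp only [τM_split]
  exact minor_mul _ _ (fun a σ => F.norm_τM_le a0 L j _ a σ) (fun a σ => F.norm_τM_le a0 L j _ a σ)
    _ _ (F.minor_MN a0 L j l) (F.minor_MS a0 L j l) a a' σ σ'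

/-- The function of a configuration on a selected block at a gate. -/
noncomputable def tB (j : P) (l : G) (cc : Cfg) (σ : J × J) : ℂ :=
  ∏ q ∈ F.MM a0 j l, (F.τq a0 L j q (cc.1, cc.2.2.1, cc.2.2.2.1) σ.1
    * conj (F.τq a0 L j q (cc.2.1, cc.2.2.2.2.1, cc.2.2.2.2.2) σ.2))

lemma tB_eq (j : P) (l : G) (cc : Cfg) (σ : J × J) :
    F.tB a0 L j l cc σ = F.τM a0 L j (F.MM a0 j l) (cc.1, cc.2.2.1, cc.2.2.2.1) σ.1
      * conj (F.τM a0 L j (F.MM a0 j l) (cc.2.1, cc.2.2.2.2.1, cc.2.2.2.2.2) σ.2) := by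
  unfold tB τM
  rw [Finset.prod_mul_distrib, map_prod]

/-- **The minor of the function of a configuration.** -/
theorem minor_tB (j : P) (l : G) (cc cc' : Cfg) (σ σ' : J × J) :
    ‖F.tB a0 L j l cc σ * F.tB a0 L j l cc' σ' - F.tB a0 L j l cc' σ * F.tB a0 L j l cc σ'‖
      ≤ 2 * (F.dN a0 L j l + 4 * Real.sqrt (1 - F.CS a0 L j l) * F.δS a0 L j l) := by
  simp only [tB_eq]
  exact minor_conj (fun a σ => F.τM a0 L j (F.MM a0 j l) a σ)
    (fun a σ => F.norm_τM_le a0 L j _ a σ) _ (F.minor_block a0 L j l) _ _ _ _ _ _ _ _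

end Frame

end Vale.Agent.Lib.P368
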