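import Vale.Agent.Lib.P368.D3.Frame

/-! Modes: product vectors on a subset of the qubits, and the minors of a block at a gate. -/

namespace Vale.Agent.Lib.P368

open Matrix Finset
open scoped Matrix.Norms.L2Operator InnerProductSpace ComplexConjugate

set_option linter.unusedSectionVars false
set_option linter.unusedSimpArgs false
set_option linter.unusedVariables false

variable {Q P H G : Type} [Fintype Q] [DecidableEq Q] [Fintype P] [DecidableEq P] [Fintype H]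
  [DecidableEq H] [Fintype G] [DecidableEq G]

/-- The product vector with the factors `f q` on `M` and a fixed vector elsewhere. -/
noncomputable def PV (M : Finset Q) (f : Q → V2) : Vec (Q → Bool) :=
  pv fun q => if q ∈ M then f q else e false

lemma inner_PV (M : Finset Q) (f g : Q → V2) :
    ⟪PV M f, PV M g⟫_ℂ = ∏ q ∈ M, ⟪f q, g q⟫_ℂ := by
  unfold PV
  rw [inner_pv]
  have h : ∀ q, ⟪(if q ∈ M then f q else e false : V2), (if q ∈ M then g q else e false : V2)⟫_ℂ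
      = if q ∈ M then ⟪f q, g q⟫_ℂ else 1 := by
    intro q
    split_ifs
    · rfl
    · rw [inner_self_eq_norm_sq_to_K, norm_e]
      simp
  simp_rw [h]
  rw [Finset.prod_ite_mem, Finset.univ_inter]

lemma norm_PV_sq (M : Finset Q) (f : Q → V2) : ‖PV M f‖ ^ 2 = ∏ q ∈ M, ‖f q‖ ^ 2 := by
  unfold PV
  rw [norm_pv_sq]
  have h : ∀ q, ‖(if q ∈ M then f q else e false : V2)‖ ^ 2 = if q ∈ M then ‖f q‖ ^ 2 else 1 := by
    intro q
    split_ifs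
    · rfl
    · rw [norm_e]; norm_num
  simp_rw [h]
  rw [Finset.prod_ite_mem, Finset.univ_inter]

lemma norm_PV_one (M : Finset Q) {f : Q → V2} (h : ∀ q ∈ M, ‖f q‖ = 1) : ‖PV M f‖ = 1 := by
  have h1 := norm_PV_sq M f
  rw [Finset.prod_eq_one (fun q hq => by rw [h q hq]; norm_num)] at h1
  have h0 := norm_nonneg (PV M f)
  nlinarith

lemma norm_PV_le (M : Finset Q) {f : Q → V2} (h : ∀ q ∈ M, ‖f q‖ ≤ 1) : ‖PV M f‖ ≤ 1 := by
  have h1 := norm_PV_sq M f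
  have h2 : ∏ q ∈ M, ‖f q‖ ^ 2 ≤ 1 := Finset.prod_le_one (fun q _ => by positivity) fun q hq => by
    have := h q hq
    have h0 := norm_nonneg (f q)
    nlinarith
  rw [← h1] at h2
  have h0 := norm_nonneg (PV M f)
  nlinarith

lemma proj_inner {R : M2} (hR : IsStarProjection R) (v : V2) :
    ⟪act R v, v⟫_ℂ = ⟪act R v, act R v⟫_ℂ := by
  have h1 : ⟪act R v, act R v⟫_ℂ = ⟪act (star R) (act R v), v⟫_ℂ := inner_act R (act R v) v
  rw [hR.isSelfAdjoint.star_eq, ← act_mul, hR.isIdempotentElem.eq] at h1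
  exact h1.symm

/-- The mode of a set of qubits. -/
noncomputable def modeV (M : Finset Q) (Ψ : Q → V2) (R : Q → M2) (d : Q → V2)
    (hΨ : ∀ q, ‖Ψ q‖ = 1) (hR : ∀ q, IsStarProjection (R q)) (hd : ∀ q, ‖d q‖ = 1) :
    ModeV (Vec (Q → Bool)) where
  Ψ := PV M Ψ
  Θ := PV M fun q => act (R q) (Ψ q)
  p := PV M d
  hΨ := norm_PV_one M fun q _ => hΨ q
  hp := norm_PV_one M fun q _ => hd q
  hΘ := by
    rw [inner_PV, inner_PV]
    exact Finset.prod_congr rfl fun q _ => proj_inner (hR q) _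

section ModeVals

variable (M : Finset Q) (Ψ : Q → V2) (R : Q → M2) (d : Q → V2)
    (hΨ : ∀ q, ‖Ψ q‖ = 1) (hR : ∀ q, IsStarProjection (R q)) (hd : ∀ q, ‖d q‖ = 1)

lemma modeV_α : (modeV M Ψ R d hΨ hR hd).α = ∏ q ∈ M, ⟪d q, Ψ q⟫_ℂ := inner_PV _ _ _

lemma modeV_β : (modeV M Ψ R d hΨ hR hd).β = ∏ q ∈ M, ⟪d q, act (R q) (Ψ q)⟫_ℂ := inner_PV _ _ _

lemma modeV_m : (modeV M Ψ R d hΨ hR hd).m = 1 - ∏ q ∈ M, ‖act (R q) (Ψ q)‖ ^ 2 := by
  show 1 - ‖PV M fun q => act (R q) (Ψ q)‖ ^ 2 = _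
  rw [norm_PV_sq]

lemma modeV_ξ (b : Bool) :
    (modeV M Ψ R d hΨ hR hd).ξ b = PV M fun q => if b then act (R q) (Ψ q) else Ψ q := by
  cases b
  · show PV M Ψ = _
    simp
  · show (PV M fun q => act (R q) (Ψ q)) = _
    simp

lemma modeV_p : (modeV M Ψ R d hΨ hR hd).p = PV M d := rfl

end ModeVals

/-! ### The form of a one-qubit term -/

lemma sc_N (p ξ ξ' : V2) (hp : ‖p‖ = 1) (j : J) :
    sc ξ (pw j.1 (kb p p) * 1 * pw j.2 (kb p p)) ξ'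
      = if j = (false, false) then ⟪ξ, ξ'⟫_ℂ else ⟪ξ, p⟫_ℂ * ⟪p, ξ'⟫_ℂ := by
  have hi := (kb_proj hp).isIdempotentElem.eq
  unfold sc
  rcases j with ⟨_ | _, _ | _⟩ <;> simp [pw, act_one, hi, act_kb, inner_smul_right] <;> ring

/-- The functional of a one-qubit term with a rank-one last projector. -/
noncomputable def uS (p s : V2) (b : Bool) (ξ : V2) : ℂ :=
  if b then ⟪s, p⟫_ℂ * ⟪p, ξ⟫_ℂ else ⟪s, ξ⟫_ℂ

lemma sc_S (p s ξ ξ' : V2) (j : J) :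
    sc ξ (pw j.1 (kb p p) * kb s s * pw j.2 (kb p p)) ξ'
      = conj (uS p s j.1 ξ) * uS p s j.2 ξ' := by
  rcases j with ⟨_ | _, _ | _⟩
  · simp only [pw, Bool.false_eq_true, if_false, one_mul, mul_one, uS, sc_kb, inner_conj_symm]
  · simp only [pw, Bool.false_eq_true, if_false, if_true, one_mul, uS, inner_conj_symm]
    rw [kb_mul_kb]
    unfold sc
    rw [act_smul, inner_smul_right, act_kb, inner_smul_right]
    ring
  · simp only [pw, Bool.false_eq_true, if_false, if_true, mul_one, uS, map_mul, inner_conj_symm]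
    rw [kb_mul_kb]
    unfold sc
    rw [act_smul, inner_smul_right, act_kb, inner_smul_right]
    ring
  · simp only [pw, if_true, uS, map_mul, inner_conj_symm]
    rw [kb_mul_kb, smul_mul_assoc, kb_mul_kb, smul_smul]
    unfold sc
    rw [act_smul, inner_smul_right, act_kb, inner_smul_right]
    ring

/-! ### Minors of products -/

/-- Minors of a product. -/
lemma minor_mul {A S : Type} (τ1 τ2 : A → S → ℂ) (h1 : ∀ a σ, ‖τ1 a σ‖ ≤ 1)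
    (h2 : ∀ a σ, ‖τ2 a σ‖ ≤ 1) (d1 d2 : ℝ)
    (hd1 : ∀ a a' σ σ', ‖τ1 a σ * τ1 a' σ' - τ1 a' σ * τ1 a σ'‖ ≤ d1)
    (hd2 : ∀ a a' σ σ', ‖τ2 a σ * τ2 a' σ' - τ2 a' σ * τ2 a σ'‖ ≤ d2) (a a' : A) (σ σ' : S) :
    ‖(τ1 a σ * τ2 a σ) * (τ1 a' σ' * τ2 a' σ') - (τ1 a' σ * τ2 a' σ) * (τ1 a σ' * τ2 a σ')‖
      ≤ d1 + d2 := by
  have e1 : (τ1 a σ * τ2 a σ) * (τ1 a' σ' * τ2 a' σ') - (τ1 a' σ * τ2 a' σ) * (τ1 a σ' * τ2 a σ')
      = (τ1 a σ * τ1 a' σ' - τ1 a' σ * τ1 a σ') * (τ2 a σ * τ2 a' σ')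
        + (τ1 a' σ * τ1 a σ') * (τ2 a σ * τ2 a' σ' - τ2 a' σ * τ2 a σ') := by ring
  rw [e1]
  refine (norm_add_le _ _).trans ?_
  rw [norm_mul (τ1 a σ * τ1 a' σ' - τ1 a' σ * τ1 a σ'), norm_mul (τ1 a' σ * τ1 a σ')]
  have h3 : ‖τ2 a σ * τ2 a' σ'‖ ≤ 1 := by
    rw [norm_mul]
    exact mul_le_one₀ (h2 _ _) (norm_nonneg _) (h2 _ _)
  have h4 : ‖τ1 a' σ * τ1 a σ'‖ ≤ 1 := by
    rw [norm_mul]
    exact mul_le_one₀ (h1 _ _) (norm_nonneg _) (h1 _ _)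
  calc _ ≤ d1 * 1 + 1 * d2 := by
        gcongr
        · exact (norm_nonneg _).trans (hd1 a a' σ σ')
        · exact hd1 _ _ _ _
        · exact hd2 _ _ _ _
    _ = _ := by ring

/-- Minors of a function times the conjugate of a function. -/
lemma minor_conj {A S : Type} (τ : A → S → ℂ) (h1 : ∀ a σ, ‖τ a σ‖ ≤ 1) (d : ℝ)
    (hd : ∀ a a' σ σ', ‖τ a σ * τ a' σ' - τ a' σ * τ a σ'‖ ≤ d) (a b a' b' : A) (σ τ' σ' τ'' : S) :
    ‖(τ a σ * conj (τ b τ')) * (τ a' σ' * conj (τ b' τ''))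
        - (τ a' σ * conj (τ b' τ')) * (τ a σ' * conj (τ b τ''))‖ ≤ 2 * d := by
  have e1 : (τ a σ * conj (τ b τ')) * (τ a' σ' * conj (τ b' τ''))
        - (τ a' σ * conj (τ b' τ')) * (τ a σ' * conj (τ b τ''))
      = (τ a σ * τ a' σ' - τ a' σ * τ a σ') * conj (τ b τ' * τ b' τ'')
        + (τ a' σ * τ a σ') * conj (τ b τ' * τ b' τ'' - τ b' τ' * τ b τ'') := by
    simp only [map_mul, map_sub]
    ring
  rw [e1]
  refine (norm_add_le _ _).trans ?_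
  rw [norm_mul (τ a σ * τ a' σ' - τ a' σ * τ a σ'), norm_mul (τ a' σ * τ a σ'), RCLike.norm_conj,
    RCLike.norm_conj]
  have h3 : ‖τ b τ' * τ b' τ''‖ ≤ 1 := by
    rw [norm_mul]
    exact mul_le_one₀ (h1 _ _) (norm_nonneg _) (h1 _ _)
  have h4 : ‖τ a' σ * τ a σ'‖ ≤ 1 := by
    rw [norm_mul]
    exact mul_le_one₀ (h1 _ _) (norm_nonneg _) (h1 _ _)
  have hd0 : 0 ≤ d := (norm_nonneg _).trans (hd a a' σ σ')
  calc _ ≤ d * 1 + 1 * d := by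
        gcongr
        · exact hd _ _ _ _
        · exact hd _ _ _ _
    _ = _ := by ring

section Abstract

variable {E : Type} [NormedAddCommGroup E] [InnerProductSpace ℂ E]

/-- The function of a mode with trivial last projector. -/
noncomputable def τN (V : ModeV E) (a : Bool × Bool) (j : J) : ℂ :=
  if j = (false, false) then ⟪V.ξ a.1, V.ξ a.2⟫_ℂ else ⟪V.ξ a.1, V.p⟫_ℂ * ⟪V.p, V.ξ a.2⟫_ℂ

lemma minor_τN (V : ModeV E) (a a' : Bool × Bool) (j j' : J) :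
    ‖τN V a j * τN V a' j' - τN V a' j * τN V a j'‖ ≤ 3 * V.X := by
  have hX : 0 ≤ 3 * V.X := by have := V.X_nonneg; positivity
  unfold τN
  by_cases h : j = (false, false) <;> by_cases h' : j' = (false, false)
  · simp only [h, h', if_true]
    rw [mul_comm, sub_self, norm_zero]
    exact hX
  · simp only [h, h', if_true, if_false]
    exact V.minor_N _ _ _ _
  · simp only [h, h', if_true, if_false]
    have := V.minor_N a'.1 a'.2 a.1 a.2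
    refine le_of_eq_of_le ?_ this
    congr 1
    ring
  · simp only [h, h', if_false]
    rw [mul_comm, sub_self, norm_zero]
    exact hX

/-- The two functionals of a rank-one last projector. -/
noncomputable def US (a p : E) (b : Bool) (Ξ : E) : ℂ :=
  if b then ⟪a, p⟫_ℂ * ⟪p, Ξ⟫_ℂ else ⟪a, Ξ⟫_ℂ

lemma norm_US_le {a p : E} (ha : ‖a‖ = 1) (hp : ‖p‖ = 1) (b : Bool) {Ξ : E} (hΞ : ‖Ξ‖ ≤ 1) :
    ‖US a p b Ξ‖ ≤ 1 := by
  have h1 : ‖⟪a, Ξ⟫_ℂ‖ ≤ 1 := by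
    have := norm_inner_le_norm (𝕜 := ℂ) a Ξ
    rw [ha, one_mul] at this
    exact this.trans hΞ
  have h2 : ‖⟪p, Ξ⟫_ℂ‖ ≤ 1 := by
    have := norm_inner_le_norm (𝕜 := ℂ) p Ξ
    rw [hp, one_mul] at this
    exact this.trans hΞ
  have h3 : ‖⟪a, p⟫_ℂ‖ ≤ 1 := by
    have := norm_inner_le_norm (𝕜 := ℂ) a p
    rwa [ha, hp, one_mul] at this
  unfold US
  split_ifs
  · rw [norm_mul]
    exact mul_le_one₀ h3 (norm_nonneg _) h2
  · exact h1

lemma minor_US {a p : E} (ha : ‖a‖ = 1) (hp : ‖p‖ = 1) (b b' : Bool) (Ξ Ξ' : E) :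
    ‖US a p b Ξ * US a p b' Ξ' - US a p b Ξ' * US a p b' Ξ‖
      ≤ 2 * Real.sqrt (1 - ‖⟪a, p⟫_ℂ‖ ^ 2) * ‖Ξ‖ * ‖Ξ' - Ξ‖ := by
  have h0 : 0 ≤ 2 * Real.sqrt (1 - ‖⟪a, p⟫_ℂ‖ ^ 2) * ‖Ξ‖ * ‖Ξ' - Ξ‖ := by positivity
  have h1 := mode_S a p Ξ Ξ' ha hp
  cases b <;> cases b' <;> simp only [US, Bool.false_eq_true, if_false, if_true]
  · rw [mul_comm, sub_self, norm_zero]
    exact h0
  · refine le_of_eq_of_le ?_ h1
    congr 1
    ring
  · rw [norm_sub_rev] at h1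
    refine le_of_eq_of_le ?_ h1
    congr 1
    ring
  · rw [mul_comm, sub_self, norm_zero]
    exact h0

/-- The function of a mode with rank-one last projector. -/
noncomputable def τS (a p : E) (Ξ1 Ξ2 : E) (j : J) : ℂ := conj (US a p j.1 Ξ1) * US a p j.2 Ξ2

lemma minor_τS {a p : E} (ha : ‖a‖ = 1) (hp : ‖p‖ = 1) (Ξ1 Ξ2 Ξ1' Ξ2' : E)
    (h1 : ‖Ξ1‖ ≤ 1) (h2 : ‖Ξ2‖ ≤ 1) (h1' : ‖Ξ1'‖ ≤ 1) (h2' : ‖Ξ2'‖ ≤ 1) (δ : ℝ)
    (hδ1 : ‖Ξ1' - Ξ1‖ ≤ δ) (hδ2 : ‖Ξ2' - Ξ2‖ ≤ δ) (j j' : J) :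
    ‖τS a p Ξ1 Ξ2 j * τS a p Ξ1' Ξ2' j' - τS a p Ξ1' Ξ2' j * τS a p Ξ1 Ξ2 j'‖
      ≤ 4 * Real.sqrt (1 - ‖⟪a, p⟫_ℂ‖ ^ 2) * δ := by
  set s := Real.sqrt (1 - ‖⟪a, p⟫_ℂ‖ ^ 2) with hs
  have hs0 : 0 ≤ s := Real.sqrt_nonneg _
  have hδ0 : 0 ≤ δ := (norm_nonneg _).trans hδ1
  set P := US a p j.1 Ξ1 * US a p j'.1 Ξ1' with hP
  set P' := US a p j.1 Ξ1' * US a p j'.1 Ξ1 with hP'
  set R := US a p j.2 Ξ2 * US a p j'.2 Ξ2' with hR
  set R' := US a p j.2 Ξ2' * US a p j'.2 Ξ2 with hR'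
  have e1 : τS a p Ξ1 Ξ2 j * τS a p Ξ1' Ξ2' j' - τS a p Ξ1' Ξ2' j * τS a p Ξ1 Ξ2 j'
      = conj (P - P') * R + conj P' * (R - R') := by
    unfold τS
    simp only [hP, hP', hR, hR', map_mul, map_sub]
    ring
  have h3 : ‖P - P'‖ ≤ 2 * s * δ := by
    have := minor_US ha hp j.1 j'.1 Ξ1 Ξ1'
    refine this.trans ?_
    calc _ ≤ 2 * s * 1 * δ := by gcongr
      _ = _ := by ring
  have h4 : ‖R - R'‖ ≤ 2 * s * δ := by
    have := minor_US ha hp j.2 j'.2 Ξ2 Ξ2'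
    refine this.trans ?_
    calc _ ≤ 2 * s * 1 * δ := by gcongr
      _ = _ := by ring
  have h5 : ‖R‖ ≤ 1 := by
    rw [hR, norm_mul]
    exact mul_le_one₀ (norm_US_le ha hp _ h2) (norm_nonneg _) (norm_US_le ha hp _ h2')
  have h6 : ‖P'‖ ≤ 1 := by
    rw [hP', norm_mul]
    exact mul_le_one₀ (norm_US_le ha hp _ h1') (norm_nonneg _) (norm_US_le ha hp _ h1)
  rw [e1]
  refine (norm_add_le _ _).trans ?_
  rw [norm_mul (conj (P - P')), norm_mul (conj P'), RCLike.norm_conj, RCLike.norm_conj]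
  calc _ ≤ (2 * s * δ) * 1 + 1 * (2 * s * δ) := by gcongr
    _ = _ := by ring

lemma ModeV.ξ_sub_le (V : ModeV E) (b b' : Bool) : ‖V.ξ b' - V.ξ b‖ ≤ Real.sqrt V.m := by
  have h0 := Real.sqrt_nonneg V.m
  have hD : ‖V.Ψ - V.Θ‖ = Real.sqrt V.m := by
    rw [eq_comm, Real.sqrt_eq_iff_mul_self_eq V.m_nonneg (norm_nonneg _), ← V.norm_D_sq]
    ring
  cases b <;> cases b' <;> simp only [ModeV.ξ, sub_self, norm_zero, h0]
  · rw [norm_sub_rev, hD]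
  · rw [hD]

end Abstract

end Vale.Agent.Lib.P368
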