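import Vale.Agent.Lib.P368.D3.FrameCore

/-! The state outside the selected blocks. -/

namespace Vale.Agent.Lib.P368

open Matrix Finset
open scoped Matrix.Norms.L2Operator InnerProductSpace ComplexConjugate

set_option linter.unusedSectionVars false
set_option linter.unusedSimpArgs false
set_option linter.unusedVariables false

variable {Q P H G : Type} [Fintype Q] [DecidableEq Q] [Fintype P] [DecidableEq P] [Fintype H]
  [DecidableEq H] [Fintype G] [DecidableEq G]

/-- A tensor product commutes with the gates whose qubits it does not touch. -/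
lemma tp_comm_Ty (A : Q → M2) (bt : Q → Option H) (pt : Q → M2) (y : H → ℂ) (L : List H)
    (h : ∀ h', y h' ≠ 0 → ∀ q, bt q = some h' → A q = 1) : Commute (tp A) (Ty bt pt y L) := by
  unfold Ty
  refine lprod_commute _ _ _ fun h' _ => ?_
  by_cases hy : y h' = 0
  · simp [hy]
  · refine Commute.sub_right (Commute.one_right _) (Commute.smul_right ?_ _)
    show tp A * gateP bt pt h' = gateP bt pt h' * tp A
    unfold gateP
    rw [tp_mul, tp_mul]
    congr 1
    funext q
    by_cases hq : bt q = some h'
    · rw [if_pos hq, h h' hy q hq]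
      simp
    · rw [if_neg hq]
      simp

lemma Ty_factor_comm (gt : Q → Option H) (π : Q → M2) (y : H → ℂ) (a b : H) (c : ℂ)  :
    Commute (1 - (2 * y a) • gateP gt π a) (1 - c • gateP gt π b) := by
  by_cases hab : a = b
  · subst hab
    refine Commute.sub_left (Commute.one_left _) ?_
    refine Commute.sub_right (Commute.one_right _) ?_
    exact ((Commute.refl _).smul_left _).smul_right _
  · refine Commute.sub_left (Commute.one_left _) ?_
    refine Commute.sub_right (Commute.one_right _) ?_
    exact ((gateP_comm gt π hab).smul_left _).smul_right _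

lemma Ty_congr (gt : Q → Option H) (π : Q → M2) {y y' : H → ℂ} (L : List H)
    (h : ∀ l ∈ L, y l = y' l) : Ty gt π y L = Ty gt π y' L := by
  unfold Ty lprod
  congr 1
  refine List.map_congr_left fun l hl => ?_
  rw [h l hl]

/-- Adding a gate to a weighted product of reflections. -/
lemma Ty_cons_gate (gt : Q → Option H) (π : Q → M2) (y : H → ℂ) (h : H) (L : List H)
    (hL : L.Nodup) (hh : h ∈ L) (hy : y h = 0) :
    (1 - (2 : ℂ) • gateP gt π h) * Ty gt π y L = Ty gt π (Function.update y h 1) L := by
  induction L with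
  | nil => cases hh
  | cons a L ih =>
    rw [List.nodup_cons] at hL
    have hT : ∀ y' : H → ℂ, Ty gt π y' (a :: L) = (1 - (2 * y' a) • gateP gt π a) * Ty gt π y' L := by
      intro y'
      unfold Ty; rw [lprod_cons]
    rw [hT, hT]
    by_cases hah : a = h
    · subst hah
      have h1 : Ty gt π (Function.update y a 1) L = Ty gt π y L :=
        Ty_congr gt π L fun l hl => by
          rw [Function.update_of_ne]
          rintro rfl
          exact hL.1 hl
      rw [h1, hy]
      simp
    · have hh' : h ∈ L := by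
        rcases List.mem_cons.mp hh with h1 | h1
        · exact absurd h1.symm hah
        · exact h1
      rw [Function.update_of_ne hah, ← ih hL.2 hh']
      set A := 1 - (2 * y a) • gateP gt π a with hA
      set B := 1 - (2 : ℂ) • gateP gt π h with hB
      have hc : Commute A B := Ty_factor_comm gt π y a h 2
      rw [← mul_assoc, ← mul_assoc, hc.symm.eq]

namespace Frame

variable (F : Frame Q P H G) (a0 : ℝ) (L : LastP Q) (S : Finset P)

/-- The list of the first-layer gates. -/
noncomputable def LH : List H := (Finset.univ : Finset H).toList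

lemma LH_nodup : (LH : List H).Nodup := Finset.nodup_toList _

lemma mem_LH (h : H) : h ∈ (LH : List H) := Finset.mem_toList.mpr (Finset.mem_univ h)

/-- The gates outside the selected inputs. -/
def yRest (h : H) : ℂ := if ∃ i : {j // j ∈ S}, F.bt (F.q0 i.1) = some h then 0 else 1

/-- The gates outside the selected inputs with removed gates. -/
noncomputable def yKept (h : H) : ℂ :=
  if ∃ i : {j // j ∈ S}, F.hi a0 i.1 = false ∧ F.bt (F.q0 i.1) = some h then 0 else 1

/-- The gates outside the selected inputs, in the frame. -/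
noncomputable def Trest : Op Q := Ty F.bt F.pt (F.yRest S) LH

/-- The gates kept in the circuit, in the frame. -/
noncomputable def Tkept : Op Q := Ty F.bt F.pt (F.yKept a0 S) LH

open Classical in
/-- The bit of a qubit. -/
noncomputable def bitOf (z : P → Bool) (q : Q) : Bool :=
  if h : ∃ j, q = F.q0 j then z h.choose else F.b0 q

lemma bitOf_q0 (z : P → Bool) (j : P) : F.bitOf z (F.q0 j) = z j := by
  classical
  unfold bitOf
  have h : ∃ j', F.q0 j = F.q0 j' := ⟨j, rfl⟩
  rw [dif_pos h]
  congr 1
  exact (F.q0_inj h.choose_spec).symm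

lemma bitOf_other (z : P → Bool) {q : Q} (h : ¬ ∃ j, q = F.q0 j) : F.bitOf z q = F.b0 q := by
  classical
  unfold bitOf
  rw [dif_neg h]

/-- The vector of a qubit for a string of bits. -/
noncomputable def uz (z : P → Bool) (q : Q) : V2 := F.v q (F.bitOf z q)

lemma norm_uz (z : P → Bool) (q : Q) : ‖F.uz z q‖ = 1 := F.norm_v _ _

/-- The vector of a qubit for a string of bits, with the reference vector at the selected blocks. -/
noncomputable def ub (z : P → Bool) (q : Q) : V2 :=
  if F.blS a0 S q = none then F.uz z q else e false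

lemma norm_ub (z : P → Bool) (q : Q) : ‖F.ub a0 S z q‖ = 1 := by
  unfold ub
  split_ifs
  · exact F.norm_uz z q
  · exact norm_e _

/-- The state outside the selected blocks. -/
noncomputable def Ωz (z : P → Bool) : Vec (Q → Bool) := act (F.Trest S) (pv (F.ub a0 S z))

lemma yRest_cases (h : H) : F.yRest S h = 0 ∨ F.yRest S h = 1 := by
  unfold yRest
  split_ifs
  · exact Or.inl rfl
  · exact Or.inr rfl

lemma yKept_cases (h : H) : F.yKept a0 S h = 0 ∨ F.yKept a0 S h = 1 := by
  unfold yKept
  split_ifs
  · exact Or.inl rfl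
  · exact Or.inr rfl

lemma Trest_invol : star (F.Trest S) = F.Trest S ∧ F.Trest S * F.Trest S = 1 :=
  Ty_invol F.pt_proj F.bt _ (F.yRest_cases S) _ LH_nodup

lemma Tkept_invol : star (F.Tkept a0 S) = F.Tkept a0 S ∧ F.Tkept a0 S * F.Tkept a0 S = 1 :=
  Ty_invol F.pt_proj F.bt _ (F.yKept_cases a0 S) _ LH_nodup

lemma norm_pv_one {f : Q → V2} (h : ∀ q, ‖f q‖ = 1) : ‖pv f‖ = 1 := by
  have h1 := norm_pv_sq f
  rw [Finset.prod_eq_one (fun q _ => by rw [h q]; norm_num)] at h1
  have h0 := norm_nonneg (pv f)
  nlinarith

lemma norm_Ωz (z : P → Bool) : ‖F.Ωz a0 S z‖ = 1 := by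
  unfold Ωz
  rw [norm_act_of_star_mul _ (by rw [(F.Trest_invol S).1, (F.Trest_invol S).2])]
  exact norm_pv_one (F.norm_ub a0 S z)

/-- The gate of a qubit of the block of an input. -/
lemma bt_of_mem_trueB {j : P} {q : Q} (hq : q ∈ F.trueB j) {h : H} (hb : F.bt q = some h) :
    F.bt (F.q0 j) = some h := by
  simp only [trueB, Finset.mem_filter, Finset.mem_univ, true_and, sameG_iff] at hq
  rcases hq with rfl | ⟨h', h1, h2⟩
  · exact hb
  · rw [hb] at h1
    cases h1
    exact h2

lemma Trest_trivial_block (h' : H) (hy : F.yRest S h' ≠ 0) (q : Q) (hq : F.bt q = some h')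
    (i : {j // j ∈ S}) : q ∉ F.selB a0 i.1 := by
  intro hi
  apply hy
  unfold yRest
  rw [if_pos]
  exact ⟨i, F.bt_of_mem_trueB (F.selB_subset a0 i.1 hi) hq⟩

/-- The gates outside the selected blocks commute with the operators on the blocks. -/
lemma comm_Trest (A : Q → M2) (hA : ∀ q, F.blS a0 S q = none → A q = 1) :
    Commute (tp A) (F.Trest S) := by
  refine tp_comm_Ty A F.bt F.pt _ _ fun h' hy q hq => hA q ?_
  rw [F.blS_none]
  exact fun i => F.Trest_trivial_block a0 S h' hy q hq i

/-- The state is at the reference vectors on the selected blocks. -/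
lemma Pref_Ωz (z : P → Bool) : act (F.core a0 L S).Pref (F.Ωz a0 S z) = F.Ωz a0 S z := by
  unfold Ωz
  have h1 : Commute (F.core a0 L S).Pref (F.Trest S) := by
    unfold CoreData.Pref
    refine F.comm_Trest a0 S _ fun q hq => ?_
    have hq' : (F.core a0 L S).bl q = none := hq
    rw [hq']
  rw [← act_mul, h1.eq, act_mul]
  congr 1
  unfold CoreData.Pref
  rw [act_tp_pv]
  congr 1
  funext q
  cases hb : (F.core a0 L S).bl q with
  | none => simp [act_one]
  | some i =>
    have hb' : F.blS a0 S q = some i := hb
    simp only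
    have : F.ub a0 S z q = e false := by simp [ub, hb']
    have hr : (F.core a0 L S).ref q = e false := rfl
    rw [this, hr, act_kb, inner_self_eq_norm_sq_to_K, norm_e]
    simp

/-- The state does not depend on the bits of the selected inputs. -/
lemma Ωz_congr {z z' : P → Bool} (h : ∀ j, j ∉ S → z j = z' j) :
    F.Ωz a0 S z = F.Ωz a0 S z' := by
  unfold Ωz
  congr 2
  funext q
  unfold ub
  split_ifs with hb
  · unfold uz
    congr 1
    by_cases hq : ∃ j, q = F.q0 j
    · obtain ⟨j, rfl⟩ := hq
      rw [bitOf_q0, bitOf_q0]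
      refine h j fun hj => ?_
      have := (F.blS_none a0 S).mp hb ⟨j, hj⟩
      exact this (F.q0_mem_selB a0 j)
    · rw [F.bitOf_other z hq, F.bitOf_other z' hq]
  · rfl

/-- The product of the gates of the selected blocks with other gates. -/
lemma Ty_selected (y : H → ℂ) (hy : ∀ i : {j // j ∈ S}, ∀ h, F.bt (F.q0 i.1) = some h → y h = 0)
    (Ls : List {j // j ∈ S}) (hLs : Ls.Nodup) :
    Ty (F.blS a0 S) (F.ptS a0 S) (fun _ => 1) Ls * Ty F.bt F.pt y LH
      = Ty F.bt F.pt (fun h => if ∃ i ∈ Ls, F.hi a0 i.1 = true ∧ F.bt (F.q0 i.1) = some h then 1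
          else y h) LH := by
  induction Ls with
  | nil =>
    have h1 : Ty (F.blS a0 S) (F.ptS a0 S) (fun _ => 1) ([] : List {j // j ∈ S}) = 1 := by
      unfold Ty; rfl
    rw [h1, one_mul]
    refine Ty_congr _ _ _ fun l _ => ?_
    simp
  | cons i Ls ih =>
    rw [List.nodup_cons] at hLs
    have hT : Ty (F.blS a0 S) (F.ptS a0 S) (fun _ => 1) (i :: Ls)
        = (1 - (2 * 1 : ℂ) • gateP (F.blS a0 S) (F.ptS a0 S) i)
          * Ty (F.blS a0 S) (F.ptS a0 S) (fun _ => 1) Ls := by
      unfold Ty; rw [lprod_cons]
    rw [hT, mul_assoc, ih hLs.2]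
    cases hhi : F.hi a0 i.1 with
    | false =>
      -- the projector of the block vanishes
      have h0 : gateP (F.blS a0 S) (F.ptS a0 S) i = 0 := by
        ext s t
        unfold gateP
        rw [tp_apply]
        refine Finset.prod_eq_zero (Finset.mem_univ (F.q0 i.1)) ?_
        have h1 : F.blS a0 S (F.q0 i.1) = some i := (F.blS_some a0 S).mpr (F.q0_mem_selB a0 i.1)
        rw [if_pos h1, F.ptS_block a0 S (F.q0_mem_selB a0 i.1)]
        simp [ptj, hhi]
      rw [h0]
      simp only [smul_zero, sub_zero, one_mul]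
      refine Ty_congr _ _ _ fun h _ => ?_
      by_cases hc : ∃ i' ∈ Ls, F.hi a0 i'.1 = true ∧ F.bt (F.q0 i'.1) = some h
      · rw [if_pos hc, if_pos]
        obtain ⟨i', h1, h2⟩ := hc
        exact ⟨i', List.mem_cons_of_mem _ h1, h2⟩
      · rw [if_neg hc, if_neg]
        rintro ⟨i', h1, h2⟩
        rcases List.mem_cons.mp h1 with rfl | h3
        · rw [hhi] at h2
          cases h2.1
        · exact hc ⟨i', h3, h2⟩
    | true =>
      obtain ⟨hg, -⟩ := F.hi_props a0 hhi
      obtain ⟨h0, hh0⟩ := Option.isSome_iff_exists.mp hg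
      -- the projector of the block is the projector of the gate
      have hP : gateP (F.blS a0 S) (F.ptS a0 S) i = gateP F.bt F.pt h0 := by
        unfold gateP
        congr 1
        funext q
        by_cases hq : F.blS a0 S q = some i
        · have hq1 := (F.blS_some a0 S).mp hq
          have hq2 : q ∈ F.trueB i.1 := F.selB_subset a0 i.1 hq1
          rw [F.trueB_gate hh0] at hq2
          have hq3 : F.bt q = some h0 := (Finset.mem_filter.mp hq2).2
          rw [if_pos hq, if_pos hq3, F.ptS_block a0 S hq1]
          simp [ptj, hhi]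
        · have hq3 : F.bt q ≠ some h0 := by
            intro hq3
            apply hq
            rw [F.blS_some, F.selB_hi a0 hhi, F.trueB_gate hh0]
            exact Finset.mem_filter.mpr ⟨Finset.mem_univ _, hq3⟩
          rw [if_neg hq, if_neg hq3]
      rw [hP, mul_one, Ty_cons_gate _ _ _ _ _ LH_nodup (mem_LH h0)]
      · refine Ty_congr _ _ _ fun h _ => ?_
        by_cases hh : h = h0
        · subst hh
          rw [Function.update_self, if_pos]
          exact ⟨i, List.mem_cons_self, hhi, hh0⟩
        · rw [Function.update_of_ne hh]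
          by_cases hc : ∃ i' ∈ Ls, F.hi a0 i'.1 = true ∧ F.bt (F.q0 i'.1) = some h
          · rw [if_pos hc, if_pos]
            obtain ⟨i', h1, h2⟩ := hc
            exact ⟨i', List.mem_cons_of_mem _ h1, h2⟩
          · rw [if_neg hc, if_neg]
            rintro ⟨i', h1, h2⟩
            rcases List.mem_cons.mp h1 with rfl | h3
            · rw [hh0] at h2
              cases h2.2
              exact hh rfl
            · exact hc ⟨i', h3, h2⟩
      · rw [if_neg]
        · exact hy i h0 hh0
        · rintro ⟨i', h1, -, h2⟩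
          have : i'.1 = i.1 := F.q0_gate _ _ _ h2 hh0
          have hi' : i' = i := Subtype.ext this
          rw [hi'] at h1
          exact hLs.1 h1

/-- The gates kept in the circuit are the gates of the blocks and the other gates. -/
lemma Tb_mul_Trest :
    (F.core a0 L S).Tb * F.Trest S = F.Tkept a0 S := by
  unfold CoreData.Tb Trest Tkept
  have h1 := F.Ty_selected a0 S (F.yRest S) (by
    intro i h hh
    unfold yRest
    rw [if_pos ⟨i, hh⟩]) (Finset.univ : Finset {j // j ∈ S}).toList (Finset.nodup_toList _)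
  refine (h1.trans ?_)
  refine Ty_congr _ _ _ fun h _ => ?_
  unfold yKept yRest
  by_cases hc : ∃ i ∈ (Finset.univ : Finset {j // j ∈ S}).toList,
      F.hi a0 i.1 = true ∧ F.bt (F.q0 i.1) = some h
  · rw [if_pos hc, if_neg]
    rintro ⟨i', h1, h2⟩
    obtain ⟨i, -, h3, h4⟩ := hc
    have : i'.1 = i.1 := F.q0_gate _ _ _ h2 h4
    rw [this, h3] at h1
    cases h1
  · rw [if_neg hc]
    by_cases hd : ∃ i : {j // j ∈ S}, F.bt (F.q0 i.1) = some h
    · rw [if_pos hd, if_pos]
      obtain ⟨i, h1⟩ := hd
      refine ⟨i, ?_, h1⟩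
      cases hhi : F.hi a0 i.1 with
      | false => rfl
      | true => exact absurd ⟨i, Finset.mem_toList.mpr (Finset.mem_univ i), hhi, h1⟩ hc
    · rw [if_neg hd, if_neg]
      rintro ⟨i, -, h1⟩
      exact hd ⟨i, h1⟩

/-- **The state of the circuit in terms of the blocks.** -/
theorem Kx_Ωz (x : {j // j ∈ S} → Bool) (z : P → Bool) (hz : ∀ i : {j // j ∈ S}, z i.1 = x i) :
    act ((F.core a0 L S).Kx x) (F.Ωz a0 S z) = act (F.Tkept a0 S) (pv (F.uz z)) := by
  rw [CoreData.Kx_eq_Tb]
  unfold Ωz
  have h1 : Commute ((F.core a0 L S).Ke x fun _ => false) (F.Trest S) := by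
    unfold CoreData.Ke
    refine F.comm_Trest a0 S _ fun q hq => ?_
    unfold CoreData.Kq
    have hq' : (F.core a0 L S).bl q = none := hq
    rw [hq']
  rw [← act_mul, mul_assoc, h1.eq, ← mul_assoc, Tb_mul_Trest, act_mul]
  congr 1
  unfold CoreData.Ke
  rw [act_tp_pv]
  congr 1
  funext q
  unfold CoreData.Kq
  cases hb : (F.core a0 L S).bl q with
  | none =>
    have hb' : F.blS a0 S q = none := hb
    simp [act_one, ub, hb']
  | some i =>
    have hb' : F.blS a0 S q = some i := hb
    simp only
    have h2 : F.ub a0 S z q = e false := by simp [ub, hb']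
    have hq : q ∈ F.selB a0 i.1 := (F.blS_some a0 S).mp hb'
    have hr : (F.core a0 L S).ref q = e false := rfl
    rw [h2, hr, act_kb, inner_self_eq_norm_sq_to_K, norm_e]
    simp only [Complex.coe_algebraMap, Complex.ofReal_one, one_pow, one_smul]
    rw [F.core_ξ a0 L S hq]
    simp only [ξj, Bool.false_eq_true, if_false, ξ0, uz]
    congr 1
    by_cases hin : ∃ j, q = F.q0 j
    · obtain ⟨j, rfl⟩ := hin
      have hj : j = i.1 := F.input_in_trueB (F.selB_subset a0 i.1 hq)
      subst hj
      rw [bitOf_q0, hz]
      simp [isIn]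
    · rw [F.bitOf_other z hin]
      simp [isIn, hin]

end Frame

end Vale.Agent.Lib.P368
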