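import Vale.Agent.Lib.P368.D3.FrameOmega

/-! The product formula for a projector on the state of the first gate layer. -/

namespace Vale.Agent.Lib.P368

open Matrix Finset
open scoped Matrix.Norms.L2Operator InnerProductSpace ComplexConjugate

set_option linter.unusedSectionVars false
set_option linter.unusedSimpArgs false
set_option linter.unusedVariables false

variable {Q P H G : Type} [Fintype Q] [DecidableEq Q] [Fintype P] [DecidableEq P] [Fintype H]
  [DecidableEq H] [Fintype G] [DecidableEq G]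

/-- The product formula. -/
theorem norm_tp_Ty (bt : Q → Option H) {pt : Q → M2} (hpt : ∀ q, IsStarProjection (pt q)) (y : H → ℂ)
    (hy : ∀ h, y h = 0 ∨ y h = 1) (L : List H) (hL : L.Nodup) (hall : ∀ h, h ∈ L) {Fq : Q → M2}
    (hF : ∀ q, IsStarProjection (Fq q)) (u : Q → V2) :
    ((‖act (tp Fq) (act (Ty bt pt y L) (pv u))‖ ^ 2 : ℝ) : ℂ)
      = (∏ q ∈ Finset.univ.filter (fun q => bt q = none), sc (u q) (Fq q) (u q))
        * ∏ h, ∑ τ, cw (y h) τ
            * ∏ q ∈ Finset.univ.filter (fun q => bt q = some h), sc (u q) (Oj pt Fq τ q) (u q) := by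
  obtain ⟨hs, -⟩ := Ty_invol hpt bt y hy L hL
  set T := Ty bt pt y L with hT
  rw [← HSys.norm_proj_sq (tp_proj hF)]
  have h1 : ⟪act T (pv u), act (tp Fq) (act T (pv u))⟫_ℂ = ⟪pv u, act (T * tp Fq * T) (pv u)⟫_ℂ := by
    have h2 := inner_act T (pv u) (act (tp Fq) (act T (pv u)))
    rw [hs] at h2
    rw [← h2, mul_assoc, act_mul, act_mul]
  rw [h1, hT, Ty_conj bt pt Fq y L hL hall, HSys.act_sum', inner_sum]
  simp only [act_smul, inner_smul_right, inner_pv_tp]
  have h3 := fubini_gate bt ((false, false) : J) (fun h τ => cw (y h) τ)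
    (fun q τ => sc (u q) (Oj pt Fq τ q) (u q))
  refine h3.trans ?_
  congr 1
  refine Finset.prod_congr rfl fun q _ => ?_
  simp [Oj, pw]

/-- The factor of a gate which is not applied. -/
lemma factor_zero (B : Finset Q) (pt Fq : Q → M2) (u : Q → V2) :
    ∑ τ, cw 0 τ * ∏ q ∈ B, sc (u q) (Oj pt Fq τ q) (u q) = ∏ q ∈ B, sc (u q) (Fq q) (u q) := by
  rw [Finset.sum_eq_single (false, false)]
  · simp [Oj, pw, cw]
  · rintro ⟨_ | _, _ | _⟩ _ h
    · exact absurd rfl h
    · simp [cw]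
    · simp [cw]
    · simp [cw]
  · simp

lemma sc_M {R : M2} (hR : star R = R) (u p : V2) (a b : Bool) :
    sc u (pw a R * kb p p * pw b R) u = conj ⟪p, act (pw a R) u⟫_ℂ * ⟪p, act (pw b R) u⟫_ℂ := by
  have hs : star (pw a R) = pw a R := by
    cases a
    · simp [pw]
    · simpa [pw] using hR
  unfold sc
  rw [act_mul, act_mul, act_kb, inner_act (pw a R), hs, inner_smul_right, inner_conj_symm]
  ring

lemma sc_off {R : M2} (hR : IsStarProjection R) (u : V2) (hu : ‖u‖ = 1) (a b : Bool) :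
    sc u (pw a R * 1 * pw b R) u = if a || b then ((‖act R u‖ ^ 2 : ℝ) : ℂ) else 1 := by
  have h1 : ⟪u, u⟫_ℂ = 1 := by
    rw [inner_self_C, hu]
    simp
  have h2 := HSys.norm_proj_sq hR u
  cases a <;> cases b <;>
    simp only [pw, Bool.false_eq_true, if_false, if_true, mul_one, one_mul, Bool.or_self,
      Bool.or_true, Bool.true_or, sc, act_one, h1, h2, hR.isIdempotentElem.eq]

/-- The factor of a gate which is applied. -/
theorem gate_factor (B M : Finset Q) (hM : M ⊆ B) (u : Q → V2) (hu : ∀ q, ‖u q‖ = 1) {pt : Q → M2}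
    (hpt : ∀ q, IsStarProjection (pt q)) (p : Q → V2) (hp : ∀ q, ‖p q‖ = 1) (Fq : Q → M2)
    (hF1 : ∀ q ∈ M, Fq q = kb (p q) (p q)) (hF2 : ∀ q ∈ B, q ∉ M → Fq q = 1) :
    ∑ τ, cw 1 τ * ∏ q ∈ B, sc (u q) (Oj pt Fq τ q) (u q)
      = (((modeV M u pt p hu hpt hp).Hval (∏ q ∈ B \ M, ‖act (pt q) (u q)‖ ^ 2) : ℝ) : ℂ) := by
  set V := modeV M u pt p hu hpt hp with hV
  set a := ∏ q ∈ B \ M, ‖act (pt q) (u q)‖ ^ 2 with ha
  have hα : V.α = ∏ q ∈ M, ⟪p q, act (pw false (pt q)) (u q)⟫_ℂ := by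
    rw [hV, modeV_α]
    simp [pw, act_one]
  have hβ : V.β = ∏ q ∈ M, ⟪p q, act (pw true (pt q)) (u q)⟫_ℂ := by
    rw [hV, modeV_β]
    simp [pw]
  have hprod : ∀ x y : Bool, ∏ q ∈ B, sc (u q) (Oj pt Fq (x, y) q) (u q)
      = (if x || y then (a : ℂ) else 1)
        * (conj (∏ q ∈ M, ⟪p q, act (pw x (pt q)) (u q)⟫_ℂ)
            * ∏ q ∈ M, ⟪p q, act (pw y (pt q)) (u q)⟫_ℂ) := by
    intro x y
    rw [← Finset.prod_sdiff hM]
    congr 1
    · have h1 : ∀ q ∈ B \ M, sc (u q) (Oj pt Fq (x, y) q) (u q)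
          = if x || y then ((‖act (pt q) (u q)‖ ^ 2 : ℝ) : ℂ) else 1 := by
        intro q hq
        have hq' := Finset.mem_sdiff.mp hq
        unfold Oj
        rw [hF2 q hq'.1 hq'.2]
        exact sc_off (hpt q) (u q) (hu q) x y
      rw [Finset.prod_congr rfl h1]
      split_ifs
      · rw [ha]
        push_cast
        rfl
      · simp
    · have h1 : ∀ q ∈ M, sc (u q) (Oj pt Fq (x, y) q) (u q)
          = conj ⟪p q, act (pw x (pt q)) (u q)⟫_ℂ * ⟪p q, act (pw y (pt q)) (u q)⟫_ℂ := by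
        intro q hq
        unfold Oj
        rw [hF1 q hq]
        exact sc_M (hpt q).isSelfAdjoint.star_eq _ _ _ _
      rw [Finset.prod_congr rfl h1, Finset.prod_mul_distrib, map_prod]
  rw [Fintype.sum_prod_type]
  simp only [Fintype.sum_bool, hprod, ← hα, ← hβ]
  unfold ModeV.Hval
  push_cast
  have e1 : ((‖V.α‖ : ℂ)) ^ 2 = conj V.α * V.α := by
    have := conj_mul_self_C V.α
    push_cast at this
    exact this.symm
  have e2 : ((‖V.α - 2 * V.β‖ : ℂ)) ^ 2 = conj (V.α - 2 * V.β) * (V.α - 2 * V.β) := by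
    have := conj_mul_self_C (V.α - 2 * V.β)
    push_cast at this
    exact this.symm
  rw [e1, e2]
  simp only [map_sub, map_mul, Complex.conj_ofNat, cw, bw, Bool.or_self, Bool.or_true, Bool.true_or,
    if_true, Bool.false_eq_true, if_false]
  ring

end Vale.Agent.Lib.P368
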