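import Vale.Agent.Lib.P368.D3.FrameKill

/-! The bound on the minors in terms of the kill factors. -/

namespace Vale.Agent.Lib.P368

open Matrix Finset
open scoped Matrix.Norms.L2Operator InnerProductSpace ComplexConjugate

set_option linter.unusedSectionVars false
set_option linter.unusedSimpArgs false
set_option linter.unusedVariables false

variable {Q P H G : Type} [Fintype Q] [DecidableEq Q] [Fintype P] [DecidableEq P] [Fintype H]
  [DecidableEq H] [Fintype G] [DecidableEq G]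

/-- A product of numbers in the unit interval over a larger set is smaller. -/
lemma prod_le_prod_of_subset_unit {ι : Type} [DecidableEq ι] {s t : Finset ι} (hst : s ⊆ t)
    (f : ι → ℝ) (h0 : ∀ i ∈ t, 0 ≤ f i) (h1 : ∀ i ∈ t, f i ≤ 1) : ∏ i ∈ t, f i ≤ ∏ i ∈ s, f i := by
  rw [← Finset.prod_sdiff hst]
  have h2 : ∏ i ∈ t \ s, f i ≤ 1 := Finset.prod_le_one
    (fun i hi => h0 i (Finset.mem_sdiff.mp hi).1) fun i hi => h1 i (Finset.mem_sdiff.mp hi).1
  have h3 : 0 ≤ ∏ i ∈ s, f i := Finset.prod_nonneg fun i hi => h0 i (hst hi)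
  exact mul_le_of_le_one_left h3 h2

/-- The complement of a product is at most the sum of the complements. -/
lemma one_sub_prod_le {ι : Type} [DecidableEq ι] (s : Finset ι) (f : ι → ℝ)
    (h0 : ∀ i ∈ s, 0 ≤ f i) (h1 : ∀ i ∈ s, f i ≤ 1) : 1 - ∏ i ∈ s, f i ≤ ∑ i ∈ s, (1 - f i) := by
  induction s using Finset.induction_on with
  | empty => simp
  | insert a s ha ih =>
    rw [Finset.prod_insert ha, Finset.sum_insert ha]
    have h2 := ih (fun i hi => h0 i (Finset.mem_insert_of_mem hi))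
      (fun i hi => h1 i (Finset.mem_insert_of_mem hi))
    have h3 := h0 a (Finset.mem_insert_self _ _)
    have h4 := h1 a (Finset.mem_insert_self _ _)
    have h5 : ∏ i ∈ s, f i ≤ 1 := Finset.prod_le_one
      (fun i hi => h0 i (Finset.mem_insert_of_mem hi)) fun i hi => h1 i (Finset.mem_insert_of_mem hi)
    have h6 : 0 ≤ ∏ i ∈ s, f i := Finset.prod_nonneg fun i hi => h0 i (Finset.mem_insert_of_mem hi)
    nlinarith

namespace Frame

variable (F : Frame Q P H G) (a0 : ℝ) (L : LastP Q)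

/-- The norm defect of the trivial part of a mode. -/
noncomputable def mNv (j : P) (l : G) : ℝ :=
  1 - ∏ q ∈ (F.MN a0 L j l).erase (F.q0 j), ‖act (F.ptj a0 j q) (F.u q)‖ ^ 2

/-- The norm defect of the rank-one part of a mode. -/
noncomputable def mSv (j : P) (l : G) : ℝ :=
  1 - ∏ q ∈ (F.MS a0 L j l).erase (F.q0 j), ‖act (F.ptj a0 j q) (F.u q)‖ ^ 2

/-- The total weight of a mode. -/
noncomputable def mT (j : P) (l : G) : ℝ :=
  F.mNv a0 L j l + F.mSv a0 L j l + if F.q0 j ∈ F.MM a0 j l then 1 else 0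

lemma norm_ptj_le (j : P) (q : Q) : ‖act (F.ptj a0 j q) (F.u q)‖ ^ 2 ≤ 1 := by
  have h := norm_act_proj_le (F.ptj_proj a0 j q) (F.u q)
  rw [F.norm_u] at h
  have h0 := norm_nonneg (act (F.ptj a0 j q) (F.u q))
  nlinarith

lemma mNv_nonneg (j : P) (l : G) : 0 ≤ F.mNv a0 L j l := by
  unfold mNv
  have : ∏ q ∈ (F.MN a0 L j l).erase (F.q0 j), ‖act (F.ptj a0 j q) (F.u q)‖ ^ 2 ≤ 1 :=
    Finset.prod_le_one (fun q _ => by positivity) fun q _ => F.norm_ptj_le a0 j q
  linarith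

lemma mSv_nonneg (j : P) (l : G) : 0 ≤ F.mSv a0 L j l := by
  unfold mSv
  have : ∏ q ∈ (F.MS a0 L j l).erase (F.q0 j), ‖act (F.ptj a0 j q) (F.u q)‖ ^ 2 ≤ 1 :=
    Finset.prod_le_one (fun q _ => by positivity) fun q _ => F.norm_ptj_le a0 j q
  linarith

lemma mT_nonneg (j : P) (l : G) : 0 ≤ F.mT a0 L j l := by
  unfold mT
  have h1 := F.mNv_nonneg a0 L j l
  have h2 := F.mSv_nonneg a0 L j l
  split_ifs <;> linarith

lemma VN_m (j : P) (l : G) (h : F.q0 j ∉ F.MN a0 L j l) :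
    (F.VN a0 L j l).m = F.mNv a0 L j l := by
  unfold VN mNv
  rw [modeV_m, Finset.erase_eq_of_notMem h]

lemma VS_m (j : P) (l : G) (h : F.q0 j ∉ F.MS a0 L j l) :
    (F.VS a0 L j l).m = F.mSv a0 L j l := by
  unfold VS mSv
  rw [modeV_m, Finset.erase_eq_of_notMem h]

lemma MS_subset_SK (j : P) (l : G) : F.MS a0 L j l ⊆ F.SK L j l := by
  intro q hq
  have h1 := Finset.mem_filter.mp hq
  have h2 := Finset.mem_filter.mp h1.1
  exact Finset.mem_filter.mpr ⟨F.selB_subset a0 j h2.1, h2.2, h1.2⟩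

lemma MN_subset_MK (j : P) (l : G) : F.MN a0 L j l ⊆ F.MK L j l := by
  intro q hq
  have h1 := Finset.mem_filter.mp hq
  have h2 := Finset.mem_filter.mp h1.1
  exact Finset.mem_filter.mpr ⟨F.selB_subset a0 j h2.1, h2.2, h1.2⟩

lemma CS_nonneg (j : P) (l : G) : 0 ≤ F.CS a0 L j l :=
  Finset.prod_nonneg fun q _ => Cq_nonneg _ _

lemma σb_le_CS (j : P) (l : G) : F.σb L j l ≤ F.CS a0 L j l :=
  prod_le_prod_of_subset_unit (F.MS_subset_SK a0 L j l) _ (fun q _ => Cq_nonneg _ _)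
    fun q _ => Cq_le_one (L.s_unit q) (F.p_unit q)

lemma CS_bound (j : P) (l : G) : 1 - F.CS a0 L j l ≤ 1 - F.ϖ L j l := by
  have h1 := F.σb_le_CS a0 L j l
  have h2 := F.ϖ_le_σb L j l
  linarith

/-- The kill of an input in the trivial part of a mode. -/
lemma kill_input (j : P) (l : G) (h : F.q0 j ∈ F.MN a0 L j l) : 1 / 2 ≤ 1 - F.ϖ L j l := by
  have h1 := F.hb_inside L j l (F.MN_subset_MK a0 L j l h)
  have h2 := F.ϖ_le_hb L j l
  linarith

/-- The properties of the kept gate. -/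
lemma hi_props {j : P} (h : F.hi a0 j = true) : (F.bt (F.q0 j)).isSome = true ∧ a0 ≤ F.aP j := by
  unfold hi at h
  simpa using h

lemma selB_hi {j : P} (h : F.hi a0 j = true) : F.selB a0 j = F.trueB j := by
  simp [selB, h]

lemma selB_not {j : P} (h : F.hi a0 j = false) : F.selB a0 j = {F.q0 j} := by
  simp [selB, h]

lemma ptj_hi {j : P} (h : F.hi a0 j = true) (q : Q) : F.ptj a0 j q = F.pt q := by
  simp [ptj, h]

lemma MN_eq_MK {j : P} (h : F.hi a0 j = true) (l : G) : F.MN a0 L j l = F.MK L j l := by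
  ext q
  simp only [MN, MM, MK, F.selB_hi a0 h, Finset.mem_filter]
  tauto

/-- The kill of a mode without input. -/
lemma kill_mode (ha0 : 0 < a0) (j : P) (l : G) (h : F.q0 j ∉ F.MN a0 L j l) :
    (F.VN a0 L j l).f ≤ 2 * (1 - F.ϖ L j l)
      ∧ a0 ^ 2 * (F.VN a0 L j l).m ≤ 6 * (1 - F.ϖ L j l) := by
  have ht : 0 ≤ 1 - F.ϖ L j l := by
    have := F.ϖ_le_one L j l
    linarith
  cases hhi : F.hi a0 j with
  | false =>
    have hM : F.MN a0 L j l = ∅ := by
      ext q
      simp only [Finset.notMem_empty, iff_false]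
      intro hq
      have h1 := F.MM_subset a0 j l (F.MN_subset a0 L j l hq)
      have h2 := Finset.mem_filter.mp (F.MN_subset a0 L j l hq)
      rw [F.selB_not a0 hhi, Finset.mem_singleton] at h2
      exact h (h2.1 ▸ hq)
    have h1 : (F.VN a0 L j l).f = 0 := by
      unfold ModeV.f VN
      rw [modeV_α, hM]
      simp
    have h2 : (F.VN a0 L j l).m = 0 := by
      unfold VN
      rw [modeV_m, hM]
      simp
    rw [h1, h2]
    constructor <;> nlinarith
  | true =>
    obtain ⟨hg, haP⟩ := F.hi_props a0 hhi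
    have hMK := F.MN_eq_MK a0 L hhi l
    have hq : F.q0 j ∉ F.MK L j l := hMK ▸ h
    have hhb := F.hb_outside L j l hq hg
    have hϖ := F.ϖ_le_hb L j l
    -- comparing the two modes
    have hf : (F.VN a0 L j l).f = (F.VK0 L j l).f := by
      unfold ModeV.f VN VK0
      rw [modeV_α, modeV_α, hMK]
    have hm : (F.VN a0 L j l).m = (F.VK0 L j l).m := by
      unfold VN VK0
      rw [modeV_m, modeV_m, hMK]
      simp only [F.ptj_hi a0 hhi]
    have haR0 := F.aR_nonneg L j l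
    have haR1 := F.aR_le_one L j l
    -- the lower bounds on the products
    have h1 : F.aP j ≤ F.aR L j l := by
      refine prod_le_prod_of_subset_unit ?_ _ (fun q _ => F.pa_nonneg q) fun q _ => F.pa_le_one q
      intro q hq'
      have h3 := Finset.mem_erase.mp hq'
      exact Finset.mem_erase.mpr ⟨h3.1, (Finset.mem_sdiff.mp h3.2).1⟩
    have h2 : F.aP j ≤ 1 - (F.VK0 L j l).m := by
      unfold VK0
      rw [modeV_m]
      have h3 : 1 - (1 - ∏ q ∈ F.MK L j l, ‖act (F.pt q) (F.u q)‖ ^ 2)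
          = ∏ q ∈ F.MK L j l, F.pa q := by
        rw [sub_sub_cancel]
        rfl
      rw [h3]
      refine prod_le_prod_of_subset_unit ?_ _ (fun q _ => F.pa_nonneg q) fun q _ => F.pa_le_one q
      intro r hr
      refine Finset.mem_erase.mpr ⟨?_, (Finset.mem_filter.mp hr).1⟩
      rintro rfl
      exact hq hr
    have h3 := (F.VK0 L j l).kill_f _ haR0 haR1
    have h4 := (F.VK0 L j l).kill_m _ haR0 haR1
    rw [← hhb] at h3 h4
    have hm0 := (F.VK0 L j l).m_nonneg
    have hm1 := (F.VK0 L j l).m_le_one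
    rw [hf, hm]
    constructor
    · linarith
    · have h5 : a0 ≤ F.aR L j l := haP.trans h1
      have h6 : a0 ≤ 1 - (F.VK0 L j l).m := haP.trans h2
      have h7 : a0 * a0 ≤ F.aR L j l * (1 - (F.VK0 L j l).m) :=
        mul_le_mul h5 h6 ha0.le haR0
      have h8 : (a0 * a0) * (F.VK0 L j l).m
          ≤ (F.aR L j l * (1 - (F.VK0 L j l).m)) * (F.VK0 L j l).m :=
        mul_le_mul_of_nonneg_right h7 hm0
      nlinarith

/-- The constant of the minors. -/
noncomputable def Kc : ℝ := 41 / a0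

/-- The numerical form of the bound of the mode without input. -/
lemma X_sq_bound (ha0 : 0 < a0) (ha1 : a0 ≤ 1) (j : P) (l : G) (h : F.q0 j ∉ F.MN a0 L j l) :
    72 * (F.VN a0 L j l).X ^ 2 ≤ (41 / a0) ^ 2 * ((1 - F.ϖ L j l) * F.mNv a0 L j l) := by
  obtain ⟨h1, h2⟩ := F.kill_mode a0 L ha0 j l h
  rw [F.VN_m a0 L j l h] at h2
  have hX : (F.VN a0 L j l).X ^ 2 ≤ 2 * (F.mNv a0 L j l * ((F.VN a0 L j l).f + F.mNv a0 L j l)) := by
    unfold ModeV.X
    rw [F.VN_m a0 L j l h]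
    have hf0 := (F.VN a0 L j l).f_nonneg
    have hm0 := F.mNv_nonneg a0 L j l
    have h3 : (Real.sqrt (F.VN a0 L j l).f * Real.sqrt (F.mNv a0 L j l)) ^ 2
        = (F.VN a0 L j l).f * F.mNv a0 L j l := by
      rw [mul_pow, Real.sq_sqrt hf0, Real.sq_sqrt hm0]
    nlinarith [sq_nonneg (Real.sqrt (F.VN a0 L j l).f * Real.sqrt (F.mNv a0 L j l) - F.mNv a0 L j l)]
  set t := 1 - F.ϖ L j l
  set m := F.mNv a0 L j l
  have hm0 : 0 ≤ m := F.mNv_nonneg a0 L j l
  have ha2 : 0 < a0 ^ 2 := by positivity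
  have ha3 : a0 ^ 2 ≤ 1 := by nlinarith
  have ht : 0 ≤ t := by
    have := F.ϖ_le_one L j l
    simp only [t]
    linarith
  -- multiply out
  have h5 : a0 ^ 2 * (F.VN a0 L j l).f ≤ 2 * t := by
    have hf0 := (F.VN a0 L j l).f_nonneg
    nlinarith
  have h6 : a0 ^ 2 * (72 * (F.VN a0 L j l).X ^ 2) ≤ 1681 * (t * m) := by
    have h7 : a0 ^ 2 * (F.VN a0 L j l).X ^ 2
        ≤ 2 * (m * (a0 ^ 2 * (F.VN a0 L j l).f + a0 ^ 2 * m)) := by
      have := mul_le_mul_of_nonneg_left hX ha2.le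
      nlinarith
    have h8 : m * (a0 ^ 2 * (F.VN a0 L j l).f + a0 ^ 2 * m) ≤ m * (2 * t + 6 * t) := by
      apply mul_le_mul_of_nonneg_left _ hm0
      linarith
    nlinarith
  have h9 : (41 / a0) ^ 2 = 1681 / a0 ^ 2 := by
    rw [div_pow]
    norm_num
  rw [h9, div_mul_eq_mul_div, le_div_iff₀ ha2]
  nlinarith

/-- **The minors are bounded by the kill factors.** -/
theorem minor_le_kill (ha0 : 0 < a0) (ha1 : a0 ≤ 1) (j : P) (l : G) :
    2 * (F.dN a0 L j l + 4 * Real.sqrt (1 - F.CS a0 L j l) * F.δS a0 L j l)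
      ≤ (41 / a0) * Real.sqrt ((1 - F.ϖ L j l) * F.mT a0 L j l) := by
  set t := 1 - F.ϖ L j l with ht
  have ht0 : 0 ≤ t := by
    have := F.ϖ_le_one L j l
    simp only [ht]
    linarith
  have hm0 := F.mNv_nonneg a0 L j l
  have hm1 := F.mSv_nonneg a0 L j l
  have hT0 := F.mT_nonneg a0 L j l
  have hK : 0 < 41 / a0 := by positivity
  have hK2 : 1681 ≤ (41 / a0) ^ 2 := by
    rw [div_pow, le_div_iff₀ (by positivity)]
    have : a0 ^ 2 ≤ 1 := by nlinarith
    nlinarith
  -- the reduction to squares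
  suffices hs : (2 * (F.dN a0 L j l + 4 * Real.sqrt (1 - F.CS a0 L j l) * F.δS a0 L j l)) ^ 2
      ≤ (41 / a0) ^ 2 * (t * F.mT a0 L j l) by
    have h1 : 0 ≤ t * F.mT a0 L j l := mul_nonneg ht0 hT0
    rw [show (41 / a0) * Real.sqrt (t * F.mT a0 L j l)
        = Real.sqrt ((41 / a0) ^ 2 * (t * F.mT a0 L j l)) by
      rw [Real.sqrt_mul (sq_nonneg (41 / a0)), Real.sqrt_sq hK.le]]
    exact Real.le_sqrt_of_sq_le hs
  have hCS0 := F.CS_nonneg a0 L j l
  have hCSb := F.CS_bound a0 L j l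
  set s := Real.sqrt (1 - F.CS a0 L j l) with hs
  have hs0 : 0 ≤ s := Real.sqrt_nonneg _
  have hs2 : s ^ 2 ≤ t := by
    rw [hs]
    by_cases hc : 0 ≤ 1 - F.CS a0 L j l
    · rw [Real.sq_sqrt hc]
      exact hCSb
    · push Not at hc
      rw [Real.sqrt_eq_zero_of_nonpos hc.le]
      simpa using ht0
  by_cases hN : F.q0 j ∈ F.MN a0 L j l
  · -- the input is in the trivial part
    have hS : F.q0 j ∉ F.MS a0 L j l := by
      intro hS
      have h1 := (Finset.mem_filter.mp hN).2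
      have h2 := (Finset.mem_filter.mp hS).2
      rw [h1] at h2
      cases h2
    have hMM : F.q0 j ∈ F.MM a0 j l := F.MN_subset a0 L j l hN
    have h1 := F.kill_input a0 L j l hN
    have hd : F.dN a0 L j l = 2 := if_pos hN
    have hδ : F.δS a0 L j l = Real.sqrt (F.VS a0 L j l).m := if_neg hS
    have hδ1 : F.δS a0 L j l ≤ 1 := by
      rw [hδ]
      exact Real.sqrt_le_one.mpr (F.VS a0 L j l).m_le_one
    have hδ0 := F.δS_nonneg a0 L j l
    have hs1 : s ≤ 1 := by
      rw [hs]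
      exact Real.sqrt_le_one.mpr (by linarith)
    have hT1 : 1 ≤ F.mT a0 L j l := by
      unfold mT
      rw [if_pos hMM]
      linarith
    rw [hd]
    have h2 : s * F.δS a0 L j l ≤ 1 := mul_le_one₀ hs1 hδ0 hδ1
    have h3 : 0 ≤ s * F.δS a0 L j l := mul_nonneg hs0 hδ0
    have h4 : (2 * (2 + 4 * s * F.δS a0 L j l)) ^ 2 ≤ 144 := by
      have h5 : 4 * s * F.δS a0 L j l = 4 * (s * F.δS a0 L j l) := by ring
      rw [h5]
      nlinarith
    have h6 : (1 : ℝ) / 2 ≤ t * F.mT a0 L j l := by nlinarith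
    nlinarith
  · have hX := F.X_sq_bound a0 L ha0 ha1 j l hN
    have hd : F.dN a0 L j l = 3 * (F.VN a0 L j l).X := if_neg hN
    rw [hd]
    have hX0 := (F.VN a0 L j l).X_nonneg
    by_cases hS : F.q0 j ∈ F.MS a0 L j l
    · -- the input is in the rank-one part
      have hMM : F.q0 j ∈ F.MM a0 j l := F.MS_subset a0 L j l hS
      have hδ : F.δS a0 L j l = 2 := if_pos hS
      rw [hδ]
      have h2 : (2 * (3 * (F.VN a0 L j l).X + 4 * s * 2)) ^ 2
          ≤ 72 * (F.VN a0 L j l).X ^ 2 + 512 * s ^ 2 := by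
        nlinarith [sq_nonneg (3 * (F.VN a0 L j l).X - 8 * s)]
      have hT : F.mT a0 L j l = F.mNv a0 L j l + F.mSv a0 L j l + 1 := by
        unfold mT
        rw [if_pos hMM]
      have h3 : 512 * s ^ 2 ≤ (41 / a0) ^ 2 * t := by nlinarith
      refine h2.trans ?_
      rw [hT]
      have h4 : 0 ≤ (41 / a0) ^ 2 * (t * F.mSv a0 L j l) := by positivity
      have h5 : (41 / a0) ^ 2 * (t * (F.mNv a0 L j l + F.mSv a0 L j l + 1))
          = (41 / a0) ^ 2 * (t * F.mNv a0 L j l) + (41 / a0) ^ 2 * (t * F.mSv a0 L j l)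
            + (41 / a0) ^ 2 * t := by ring
      rw [h5]
      linarith
    · -- no input in the mode
      have hδ : F.δS a0 L j l = Real.sqrt (F.mSv a0 L j l) := by
        unfold δS
        rw [if_neg hS, F.VS_m a0 L j l hS]
      have hMM : F.q0 j ∉ F.MM a0 j l := by
        intro hM
        cases hb : L.sS (F.q0 j)
        · exact hN (Finset.mem_filter.mpr ⟨hM, hb⟩)
        · exact hS (Finset.mem_filter.mpr ⟨hM, hb⟩)
      have hT : F.mT a0 L j l = F.mNv a0 L j l + F.mSv a0 L j l := by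
        unfold mT
        rw [if_neg hMM, add_zero]
      rw [hδ, hT]
      set r := Real.sqrt (F.mSv a0 L j l) with hr
      have hr2 : r ^ 2 = F.mSv a0 L j l := Real.sq_sqrt hm1
      have hr0 : 0 ≤ r := Real.sqrt_nonneg _
      have h2 : (2 * (3 * (F.VN a0 L j l).X + 4 * s * r)) ^ 2
          ≤ 72 * (F.VN a0 L j l).X ^ 2 + 128 * (s * r) ^ 2 := by
        nlinarith [sq_nonneg (3 * (F.VN a0 L j l).X - 4 * (s * r))]
      have h3 : (s * r) ^ 2 ≤ t * F.mSv a0 L j l := by
        rw [mul_pow, hr2]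
        exact mul_le_mul_of_nonneg_right hs2 hm1
      have h4 : 128 * (s * r) ^ 2 ≤ (41 / a0) ^ 2 * (t * F.mSv a0 L j l) := by
        have h5 : 0 ≤ t * F.mSv a0 L j l := mul_nonneg ht0 hm1
        nlinarith
      refine h2.trans ?_
      have h6 : (41 / a0) ^ 2 * (t * (F.mNv a0 L j l + F.mSv a0 L j l))
          = (41 / a0) ^ 2 * (t * F.mNv a0 L j l) + (41 / a0) ^ 2 * (t * F.mSv a0 L j l) := by ring
      rw [h6]
      linarith

/-! ### The sum of the weights over the gates -/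

lemma sum_fiber_le {S : Finset Q} (g : Q → ℝ) (h0 : ∀ q ∈ S, 0 ≤ g q) :
    ∑ l, ∑ q ∈ S.filter (fun q => F.gt q = some l), g q ≤ ∑ q ∈ S, g q := by
  have h1 := (Finset.sum_fiberwise S F.gt g)
  rw [Fintype.sum_option] at h1
  rw [← h1]
  have h2 : 0 ≤ ∑ q ∈ S.filter (fun q => F.gt q = none), g q :=
    Finset.sum_nonneg fun q hq => h0 q (Finset.mem_filter.mp hq).1
  linarith

lemma sum_one_sub_pa_le (ha0 : 0 < a0) (j : P) (h : a0 ≤ F.aP j) :
    ∑ q ∈ (F.trueB j).erase (F.q0 j), (1 - F.pa q) ≤ 1 / a0 := by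
  have h1 := prod_mul_one_add_sum_le ((F.trueB j).erase (F.q0 j)) (fun q => 1 - F.pa q)
    (fun q _ => by have := F.pa_le_one q; linarith) (fun q _ => by have := F.pa_nonneg q; linarith)
  simp only [sub_sub_cancel] at h1
  change F.aP j * _ ≤ 1 at h1
  set S := ∑ q ∈ (F.trueB j).erase (F.q0 j), (1 - F.pa q)
  have hS0 : 0 ≤ S := Finset.sum_nonneg fun q _ => by have := F.pa_le_one q; linarith
  rw [le_div_iff₀ ha0]
  have h2 : a0 * (1 + S) ≤ F.aP j * (1 + S) := mul_le_mul_of_nonneg_right h (by linarith)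
  nlinarith

/-- The weights of the two parts of a mode. -/
lemma mN_add_mS_le (j : P) (l : G) (h : F.hi a0 j = true) :
    F.mNv a0 L j l + F.mSv a0 L j l
      ≤ ∑ q ∈ ((F.trueB j).erase (F.q0 j)).filter (fun q => F.gt q = some l), (1 - F.pa q) := by
  set S := ((F.trueB j).erase (F.q0 j)).filter (fun q => F.gt q = some l) with hS
  have h1 : ∀ q, ‖act (F.ptj a0 j q) (F.u q)‖ ^ 2 = F.pa q := by
    intro q
    rw [F.ptj_hi a0 h]
    rfl
  have hN : (F.MN a0 L j l).erase (F.q0 j) = S.filter (fun q => L.sS q = false) := by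
    ext q
    simp only [MN, MM, F.selB_hi a0 h, hS, Finset.mem_erase, Finset.mem_filter]
    tauto
  have hSS : (F.MS a0 L j l).erase (F.q0 j) = S.filter (fun q => ¬ L.sS q = false) := by
    ext q
    simp only [MS, MM, F.selB_hi a0 h, hS, Finset.mem_erase, Finset.mem_filter, Bool.not_eq_false]
    tauto
  unfold mNv mSv
  simp only [h1]
  rw [hN, hSS, ← Finset.sum_filter_add_sum_filter_not S (fun q => L.sS q = false)]
  exact add_le_add
    (one_sub_prod_le _ _ (fun q _ => F.pa_nonneg q) fun q _ => F.pa_le_one q)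
    (one_sub_prod_le _ _ (fun q _ => F.pa_nonneg q) fun q _ => F.pa_le_one q)

lemma mN_mS_zero (j : P) (l : G) (h : F.hi a0 j = false) :
    F.mNv a0 L j l + F.mSv a0 L j l = 0 := by
  have hE : ∀ M : Finset Q, M ⊆ F.MM a0 j l → M.erase (F.q0 j) = ∅ := by
    intro M hM
    ext q
    simp only [Finset.mem_erase, Finset.notMem_empty, iff_false, not_and]
    intro hne hq
    have h1 := (Finset.mem_filter.mp (hM hq)).1
    rw [F.selB_not a0 h, Finset.mem_singleton] at h1
    exact hne h1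
  unfold mNv mSv
  rw [hE _ (F.MN_subset a0 L j l), hE _ (F.MS_subset a0 L j l)]
  simp

/-- **The sum of the weights of a block over the gates.** -/
theorem sum_mT_le (ha0 : 0 < a0) (j : P) : ∑ l, F.mT a0 L j l ≤ 1 / a0 + 1 := by
  unfold mT
  rw [Finset.sum_add_distrib]
  have h1 : ∑ l, (F.mNv a0 L j l + F.mSv a0 L j l) ≤ 1 / a0 := by
    cases hhi : F.hi a0 j with
    | false =>
      simp only [F.mN_mS_zero a0 L j _ hhi, Finset.sum_const_zero]
      positivity
    | true =>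
      obtain ⟨hg, haP⟩ := F.hi_props a0 hhi
      calc _ ≤ ∑ l, ∑ q ∈ ((F.trueB j).erase (F.q0 j)).filter (fun q => F.gt q = some l),
            (1 - F.pa q) := Finset.sum_le_sum fun l _ => F.mN_add_mS_le a0 L j l hhi
        _ ≤ _ := F.sum_fiber_le _ fun q _ => by have := F.pa_le_one q; linarith
        _ ≤ _ := F.sum_one_sub_pa_le a0 ha0 j haP
  have h2 : ∑ l, (if F.q0 j ∈ F.MM a0 j l then (1 : ℝ) else 0) ≤ 1 := by
    have h3 : ∀ l, (if F.q0 j ∈ F.MM a0 j l then (1 : ℝ) else 0)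
        = if F.gt (F.q0 j) = some l then 1 else 0 := by
      intro l
      simp [MM, F.q0_mem_selB a0 j]
    simp only [h3]
    cases hg : F.gt (F.q0 j) with
    | none => simp
    | some l0 =>
      simp only [Option.some.injEq]
      rw [Finset.sum_ite_eq]
      simp
  simp only [Finset.sum_add_distrib] at h1 ⊢
  linarith

end Frame

end Vale.Agent.Lib.P368
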