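import Vale.Agent.Lib.P368.D3.CircuitMain

/-! **No circuit of entangling depth three computes parity with a fixed advantage.** -/

namespace Vale.Agent.Lib.P368

open Matrix Finset

set_option linter.unusedSectionVars false
set_option linter.unusedSimpArgs false
set_option linter.unusedVariables false

/-- **Theorem.** For every fixed advantage `ε > 0` and all large `n`, no circuit of entangling depth
three, with any number of ancillas, computes the parity of `n` bits with worst-case advantage `ε`. -/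
theorem depth3_full (ε : ℝ) (hε : 0 < ε) :
    ∃ n0 : ℕ, ∀ n ≥ n0, ∀ (A : Type) [Fintype A] [DecidableEq A]
      (C : Circuit3 (Fin n ⊕ A)) (q : Fin n ⊕ A), ¬ C.ComputesParity q ε := by
  -- the number of selected inputs
  obtain ⟨m0, hm0⟩ := exists_pow_lt_of_lt_one (show 0 < (ε / 12) ^ 2 / 2 by positivity)
    (show (3 / 4 : ℝ) < 1 by norm_num)
  set m := m0 + 1 with hm
  have hmpos : (0 : ℝ) < m := by rw [hm]; positivity
  have hm1 : 6 * Real.sqrt (2 * (3 / 4 : ℝ) ^ m) ≤ ε / 2 := by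
    have h1 : (3 / 4 : ℝ) ^ m ≤ (3 / 4 : ℝ) ^ m0 :=
      pow_le_pow_of_le_one (by norm_num) (by norm_num) (by omega)
    have h2 : Real.sqrt (2 * (3 / 4 : ℝ) ^ m) ≤ ε / 12 := by
      refine Real.sqrt_le_iff.mpr ⟨by positivity, ?_⟩
      linarith
    linarith
  -- the threshold of the first-layer gates
  set a0 : ℝ := min 1 (ε ^ 2 / (128 * m)) with ha0
  have ha0pos : 0 < a0 := lt_min one_pos (by positivity)
  have ha01 : a0 ≤ 1 := min_le_left _ _
  have hma0 : (m : ℝ) * a0 ≤ ε ^ 2 / 128 := by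
    have h1 : a0 ≤ ε ^ 2 / (128 * m) := min_le_right _ _
    calc (m : ℝ) * a0 ≤ m * (ε ^ 2 / (128 * m)) := by gcongr
      _ = ε ^ 2 / 128 := by field_simp
  -- the selection parameter
  have hnear := nearConst_nonneg (show (0 : ℝ) ≤ 81 by norm_num) m
  set K : ℝ := 6 * nearConst 81 m / (3 / 4 : ℝ) ^ m * (16 ^ 2 * 256) * ((m + 1) * m ^ 2) with hK
  have hK0 : 0 ≤ K := by rw [hK]; positivity
  set δ : ℝ := (ε / 4) / (K + 1) with hδ
  have hδpos : 0 < δ := by positivity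
  have hKδ : 6 * nearConst 81 m / (3 / 4 : ℝ) ^ m * (16 ^ 2 * 256) * ((m + 1) * m ^ 2 * δ)
      ≤ ε / 4 := by
    have h1 : 6 * nearConst 81 m / (3 / 4 : ℝ) ^ m * (16 ^ 2 * 256) * ((m + 1) * m ^ 2 * δ)
        = K * δ := by rw [hK]; ring
    rw [h1, hδ]
    have h2 : K * (ε / 4 / (K + 1)) = (ε / 4) * (K / (K + 1)) := by
      field_simp
    rw [h2]
    have h3 : K / (K + 1) ≤ 1 := by
      rw [div_le_one (by positivity)]
      linarith
    have h4 : 0 ≤ ε / 4 := by positivity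
    nlinarith
  obtain ⟨d, hd⟩ := exists_nat_ge (2 * (6 * (41 / a0) ^ 2 * (1 / a0 + 1) + 1) / δ)
  -- the threshold for big gates
  obtain ⟨t0, ht0⟩ := exists_pow_lt_of_lt_one (show 0 < ε ^ 2 / 128 by positivity)
    (show (1 / 2 : ℝ) < 1 by norm_num)
  obtain ⟨n1, hn1⟩ := log_sq_le (16 * (m * (d + 1)))
  refine ⟨max (2 ^ (t0 + 2)) n1, ?_⟩
  intro n hn A _ _ C q h
  have hn0 : 2 ^ (t0 + 2) ≤ n := le_trans (le_max_left _ _) hn
  have hn1' : n1 ≤ n := le_trans (le_max_right _ _) hn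
  have hnne : n ≠ 0 := by
    have : 0 < 2 ^ (t0 + 2) := by positivity
    omega
  set L := Nat.log 2 n with hL
  have hL1 : t0 + 2 ≤ L := Nat.le_log_of_pow_le (by norm_num) hn0
  set t := L + 1 + t0 with ht
  have ht2L : t ≤ 2 * L := by omega
  have hcount : 4 * t * (2 * (m * (d + 1))) ≤ n := by
    have h1 := hn1 n hn1'
    have h2 : L ≤ L ^ 2 := Nat.le_self_pow (by norm_num) L
    calc 4 * t * (2 * (m * (d + 1))) ≤ 4 * (2 * L) * (2 * (m * (d + 1))) := by gcongr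
      _ = 16 * (m * (d + 1)) * L := by ring
      _ ≤ 16 * (m * (d + 1)) * L ^ 2 := by gcongr
      _ ≤ n := h1
  have hb := circuit_bound C q ε h t (by omega) a0 ha0pos ha01 m δ hδpos d hd hcount
  -- the bound on the big gates
  set bigC := (C.T1.filter fun g => decide (2 * t ≤ (inpOf g).card)).length with hbigC
  have hbig := big_count C t
  rw [← hbigC] at hbig
  have hbig2 : (bigC : ℝ) ≤ n := by
    have h1 : bigC * 1 ≤ bigC * (2 * t) := by
      apply Nat.mul_le_mul_left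
      omega
    have h2 : bigC ≤ n := by
      rw [mul_one] at h1
      exact h1.trans hbig
    exact_mod_cast h2
  have ht2 : (bigC : ℝ) * (1 / 2 : ℝ) ^ t ≤ ε ^ 2 / 128 := by
    have h1 : n < 2 ^ (L + 1) := Nat.lt_pow_succ_log_self (by norm_num) n
    have h2 : (n : ℝ) < 2 ^ (L + 1) := by exact_mod_cast h1
    have h3 : (n : ℝ) * (1 / 2 : ℝ) ^ (L + 1) ≤ 1 := by
      have h4 : (0 : ℝ) < (1 / 2 : ℝ) ^ (L + 1) := by positivity
      have h5 : (2 : ℝ) ^ (L + 1) * (1 / 2 : ℝ) ^ (L + 1) = 1 := by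
        rw [← mul_pow]; norm_num
      nlinarith
    have h6 : (1 / 2 : ℝ) ^ t = (1 / 2 : ℝ) ^ (L + 1) * (1 / 2 : ℝ) ^ t0 := by
      rw [ht, pow_add]
    have h7 : (0 : ℝ) < (1 / 2 : ℝ) ^ t0 := by positivity
    have h8 : (0 : ℝ) < (1 / 2 : ℝ) ^ t := by positivity
    calc (bigC : ℝ) * (1 / 2 : ℝ) ^ t ≤ n * (1 / 2 : ℝ) ^ t := by gcongr
      _ = ((n : ℝ) * (1 / 2 : ℝ) ^ (L + 1)) * (1 / 2 : ℝ) ^ t0 := by rw [h6]; ring
      _ ≤ 1 * (1 / 2 : ℝ) ^ t0 := by gcongr
      _ ≤ ε ^ 2 / 128 := by linarith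
  have hD : Real.sqrt (4 * ((bigC : ℝ) * (1 / 2 : ℝ) ^ t + m * a0)) ≤ ε / 4 := by
    refine Real.sqrt_le_iff.mpr ⟨by positivity, ?_⟩
    have h2 : (ε / 4) ^ 2 = ε ^ 2 / 16 := by ring
    rw [h2]
    linarith
  linarith

end Vale.Agent.Lib.P368
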