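import Vale.Agent.Lib.P368.D3.Expand

/-! Gate systems with a set of qubits opened in matrix units: the Hilbert-Schmidt estimates. -/

namespace Vale.Agent.Lib.P368

open Matrix Finset
open scoped Matrix.Norms.L2Operator InnerProductSpace ComplexConjugate

set_option linter.unusedSectionVars false
set_option linter.unusedSimpArgs false
set_option linter.unusedVariables false

variable {Q G : Type} [Fintype Q] [DecidableEq Q] [Fintype G] [DecidableEq G]

lemma tp_sum {X : Type} [Fintype X] [DecidableEq X] (F : Q → X → M2) :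
    tp (fun q => ∑ c, F q c) = ∑ f : Q → X, tp (fun q => F q (f q)) := by
  ext s t
  simp only [tp_apply, Matrix.sum_apply]
  rw [Finset.prod_univ_sum, Fintype.piFinset_univ]

lemma tp_smul (c : Q → ℂ) (F : Q → M2) : tp (fun q => c q • F q) = (∏ q, c q) • tp F := by
  ext s t
  simp only [tp_apply, Matrix.smul_apply, smul_eq_mul]
  rw [Finset.prod_mul_distrib]

lemma inner_e_act {ι : Type} [Fintype ι] [DecidableEq ι] (X : Matrix ι ι ℂ) (a b : ι) :
    ⟪(e a : Vec ι), act X (e b)⟫_ℂ = X a b := by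
  rw [PiLp.inner_apply]
  simp only [RCLike.inner_apply, act_e_apply]
  rw [Finset.sum_eq_single a]
  · simp [e]
  · intro c _ hc
    simp [e, PiLp.single_apply, hc]
  · simp

lemma norm_e' : ‖(e false : V2)‖ = 1 := norm_e _

/-- The overlap of two unit vectors. -/
noncomputable def Cq (u v : V2) : ℝ := ‖⟪u, v⟫_ℂ‖ ^ 2

lemma Cq_nonneg (u v : V2) : 0 ≤ Cq u v := by unfold Cq; positivity

lemma Cq_le_one {u v : V2} (hu : ‖u‖ = 1) (hv : ‖v‖ = 1) : Cq u v ≤ 1 := by
  unfold Cq
  have h := norm_inner_le_norm (𝕜 := ℂ) u v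
  rw [hu, hv] at h
  have h0 := norm_nonneg (⟪u, v⟫_ℂ)
  nlinarith

lemma inner_mul_inner (u v : V2) : ⟪u, v⟫_ℂ * ⟪v, u⟫_ℂ = (Cq u v : ℂ) := by
  unfold Cq
  rw [← inner_conj_symm v u, Complex.mul_conj, Complex.normSq_eq_norm_sq]

/-- A gate system with a set `RS` of qubits opened in matrix units. -/
structure HSys (Q G : Type) where
  /-- The gate of a qubit. -/
  gt : Q → Option G
  /-- The gate projector at a qubit. -/
  π : Q → M2
  /-- The last projector at a qubit. -/
  E : Q → M2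
  /-- The opened qubits. -/
  RS : Q → Bool
  /-- The direction of the gate projector at the opened qubits. -/
  p : Q → V2
  /-- The direction of the last projector at the opened qubits. -/
  s : Q → V2
  π_proj : ∀ q, IsStarProjection (π q)
  E_proj : ∀ q, IsStarProjection (E q)
  p_unit : ∀ q, RS q = true → ‖p q‖ = 1
  s_unit : ∀ q, RS q = true → ‖s q‖ = 1
  π_eq : ∀ q, RS q = true → π q = kb (p q) (p q)
  E_eq : ∀ q, RS q = true → E q = kb (s q) (s q)

namespace HSys

variable (S : HSys Q G)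

/-- Bits as scalars. -/
def bc (b : Bool) : ℂ := if b then 1 else 0

@[simp] lemma bc_true : bc true = 1 := rfl
@[simp] lemma bc_false : bc false = 0 := rfl

/-- The gate layer of the system, with the gates selected by `Y`. -/
noncomputable def T (Y : G → Bool) : Op Q :=
  Ty S.gt S.π (fun l => bc (Y l)) (Finset.univ : Finset G).toList

/-- The projector of the system. -/
noncomputable def hat (Y : G → Bool) : Op Q := S.T Y * tp S.E * S.T Y

lemma hat_proj (Y : G → Bool) : IsStarProjection (S.hat Y) :=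
  Ty_conj_proj S.π_proj S.E_proj S.gt _ (fun l => by cases Y l <;> simp) _
    (Finset.nodup_toList _)

lemma hat_expand (Y : G → Bool) :
    S.hat Y = ∑ k : G → J, (∏ l, cw (bc (Y l)) (k l)) •
      tp (fun q => Oj S.π S.E (oext (false, false) k (S.gt q)) q) :=
  Ty_conj S.gt S.π S.E _ _ (Finset.nodup_toList _) (fun l => Finset.mem_toList.mpr (Finset.mem_univ l))

/-- The opening operator at one qubit. -/
noncomputable def aq (q : Q) (α : Bool) : M2 :=
  if S.RS q then kb (e α) (e false) else if α then 0 else 1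

/-- The opening operator. -/
noncomputable def A (a : Q → Bool) : Op Q := tp fun q => S.aq q (a q)

/-- The projector onto the reference state at the opened qubits. -/
noncomputable def P0 : Op Q := tp fun q => if S.RS q then kb (e false) (e false) else 1

/-- The identity on opened qubits with the last projector removed. -/
def red : HSys Q G where
  gt := S.gt
  π := fun q => if S.RS q then 1 else S.π q
  E := fun q => if S.RS q then 1 else S.E q
  RS := fun _ => false
  p := S.p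
  s := S.s
  π_proj := fun q => by
    by_cases h : S.RS q = true
    · simpa [h] using IsStarProjection.one _
    · simpa [h] using S.π_proj q
  E_proj := fun q => by
    by_cases h : S.RS q = true
    · simpa [h] using IsStarProjection.one _
    · simpa [h] using S.E_proj q
  p_unit := fun q h => by simp at h
  s_unit := fun q h => by simp at h
  π_eq := fun q h => by simp at h
  E_eq := fun q h => by simp at h

/-- The overlap at a gate of the opened qubits. -/
noncomputable def Cl (l : G) : ℝ :=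
  ∏ q ∈ Finset.univ.filter (fun q => S.gt q = some l),
    if S.RS q then Cq (S.s q) (S.p q) else 1

lemma Cl_nonneg (l : G) : 0 ≤ S.Cl l :=
  Finset.prod_nonneg fun q _ => by
    split_ifs
    · exact Cq_nonneg _ _
    · exact zero_le_one

lemma Cl_le_one (l : G) : S.Cl l ≤ 1 :=
  Finset.prod_le_one (fun q _ => by
    split_ifs
    · exact Cq_nonneg _ _
    · exact zero_le_one) fun q _ => by
    split_ifs with h
    · exact Cq_le_one (S.s_unit q h) (S.p_unit q h)
    · exact le_rfl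

/-- The sum over a bit of the conjugates by the opening operators. -/
lemma aq_sum (q : Q) (X : M2) :
    ∑ α, star (S.aq q α) * X * S.aq q α
      = if S.RS q then Matrix.trace X • kb (e false) (e false) else X := by
  unfold aq
  by_cases h : S.RS q = true
  · simp only [h, if_true, star_kb]
    have hk : ∀ α : Bool, kb (e false) (act (star X) (e α)) * kb (e α) (e false)
        = X α α • kb (e false) (e false) := by
      intro α
      rw [kb_mul_kb, ← inner_act, inner_e_act]
    simp only [kb_mul, Fintype.sum_bool, hk]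
    rw [← add_smul]
    simp [Matrix.trace, Fintype.sum_bool]
  · simp [h, Fintype.sum_bool]

/-- The trace of the terms at an opened qubit. -/
lemma trace_Oj (q : Q) (h : S.RS q = true) (j : J) :
    Matrix.trace (Oj S.π S.E j q)
      = if j = (false, false) then 1 else (Cq (S.s q) (S.p q) : ℂ) := by
  have hp := S.p_unit q h
  have hs := S.s_unit q h
  have hp1 : ⟪S.p q, S.p q⟫_ℂ = 1 := by
    rw [inner_self_eq_norm_sq_to_K, hp]; simp
  have hs1 : ⟪S.s q, S.s q⟫_ℂ = 1 := by
    rw [inner_self_eq_norm_sq_to_K, hs]; simp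
  have hC : ⟪S.s q, S.p q⟫_ℂ * ⟪S.p q, S.s q⟫_ℂ = (Cq (S.s q) (S.p q) : ℂ) := inner_mul_inner _ _
  unfold Oj
  rw [S.π_eq q h, S.E_eq q h]
  rcases j with ⟨_ | _, _ | _⟩
  · simp only [pw, Bool.false_eq_true, if_false, one_mul, mul_one, if_true]
    rw [trace_kb, hs1]
  · simp only [pw, Bool.false_eq_true, if_false, one_mul, if_true, Prod.mk.injEq, and_false]
    rw [kb_mul_kb, Matrix.trace_smul, trace_kb, smul_eq_mul, hC]
    simp
  · simp only [pw, Bool.false_eq_true, if_false, mul_one, if_true, Prod.mk.injEq, false_and]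
    rw [kb_mul_kb, Matrix.trace_smul, trace_kb, smul_eq_mul, mul_comm, hC]
    simp
  · simp only [pw, if_true, Prod.mk.injEq, Bool.true_eq_false, and_self, if_false]
    rw [kb_mul_kb, smul_mul_assoc, kb_mul_kb, smul_smul, Matrix.trace_smul, trace_kb, hp1, smul_eq_mul,
      mul_one, mul_comm, hC]

/-- The weights of the random selection of gates. -/
noncomputable def mu (χ : ℝ) (b : Bool) : ℂ := if b then (χ : ℂ) else 1 - (χ : ℂ)

lemma mu_mix (Y : Bool) (C : ℝ) (j : J) :
    ∑ b, mu (if Y then C else 0) b * cw (bc b) j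
      = cw (bc Y) j * (if j = (false, false) then 1 else (C : ℂ)) := by
  rcases j with ⟨_ | _, _ | _⟩ <;> cases Y <;> simp [mu, cw, bw, bc, Fintype.sum_bool] <;> ring

lemma act_sum' {ι X : Type} [Fintype ι] [DecidableEq ι] (s : Finset X) (F : X → Matrix ι ι ℂ)
    (v : Vec ι) : act (∑ x ∈ s, F x) v = ∑ x ∈ s, act (F x) v := by
  simp [act, map_sum]

lemma act_smul_tp_eq (t : Q → ℂ) (O : Q → M2) (Ψ : Vec (Q → Bool)) (hΨ : act S.P0 Ψ = Ψ) :
    act (tp fun q => if S.RS q then t q • kb (e false) (e false) else O q) Ψ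
      = (∏ q, if S.RS q then t q else 1) • act (tp fun q => if S.RS q then 1 else O q) Ψ := by
  have h1 : (tp fun q => if S.RS q then t q • kb (e false) (e false) else O q)
      = (∏ q, if S.RS q then t q else 1) • (tp (fun q => if S.RS q then 1 else O q) * S.P0) := by
    rw [P0, tp_mul, ← tp_smul]
    congr 1
    funext q
    by_cases h : S.RS q = true <;> simp [h]
  rw [h1, act_smul, act_mul, hΨ]

lemma Oj_red (j : J) (q : Q) :
    Oj S.red.π S.red.E j q = if S.RS q then 1 else Oj S.π S.E j q := by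
  unfold Oj
  by_cases h : S.RS q = true
  · rcases j with ⟨_ | _, _ | _⟩ <;> simp [red, pw, h]
  · rcases j with ⟨_ | _, _ | _⟩ <;> simp [red, pw, h]

lemma trace_prod (k : G → J) :
    ∏ q, (if S.RS q then Matrix.trace (Oj S.π S.E (oext (false, false) k (S.gt q)) q) else 1)
      = ∏ l, if k l = (false, false) then 1 else (S.Cl l : ℂ) := by
  set hh : Q → J → ℂ := fun q j => if S.RS q then (if j = (false, false) then (1 : ℂ)
          else (Cq (S.s q) (S.p q) : ℂ)) else 1 with hhh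
  have h1 : ∀ q, (if S.RS q then Matrix.trace (Oj S.π S.E (oext (false, false) k (S.gt q)) q) else 1)
      = hh q (oext (false, false) k (S.gt q)) := by
    intro q
    by_cases h : S.RS q = true
    · simp only [hhh, h, if_true, trace_Oj S q h]
    · simp [hhh, h]
  rw [Finset.prod_congr rfl fun q _ => h1 q, prod_by_gate]
  have h2 : ∏ q ∈ Finset.univ.filter (fun q => S.gt q = none), hh q (false, false) = 1 :=
    Finset.prod_eq_one fun q _ => by simp [hhh]
  rw [h2, one_mul]
  refine Finset.prod_congr rfl fun l _ => ?_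
  by_cases hk : k l = (false, false)
  · rw [if_pos hk]
    exact Finset.prod_eq_one fun q _ => by simp [hhh, hk]
  · rw [if_neg hk, Cl]
    push_cast
    refine Finset.prod_congr rfl fun q _ => ?_
    by_cases h : S.RS q = true <;> simp [hhh, h, hk]

/-- The opened trace identity. -/
theorem trace_identity (Y : G → Bool) (Ψ : Vec (Q → Bool)) (hΨ : act S.P0 Ψ = Ψ) :
    ∑ a, ⟪act (S.A a) Ψ, act (S.hat Y) (act (S.A a) Ψ)⟫_ℂ
      = ∑ y : G → Bool, (∏ l, mu (if Y l then S.Cl l else 0) (y l))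
          * ⟪Ψ, act (S.red.hat y) Ψ⟫_ℂ := by
  -- conjugation
  have h1 : ∀ a, ⟪act (S.A a) Ψ, act (S.hat Y) (act (S.A a) Ψ)⟫_ℂ
      = ⟪Ψ, act (star (S.A a) * S.hat Y * S.A a) Ψ⟫_ℂ := by
    intro a
    rw [mul_assoc, act_mul, act_mul, inner_act (star (S.A a)), star_star]
  simp_rw [h1]
  rw [← inner_sum]
  -- the sum of the conjugates
  have h2 : ∑ a, star (S.A a) * S.hat Y * S.A a
      = ∑ k : G → J, (∏ l, cw (bc (Y l)) (k l)) •
          tp (fun q => if S.RS q then
              Matrix.trace (Oj S.π S.E (oext (false, false) k (S.gt q)) q) • kb (e false) (e false)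
            else Oj S.π S.E (oext (false, false) k (S.gt q)) q) := by
    simp only [hat_expand, Finset.mul_sum, Finset.sum_mul, smul_mul_assoc, mul_smul_comm]
    rw [Finset.sum_comm]
    refine Finset.sum_congr rfl fun k _ => ?_
    rw [← Finset.smul_sum]
    congr 1
    have h3 : (fun q => if S.RS q then
        Matrix.trace (Oj S.π S.E (oext (false, false) k (S.gt q)) q) • kb (e false) (e false)
        else Oj S.π S.E (oext (false, false) k (S.gt q)) q)
        = fun q => ∑ α, star (S.aq q α) * Oj S.π S.E (oext (false, false) k (S.gt q)) q * S.aq q α := by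
      funext q
      rw [aq_sum]
    rw [h3, tp_sum]
    refine Finset.sum_congr rfl fun a _ => ?_
    rw [A, tp_star, tp_mul, tp_mul]
  rw [← act_sum', h2, act_sum']
  -- the action on the vector
  have h3 : ∀ k : G → J, act ((∏ l, cw (bc (Y l)) (k l)) •
          tp (fun q => if S.RS q then
              Matrix.trace (Oj S.π S.E (oext (false, false) k (S.gt q)) q) • kb (e false) (e false)
            else Oj S.π S.E (oext (false, false) k (S.gt q)) q)) Ψ
      = ∑ y : G → Bool, (∏ l, mu (if Y l then S.Cl l else 0) (y l)) •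
          ((∏ l, cw (bc (y l)) (k l)) •
            act (tp fun q => Oj S.red.π S.red.E (oext (false, false) k (S.gt q)) q) Ψ) := by
    intro k
    rw [act_smul, act_smul_tp_eq S _ _ Ψ hΨ, trace_prod]
    simp only [smul_smul, ← Finset.sum_smul]
    congr 1
    · rw [← Finset.prod_mul_distrib]
      have h4 : ∀ l, cw (bc (Y l)) (k l) * (if k l = (false, false) then 1 else (S.Cl l : ℂ))
          = ∑ b, mu (if Y l then S.Cl l else 0) b * cw (bc b) (k l) := fun l => (mu_mix _ _ _).symm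
      simp_rw [h4]
      rw [Finset.prod_univ_sum, Fintype.piFinset_univ]
      refine Finset.sum_congr rfl fun y _ => ?_
      rw [Finset.prod_mul_distrib]
    · congr 2
      funext q
      rw [Oj_red]
  simp_rw [h3]
  rw [inner_sum]
  simp_rw [inner_sum]
  rw [Finset.sum_comm]
  refine Finset.sum_congr rfl fun y _ => ?_
  rw [hat_expand, act_sum', inner_sum, Finset.mul_sum]
  refine Finset.sum_congr rfl fun k _ => ?_
  rw [act_smul]
  simp only [inner_smul_right]
  rfl

lemma inner_proj_self {ι : Type} [Fintype ι] [DecidableEq ι] {P : Matrix ι ι ℂ}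
    (hP : IsStarProjection P) (u v : Vec ι) : ⟪u, act P v⟫_ℂ = ⟪act P u, act P v⟫_ℂ := by
  have h : ⟪act P u, act P v⟫_ℂ = ⟪u, act P (act P v)⟫_ℂ := by
    rw [inner_act P u (act P v), hP.isSelfAdjoint.star_eq]
  rw [h, ← act_mul, hP.isIdempotentElem.eq]

lemma norm_proj_sq {ι : Type} [Fintype ι] [DecidableEq ι] {P : Matrix ι ι ℂ}
    (hP : IsStarProjection P) (v : Vec ι) : ⟪v, act P v⟫_ℂ = ((‖act P v‖ ^ 2 : ℝ) : ℂ) := by
  rw [inner_proj_self hP, inner_self_eq_norm_sq_to_K]
  push_cast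
  rfl

/-- The real weights of the random selection. -/
def muR (χ : ℝ) (b : Bool) : ℝ := if b then χ else 1 - χ

lemma mu_eq (χ : ℝ) (b : Bool) : mu χ b = (muR χ b : ℂ) := by
  cases b <;> simp [mu, muR]

/-- The sum of the squared norms of the opened vectors is at most the squared norm. -/
theorem trace_bound (Y : G → Bool) (Ψ : Vec (Q → Bool)) (hΨ : act S.P0 Ψ = Ψ) :
    ∑ a, ‖act (S.hat Y) (act (S.A a) Ψ)‖ ^ 2 ≤ ‖Ψ‖ ^ 2 := by
  have h1 := S.trace_identity Y Ψ hΨ
  have hp := S.hat_proj Y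
  simp_rw [norm_proj_sq hp] at h1
  have hχ : ∀ l, 0 ≤ (if Y l then S.Cl l else 0) ∧ (if Y l then S.Cl l else 0) ≤ 1 := by
    intro l
    by_cases h : Y l = true
    · simp only [h, if_true]
      exact ⟨S.Cl_nonneg l, S.Cl_le_one l⟩
    · simp [h]
  have hmu0 : ∀ (y : G → Bool) l, 0 ≤ muR (if Y l then S.Cl l else 0) (y l) := by
    intro y l
    unfold muR
    have := hχ l
    cases y l
    · simp only [Bool.false_eq_true, if_false]; linarith
    · simp only [if_true]; linarith
  have h2 : ∑ y : G → Bool, (∏ l, mu (if Y l then S.Cl l else 0) (y l))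
      * ⟪Ψ, act (S.red.hat y) Ψ⟫_ℂ
      = ((∑ y : G → Bool, (∏ l, muR (if Y l then S.Cl l else 0) (y l))
          * ‖act (S.red.hat y) Ψ‖ ^ 2 : ℝ) : ℂ) := by
    push_cast
    refine Finset.sum_congr rfl fun y _ => ?_
    rw [norm_proj_sq (S.red.hat_proj y)]
    congr 1
    · exact Finset.prod_congr rfl fun l _ => mu_eq _ _
    · push_cast
      rfl
  rw [h2] at h1
  have h3 : ∑ a, ‖act (S.hat Y) (act (S.A a) Ψ)‖ ^ 2
      = ∑ y : G → Bool, (∏ l, muR (if Y l then S.Cl l else 0) (y l))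
          * ‖act (S.red.hat y) Ψ‖ ^ 2 := by
    have : ((∑ a, ‖act (S.hat Y) (act (S.A a) Ψ)‖ ^ 2 : ℝ) : ℂ)
        = ((∑ y : G → Bool, (∏ l, muR (if Y l then S.Cl l else 0) (y l))
          * ‖act (S.red.hat y) Ψ‖ ^ 2 : ℝ) : ℂ) := by
      rw [← h1]
      push_cast
      rfl
    exact_mod_cast this
  rw [h3]
  have h4 : ∑ y : G → Bool, ∏ l, muR (if Y l then S.Cl l else 0) (y l) = 1 := by
    have := Finset.prod_univ_sum (fun _ : G => (Finset.univ : Finset Bool))
      (fun l b => muR (if Y l then S.Cl l else 0) b)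
    rw [Fintype.piFinset_univ] at this
    rw [← this]
    refine Finset.prod_eq_one fun l _ => ?_
    simp [muR, Fintype.sum_bool]
  calc _ ≤ ∑ y : G → Bool, (∏ l, muR (if Y l then S.Cl l else 0) (y l)) * ‖Ψ‖ ^ 2 := by
        refine Finset.sum_le_sum fun y _ => ?_
        refine mul_le_mul_of_nonneg_left ?_ (Finset.prod_nonneg fun l _ => hmu0 y l)
        exact norm_act_proj_le (S.red.hat_proj y) Ψ
    _ = ‖Ψ‖ ^ 2 := by rw [← Finset.sum_mul, h4, one_mul]

/-- The Hilbert-Schmidt bound. -/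
theorem hs_bound (Y : G → Bool) (Ψ1 Ψ2 Ψ3 Ψ4 : Vec (Q → Bool)) (h1 : act S.P0 Ψ1 = Ψ1)
    (h2 : act S.P0 Ψ2 = Ψ2) (h3 : act S.P0 Ψ3 = Ψ3) (h4 : act S.P0 Ψ4 = Ψ4) :
    ‖∑ a, ∑ a', ⟪act (S.A a) Ψ1, act (S.hat Y) (act (S.A a') Ψ2)⟫_ℂ
        * conj ⟪act (S.A a) Ψ3, act (S.hat Y) (act (S.A a') Ψ4)⟫_ℂ‖
      ≤ ‖Ψ1‖ * ‖Ψ2‖ * ‖Ψ3‖ * ‖Ψ4‖ := by
  have hp := S.hat_proj Y
  set n : Vec (Q → Bool) → (Q → Bool) → ℝ := fun Ψ a => ‖act (S.hat Y) (act (S.A a) Ψ)‖ with hn
  have hn0 : ∀ Ψ a, 0 ≤ n Ψ a := fun Ψ a => norm_nonneg _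
  have hterm : ∀ (Ψ Ψ' : Vec (Q → Bool)) (a a' : Q → Bool),
      ‖⟪act (S.A a) Ψ, act (S.hat Y) (act (S.A a') Ψ')⟫_ℂ‖ ≤ n Ψ a * n Ψ' a' := by
    intro Ψ Ψ' a a'
    rw [inner_proj_self hp]
    exact norm_inner_le_norm _ _
  have hc : ∀ (Ψ Ψ' : Vec (Q → Bool)), act S.P0 Ψ = Ψ → act S.P0 Ψ' = Ψ' →
      ∑ a, n Ψ a * n Ψ' a ≤ ‖Ψ‖ * ‖Ψ'‖ := by
    intro Ψ Ψ' hΨ hΨ'
    have h5 := Finset.sum_mul_sq_le_sq_mul_sq Finset.univ (n Ψ) (n Ψ')
    have h6 : ∑ a, n Ψ a ^ 2 ≤ ‖Ψ‖ ^ 2 := S.trace_bound Y Ψ hΨ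
    have h7 : ∑ a, n Ψ' a ^ 2 ≤ ‖Ψ'‖ ^ 2 := S.trace_bound Y Ψ' hΨ'
    have h8 : (∑ a, n Ψ a * n Ψ' a) ^ 2 ≤ (‖Ψ‖ * ‖Ψ'‖) ^ 2 := by
      rw [mul_pow]
      exact h5.trans (mul_le_mul h6 h7 (Finset.sum_nonneg fun _ _ => by positivity) (by positivity))
    exact le_of_pow_le_pow_left₀ two_ne_zero (by positivity) h8
  calc _ ≤ ∑ a, ∑ a', (n Ψ1 a * n Ψ3 a) * (n Ψ2 a' * n Ψ4 a') := by
        refine (norm_sum_le _ _).trans (Finset.sum_le_sum fun a _ => ?_)
        refine (norm_sum_le _ _).trans (Finset.sum_le_sum fun a' _ => ?_)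
        rw [norm_mul, RCLike.norm_conj]
        calc _ ≤ (n Ψ1 a * n Ψ2 a') * (n Ψ3 a * n Ψ4 a') := by
              gcongr
              · exact hterm _ _ _ _
              · exact hterm _ _ _ _
          _ = _ := by ring
    _ = (∑ a, n Ψ1 a * n Ψ3 a) * ∑ a', n Ψ2 a' * n Ψ4 a' := by
        rw [Finset.sum_mul_sum]
    _ ≤ (‖Ψ1‖ * ‖Ψ3‖) * (‖Ψ2‖ * ‖Ψ4‖) := by
        have := hc Ψ1 Ψ3 h1 h3
        have := hc Ψ2 Ψ4 h2 h4
        exact mul_le_mul (hc Ψ1 Ψ3 h1 h3) (hc Ψ2 Ψ4 h2 h4)
          (Finset.sum_nonneg fun a _ => mul_nonneg (hn0 _ _) (hn0 _ _)) (by positivity)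
    _ = _ := by ring

end HSys

/-- The Hilbert-Schmidt inner product of two Gram matrices is nonnegative. -/
theorem gram_nonneg {ι X : Type} [Fintype ι] [DecidableEq ι] [Fintype X] (W W' : X → Vec ι) :
    ∃ r : ℝ, 0 ≤ r ∧
      ∑ a, ∑ a', ⟪W a, W a'⟫_ℂ * conj ⟪W' a, W' a'⟫_ℂ = (r : ℂ) := by
  refine ⟨∑ s, ∑ t, ‖∑ a, conj (W a s) * W' a t‖ ^ 2, by positivity, ?_⟩
  push_cast
  have hin : ∀ (u v : Vec ι), ⟪u, v⟫_ℂ = ∑ s, conj (u s) * v s := by
    intro u v
    rw [PiLp.inner_apply]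
    refine Finset.sum_congr rfl fun s _ => ?_
    rw [RCLike.inner_apply, mul_comm]
  have hsq : ∀ z : ℂ, ((‖z‖ : ℂ)) ^ 2 = z * conj z := by
    intro z
    rw [Complex.mul_conj, Complex.normSq_eq_norm_sq]
    push_cast
    rfl
  -- expand both sides
  have hL : ∀ a a', ⟪W a, W a'⟫_ℂ * conj ⟪W' a, W' a'⟫_ℂ
      = ∑ s, ∑ t, (conj (W a s) * W' a t) * conj (conj (W a' s) * W' a' t) := by
    intro a a'
    rw [hin, hin, map_sum, Finset.sum_mul_sum]
    refine Finset.sum_congr rfl fun s _ => Finset.sum_congr rfl fun t _ => ?_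
    simp only [map_mul, Complex.conj_conj]
    ring
  simp_rw [hL, hsq, map_sum, Finset.sum_mul_sum]
  calc _ = ∑ a, ∑ s, ∑ a', ∑ t, (conj (W a s) * W' a t) * conj (conj (W a' s) * W' a' t) :=
        Finset.sum_congr rfl fun a _ => Finset.sum_comm
    _ = ∑ s, ∑ a, ∑ a', ∑ t, (conj (W a s) * W' a t) * conj (conj (W a' s) * W' a' t) :=
        Finset.sum_comm
    _ = ∑ s, ∑ a, ∑ t, ∑ a', (conj (W a s) * W' a t) * conj (conj (W a' s) * W' a' t) :=
        Finset.sum_congr rfl fun s _ => Finset.sum_congr rfl fun a _ => Finset.sum_comm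
    _ = _ := Finset.sum_congr rfl fun s _ => Finset.sum_comm

end Vale.Agent.Lib.P368
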