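import Vale.Agent.Lib.P368.D3.HS

/-! The expansion of the Hilbert-Schmidt form on product vectors and the bound for one gate. -/

namespace Vale.Agent.Lib.P368

open Matrix Finset
open scoped Matrix.Norms.L2Operator InnerProductSpace ComplexConjugate

set_option linter.unusedSectionVars false
set_option linter.unusedSimpArgs false
set_option linter.unusedVariables false

variable {Q G : Type} [Fintype Q] [DecidableEq Q] [Fintype G] [DecidableEq G]

/-- A sum over two functions is a sum over functions to pairs. -/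
lemma sum_sum_pair' {X X' M : Type} [Fintype X] [Fintype X'] [DecidableEq X] [DecidableEq X']
    [AddCommMonoid M] (F : (G → X) → (G → X') → M) :
    ∑ A, ∑ B, F A B = ∑ k : G → X × X', F (fun l => (k l).1) (fun l => (k l).2) := by
  rw [← Finset.sum_product']
  refine Finset.sum_nbij' (fun p l => (p.1 l, p.2 l)) (fun k => (fun l => (k l).1, fun l => (k l).2))
    ?_ ?_ ?_ ?_ ?_
  · intro _ _; simp
  · intro _ _; simp
  · intro _ _; rfl
  · intro _ _; rfl
  · intro _ _; rfl

/-- The algebra of the expansion of the Hilbert-Schmidt form. -/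
lemma hs_expand_generic {X : Type} [Fintype X] [DecidableEq X] (gt : Q → Option G) (x0 : X)
    (c : G → X → ℂ) (u u' : Q → X → Bool → Bool → ℂ) :
    ∑ a : Q → Bool, ∑ a' : Q → Bool,
      (∑ k : G → X, (∏ l, c l (k l)) * ∏ q, u q (oext x0 k (gt q)) (a q) (a' q))
        * conj (∑ k : G → X, (∏ l, c l (k l)) * ∏ q, u' q (oext x0 k (gt q)) (a q) (a' q))
      = ∑ κ : G → X × X, (∏ l, (c l (κ l).1 * conj (c l (κ l).2)))
          * ∏ q, ∑ α, ∑ α', u q (oext (x0, x0) κ (gt q)).1 α α'
              * conj (u' q (oext (x0, x0) κ (gt q)).2 α α') := by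
  have h1 : ∀ a a' : Q → Bool,
      (∑ k : G → X, (∏ l, c l (k l)) * ∏ q, u q (oext x0 k (gt q)) (a q) (a' q))
        * conj (∑ k : G → X, (∏ l, c l (k l)) * ∏ q, u' q (oext x0 k (gt q)) (a q) (a' q))
      = ∑ k : G → X, ∑ k' : G → X, ((∏ l, c l (k l)) * ∏ l, conj (c l (k' l)))
          * ∏ q, (u q (oext x0 k (gt q)) (a q) (a' q)
              * conj (u' q (oext x0 k' (gt q)) (a q) (a' q))) := by
    intro a a'
    rw [map_sum, Finset.sum_mul_sum]
    refine Finset.sum_congr rfl fun k _ => Finset.sum_congr rfl fun k' _ => ?_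
    rw [map_mul, map_prod, map_prod, Finset.prod_mul_distrib (s := Finset.univ)]
    ring
  have h2 : ∑ a : Q → Bool, ∑ a' : Q → Bool, ∑ k : G → X, ∑ k' : G → X,
      ((∏ l, c l (k l)) * ∏ l, conj (c l (k' l)))
          * ∏ q, (u q (oext x0 k (gt q)) (a q) (a' q)
              * conj (u' q (oext x0 k' (gt q)) (a q) (a' q)))
      = ∑ k : G → X, ∑ k' : G → X, ((∏ l, c l (k l)) * ∏ l, conj (c l (k' l)))
          * ∏ q, ∑ α, ∑ α', (u q (oext x0 k (gt q)) α α'
              * conj (u' q (oext x0 k' (gt q)) α α')) := by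
    calc _ = ∑ a : Q → Bool, ∑ k : G → X, ∑ a' : Q → Bool, ∑ k' : G → X,
      ((∏ l, c l (k l)) * ∏ l, conj (c l (k' l)))
          * ∏ q, (u q (oext x0 k (gt q)) (a q) (a' q)
              * conj (u' q (oext x0 k' (gt q)) (a q) (a' q))) :=
          Finset.sum_congr rfl fun a _ => Finset.sum_comm
      _ = ∑ k : G → X, ∑ a : Q → Bool, ∑ a' : Q → Bool, ∑ k' : G → X,
      ((∏ l, c l (k l)) * ∏ l, conj (c l (k' l)))
          * ∏ q, (u q (oext x0 k (gt q)) (a q) (a' q)
              * conj (u' q (oext x0 k' (gt q)) (a q) (a' q))) := Finset.sum_comm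
      _ = ∑ k : G → X, ∑ a : Q → Bool, ∑ k' : G → X, ∑ a' : Q → Bool,
      ((∏ l, c l (k l)) * ∏ l, conj (c l (k' l)))
          * ∏ q, (u q (oext x0 k (gt q)) (a q) (a' q)
              * conj (u' q (oext x0 k' (gt q)) (a q) (a' q))) :=
          Finset.sum_congr rfl fun k _ => Finset.sum_congr rfl fun a _ => Finset.sum_comm
      _ = ∑ k : G → X, ∑ k' : G → X, ∑ a : Q → Bool, ∑ a' : Q → Bool,
      ((∏ l, c l (k l)) * ∏ l, conj (c l (k' l)))
          * ∏ q, (u q (oext x0 k (gt q)) (a q) (a' q)
              * conj (u' q (oext x0 k' (gt q)) (a q) (a' q))) :=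
          Finset.sum_congr rfl fun k _ => Finset.sum_comm
      _ = _ := by
          refine Finset.sum_congr rfl fun k _ => Finset.sum_congr rfl fun k' _ => ?_
          simp_rw [← Finset.mul_sum]
          rw [sum_sum_prod (fun q α α' => u q (oext x0 k (gt q)) α α'
              * conj (u' q (oext x0 k' (gt q)) α α'))]
  calc _ = _ := Finset.sum_congr rfl fun a _ => Finset.sum_congr rfl fun a' _ => h1 a a'
    _ = _ := h2
    _ = _ := by
        rw [sum_sum_pair']
        refine Finset.sum_congr rfl fun κ _ => ?_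
        congr 1
        · rw [Finset.prod_mul_distrib]
        · refine Finset.prod_congr rfl fun q _ => ?_
          cases gt q <;> rfl

/-- The coefficient of a pair of terms. -/
noncomputable def coσ (y : ℂ) (σ : J × J) : ℂ := cw y σ.1 * conj (cw y σ.2)

namespace HSys

variable (S : HSys Q G)

/-- The factor of a qubit in the expansion. -/
noncomputable def Hq (f1 f2 f3 f4 : V2) (q : Q) (σ : J × J) : ℂ :=
  ∑ α, ∑ α', sc (act (S.aq q α) f1) (Oj S.π S.E σ.1 q) (act (S.aq q α') f2)
    * conj (sc (act (S.aq q α) f3) (Oj S.π S.E σ.2 q) (act (S.aq q α') f4))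

lemma act_A_pv (a : Q → Bool) (f : Q → V2) :
    act (S.A a) (pv f) = pv fun q => act (S.aq q (a q)) (f q) := act_tp_pv _ _

lemma inner_hat_pv (Y : G → Bool) (f g : Q → V2) :
    ⟪pv f, act (S.hat Y) (pv g)⟫_ℂ
      = ∑ k : G → J, (∏ l, cw (bc (Y l)) (k l))
          * ∏ q, sc (f q) (Oj S.π S.E (oext (false, false) k (S.gt q)) q) (g q) := by
  rw [hat_expand, act_sum', inner_sum]
  refine Finset.sum_congr rfl fun k _ => ?_
  rw [act_smul, inner_smul_right, inner_pv_tp]

/-- The expansion of the Hilbert-Schmidt form on product vectors. -/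
theorem gram_expand (Y : G → Bool) (f1 f2 f3 f4 : Q → V2) :
    ∑ a, ∑ a', ⟪act (S.A a) (pv f1), act (S.hat Y) (act (S.A a') (pv f2))⟫_ℂ
        * conj ⟪act (S.A a) (pv f3), act (S.hat Y) (act (S.A a') (pv f4))⟫_ℂ
      = ∑ κ : G → J × J, (∏ l, coσ (bc (Y l)) (κ l))
          * ∏ q, S.Hq (f1 q) (f2 q) (f3 q) (f4 q) q
              (oext ((false, false), (false, false)) κ (S.gt q)) := by
  have h := hs_expand_generic S.gt ((false, false) : J) (fun l j => cw (bc (Y l)) j)
    (fun q j α α' => sc (act (S.aq q α) (f1 q)) (Oj S.π S.E j q) (act (S.aq q α') (f2 q)))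
    (fun q j α α' => sc (act (S.aq q α) (f3 q)) (Oj S.π S.E j q) (act (S.aq q α') (f4 q)))
  simp only [act_A_pv, inner_hat_pv]
  exact h

/-- The expansion grouped by gates. -/
theorem gram_fubini (Y : G → Bool) (f1 f2 f3 f4 : Q → V2) :
    ∑ κ : G → J × J, (∏ l, coσ (bc (Y l)) (κ l))
          * ∏ q, S.Hq (f1 q) (f2 q) (f3 q) (f4 q) q
              (oext ((false, false), (false, false)) κ (S.gt q))
      = (∏ q ∈ Finset.univ.filter (fun q => S.gt q = none),
            S.Hq (f1 q) (f2 q) (f3 q) (f4 q) q ((false, false), (false, false)))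
        * ∏ l, ∑ σ, coσ (bc (Y l)) σ
            * ∏ q ∈ Finset.univ.filter (fun q => S.gt q = some l),
                S.Hq (f1 q) (f2 q) (f3 q) (f4 q) q σ :=
  fubini_gate S.gt _ (fun l σ => coσ (bc (Y l)) σ)
    (fun q σ => S.Hq (f1 q) (f2 q) (f3 q) (f4 q) q σ)

/-- The system of one gate. -/
noncomputable def oneGate (l : G) : HSys Q Unit where
  gt := fun q => if S.gt q = some l then some () else none
  π := fun q => if S.gt q = some l then S.π q else 1
  E := fun q => if S.gt q = some l then S.E q else 1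
  RS := fun q => decide (S.gt q = some l) && S.RS q
  p := S.p
  s := S.s
  π_proj := fun q => by
    by_cases h : S.gt q = some l
    · simpa [h] using S.π_proj q
    · simpa [h] using IsStarProjection.one _
  E_proj := fun q => by
    by_cases h : S.gt q = some l
    · simpa [h] using S.E_proj q
    · simpa [h] using IsStarProjection.one _
  p_unit := fun q h => S.p_unit q (by simp at h; exact h.2)
  s_unit := fun q h => S.s_unit q (by simp at h; exact h.2)
  π_eq := fun q h => by
    simp only [Bool.and_eq_true, decide_eq_true_eq] at h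
    simp [h.1, S.π_eq q h.2]
  E_eq := fun q h => by
    simp only [Bool.and_eq_true, decide_eq_true_eq] at h
    simp [h.1, S.E_eq q h.2]

/-- The bound for one gate. -/
theorem one_gate_bound (l : G) (Y0 : Bool) (f1 f2 f3 f4 : Q → V2)
    (h1 : ∀ q, ‖f1 q‖ ≤ 1) (h2 : ∀ q, ‖f2 q‖ ≤ 1) (h3 : ∀ q, ‖f3 q‖ ≤ 1) (h4 : ∀ q, ‖f4 q‖ ≤ 1)
    (h1' : ∀ q, S.RS q = true → f1 q = e false) (h2' : ∀ q, S.RS q = true → f2 q = e false)
    (h3' : ∀ q, S.RS q = true → f3 q = e false) (h4' : ∀ q, S.RS q = true → f4 q = e false) :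
    ‖∑ σ, coσ (bc Y0) σ
        * ∏ q ∈ Finset.univ.filter (fun q => S.gt q = some l),
            S.Hq (f1 q) (f2 q) (f3 q) (f4 q) q σ‖ ≤ 1 := by
  set S' := S.oneGate l with hS'
  set g : (Q → V2) → Q → V2 := fun f q => if S.gt q = some l then f q else e false with hg
  have hinv : ∀ f : Q → V2, (∀ q, S.RS q = true → f q = e false) → act S'.P0 (pv (g f)) = pv (g f) := by
    intro f hf
    unfold P0
    rw [act_tp_pv]
    congr 1
    funext q
    by_cases hq : S.gt q = some l
    · by_cases hr : S.RS q = true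
      · have : S'.RS q = true := by simp [hS', oneGate, hq, hr]
        rw [if_pos this, act_kb]
        simp only [hg, hq, if_true, hf q hr]
        rw [inner_self_eq_norm_sq_to_K, norm_e]
        simp
      · have : S'.RS q = false := by simp [hS', oneGate, hq, hr]
        simp [this, act_one]
    · have : S'.RS q = false := by simp [hS', oneGate, hq]
      simp [this, act_one]
  have hnorm : ∀ f : Q → V2, (∀ q, ‖f q‖ ≤ 1) → ‖pv (g f)‖ ≤ 1 := by
    intro f hf
    refine norm_pv_le fun q => ?_
    simp only [hg]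
    split_ifs
    · exact hf q
    · rw [norm_e]
  have hb := S'.hs_bound (fun _ => Y0) _ _ _ _ (hinv f1 h1') (hinv f2 h2') (hinv f3 h3') (hinv f4 h4')
  rw [S'.gram_expand, S'.gram_fubini] at hb
  have hfree : ∏ q ∈ Finset.univ.filter (fun q => S'.gt q = none),
      S'.Hq (g f1 q) (g f2 q) (g f3 q) (g f4 q) q ((false, false), (false, false)) = 1 := by
    refine Finset.prod_eq_one fun q hq => ?_
    have hq1 : S'.gt q = none := (Finset.mem_filter.mp hq).2
    have hq2 : ¬ S.gt q = some l := by
      intro h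
      simp [hS', oneGate, h] at hq1
    have hR : S'.RS q = false := by simp [hS', oneGate, hq2]
    have hpi : S'.π q = 1 := by simp [hS', oneGate, hq2]
    have hE : S'.E q = 1 := by simp [hS', oneGate, hq2]
    simp only [Hq, Oj, hpi, hE, pw, Fintype.sum_bool, aq, hR, hg, hq2, if_false, Bool.false_eq_true,
      if_true, mul_one, act_one, sc]
    simp [act, inner_self_eq_norm_sq_to_K, norm_e]
  have hgate : ∀ σ, ∏ q ∈ Finset.univ.filter (fun q => S'.gt q = some ()),
      S'.Hq (g f1 q) (g f2 q) (g f3 q) (g f4 q) q σ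
      = ∏ q ∈ Finset.univ.filter (fun q => S.gt q = some l),
          S.Hq (f1 q) (f2 q) (f3 q) (f4 q) q σ := by
    intro σ
    have hset : Finset.univ.filter (fun q => S'.gt q = some ())
        = Finset.univ.filter (fun q => S.gt q = some l) := by
      ext q
      simp only [Finset.mem_filter, Finset.mem_univ, true_and]
      by_cases h : S.gt q = some l <;> simp [hS', oneGate, h]
    rw [hset]
    refine Finset.prod_congr rfl fun q hq => ?_
    have hq1 : S.gt q = some l := (Finset.mem_filter.mp hq).2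
    have hR : S'.RS q = S.RS q := by simp [hS', oneGate, hq1]
    have hpi : S'.π q = S.π q := by simp [hS', oneGate, hq1]
    have hE : S'.E q = S.E q := by simp [hS', oneGate, hq1]
    have ha : ∀ α, S'.aq q α = S.aq q α := by
      intro α
      unfold aq
      rw [hR]
    simp only [Hq, Oj, hpi, hE, ha, hg, hq1, if_true]
  simp only [hfree, hgate, one_mul, Fintype.prod_unique] at hb
  have h5 := hnorm f1 h1
  have h6 := hnorm f2 h2
  have h7 := hnorm f3 h3
  have h8 := hnorm f4 h4
  refine hb.trans ?_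
  calc _ ≤ (1 : ℝ) * 1 * 1 * 1 := by gcongr
    _ = 1 := by norm_num

end HSys

end Vale.Agent.Lib.P368
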