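import Vale.Agent.Lib.P368.Observable

/-! One-qubit forms, rank-one matrices and product vectors. -/

namespace Vale.Agent.Lib.P368

open Matrix Finset
open scoped Matrix.Norms.L2Operator InnerProductSpace ComplexConjugate

set_option linter.unusedSectionVars false
set_option linter.unusedSimpArgs false
set_option linter.unusedVariables false

/-- One-qubit vectors. -/
abbrev V2 := Vec Bool

/-- The sesquilinear form of a one-qubit operator. -/
noncomputable def sc (u : V2) (O : M2) (v : V2) : ℂ := ⟪u, act O v⟫_ℂ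

/-- The rank-one operator `|u⟩⟨v|`. -/
noncomputable def kb (u v : V2) : M2 := Matrix.of fun a b => u a * conj (v b)

lemma kb_apply (u v : V2) (a b : Bool) : kb u v a b = u a * conj (v b) := rfl

lemma inner_V2 (u v : V2) : ⟪u, v⟫_ℂ = ∑ a, v a * conj (u a) := by
  rw [PiLp.inner_apply]
  simp

lemma act_kb (u v w : V2) : act (kb u v) w = ⟪v, w⟫_ℂ • u := by
  ext s
  rw [act_apply, PiLp.smul_apply, inner_V2, smul_eq_mul, Finset.sum_mul]
  refine Finset.sum_congr rfl fun b _ => ?_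
  rw [kb_apply]
  ring

lemma sc_kb (a u v b : V2) : sc a (kb u v) b = ⟪a, u⟫_ℂ * ⟪v, b⟫_ℂ := by
  unfold sc
  rw [act_kb, inner_smul_right]
  ring

lemma star_kb (u v : V2) : star (kb u v) = kb v u := by
  ext a b
  simp [kb_apply, Matrix.star_apply, mul_comm]

lemma act_vsmul {ι : Type} [Fintype ι] [DecidableEq ι] (A : Matrix ι ι ℂ) (c : ℂ) (v : Vec ι) :
    act A (c • v) = c • act A v := by
  simp [act]

lemma act_eq_of_forall {ι : Type} [Fintype ι] [DecidableEq ι] {A B : Matrix ι ι ℂ}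
    (h : ∀ v : Vec ι, act A v = act B v) : A = B := by
  ext a b
  have := congrArg (fun w : Vec ι => w a) (h (e b))
  simpa [act_e_apply] using this

lemma kb_mul_kb (a b c d : V2) : kb a b * kb c d = ⟪b, c⟫_ℂ • kb a d := by
  refine act_eq_of_forall fun v => ?_
  rw [act_mul, act_smul, act_kb, act_kb, act_kb, inner_smul_right, smul_smul, mul_comm]

lemma mul_kb (A : M2) (u v : V2) : A * kb u v = kb (act A u) v := by
  refine act_eq_of_forall fun w => ?_
  rw [act_mul, act_kb, act_kb, act_vsmul]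

lemma kb_mul (A : M2) (u v : V2) : kb u v * A = kb u (act (star A) v) := by
  refine act_eq_of_forall fun w => ?_
  rw [act_mul, act_kb, act_kb, inner_act]

lemma kb_proj {p : V2} (hp : ‖p‖ = 1) : IsStarProjection (kb p p) := by
  constructor
  · show kb p p * kb p p = kb p p
    rw [kb_mul_kb, inner_self_eq_norm_sq_to_K, hp]
    simp
  · show star (kb p p) = kb p p
    exact star_kb p p

lemma trace_kb (u v : V2) : Matrix.trace (kb u v) = ⟪v, u⟫_ℂ := by
  rw [inner_V2]
  simp [Matrix.trace, kb_apply]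

lemma sc_add_right (u : V2) (O O' : M2) (v : V2) : sc u (O + O') v = sc u O v + sc u O' v := by
  simp [sc, act_add, inner_add_right]

lemma norm_sc_le {u v : V2} {O : M2} (hu : ‖u‖ ≤ 1) (hv : ‖v‖ ≤ 1) (hO : ‖O‖ ≤ 1) :
    ‖sc u O v‖ ≤ 1 := by
  unfold sc
  calc ‖⟪u, act O v⟫_ℂ‖ ≤ ‖u‖ * ‖act O v‖ := norm_inner_le_norm _ _
    _ ≤ ‖u‖ * (‖O‖ * ‖v‖) := by gcongr; exact norm_act_le _ _
    _ ≤ 1 * (1 * 1) := by gcongr
    _ = 1 := by norm_num

/-! ### Product vectors -/

variable {Q : Type} [Fintype Q] [DecidableEq Q]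

/-- The product vector with factors `f q`. -/
noncomputable def pv (f : Q → V2) : Vec (Q → Bool) := WithLp.toLp 2 fun s => ∏ q, f q (s q)

lemma pv_apply (f : Q → V2) (s : Q → Bool) : pv f s = ∏ q, f q (s q) := rfl

lemma act_tp_pv (O : Q → M2) (f : Q → V2) : act (tp O) (pv f) = pv fun q => act (O q) (f q) := by
  ext s
  rw [act_apply, pv_apply]
  simp only [act_apply, pv_apply, tp_apply]
  simp_rw [← Finset.prod_mul_distrib]
  rw [Finset.prod_univ_sum, Fintype.piFinset_univ]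

lemma inner_pv (f g : Q → V2) : ⟪pv f, pv g⟫_ℂ = ∏ q, ⟪f q, g q⟫_ℂ := by
  rw [PiLp.inner_apply]
  simp only [RCLike.inner_apply, pv_apply, inner_V2]
  simp_rw [map_prod, ← Finset.prod_mul_distrib]
  rw [Finset.prod_univ_sum, Fintype.piFinset_univ]

lemma norm_pv_sq (f : Q → V2) : ‖pv f‖ ^ 2 = ∏ q, ‖f q‖ ^ 2 := by
  have h := inner_pv f f
  rw [inner_self_eq_norm_sq_to_K] at h
  simp only [inner_self_eq_norm_sq_to_K] at h
  have h2 : ((‖pv f‖ ^ 2 : ℝ) : ℂ) = ((∏ q, ‖f q‖ ^ 2 : ℝ) : ℂ) := by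
    push_cast
    simpa using h
  exact_mod_cast h2

lemma norm_pv_le {f : Q → V2} (hf : ∀ q, ‖f q‖ ≤ 1) : ‖pv f‖ ≤ 1 := by
  have h := norm_pv_sq f
  have h1 : ∏ q, ‖f q‖ ^ 2 ≤ 1 := by
    refine Finset.prod_le_one (fun q _ => by positivity) fun q _ => ?_
    have := hf q
    have h0 := norm_nonneg (f q)
    nlinarith
  have h2 : ‖pv f‖ ^ 2 ≤ 1 := by rw [h]; exact h1
  have h0 := norm_nonneg (pv f)
  nlinarith

lemma sc_eq_inner_act (u v : V2) (O : M2) : sc u O v = ⟪u, act O v⟫_ℂ := rfl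

/-- The matrix element of a tensor product between product vectors. -/
lemma inner_pv_tp (O : Q → M2) (f g : Q → V2) :
    ⟪pv f, act (tp O) (pv g)⟫_ℂ = ∏ q, sc (f q) (O q) (g q) := by
  rw [act_tp_pv, inner_pv]
  rfl

end Vale.Agent.Lib.P368
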