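import Vale.Agent.Lib.P368.D3.HS2

/-! The decomposition by gate patterns and the matrix units of the opened qubits. -/

namespace Vale.Agent.Lib.P368

open Matrix Finset
open scoped Matrix.Norms.L2Operator InnerProductSpace ComplexConjugate

set_option linter.unusedSectionVars false
set_option linter.unusedSimpArgs false
set_option linter.unusedVariables false

variable {Q : Type} [Fintype Q] [DecidableEq Q]

/-! ### The spectral projectors of the gate pattern -/

/-- The one-qubit factor of a spectral projector. -/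
noncomputable def Pbq (R : Q → Bool) (π : Q → M2) (q : Q) (β : Bool) : M2 :=
  if R q then (if β then π q else 1 - π q) else (if β then 1 else 0)

/-- A spectral projector. -/
noncomputable def Pb (R : Q → Bool) (π : Q → M2) (b : Q → Bool) : Op Q :=
  tp fun q => Pbq R π q (b q)

lemma Pbq_proj {R : Q → Bool} {π : Q → M2} (hπ : ∀ q, IsStarProjection (π q)) (q : Q) (β : Bool) :
    IsStarProjection (Pbq R π q β) := by
  unfold Pbq
  split_ifs
  · exact hπ q
  · exact (hπ q).one_sub
  · exact IsStarProjection.one _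
  · exact IsStarProjection.zero _

lemma Pb_proj {R : Q → Bool} {π : Q → M2} (hπ : ∀ q, IsStarProjection (π q)) (b : Q → Bool) :
    IsStarProjection (Pb R π b) := tp_proj fun q => Pbq_proj hπ q (b q)

/-- The scalar of the decomposition. -/
def Pscal (R d : Q → Bool) (q : Q) (β : Bool) : ℂ := if R q && d q && !β then 0 else 1

lemma Pb_one_qubit {R : Q → Bool} {π : Q → M2} (hπ : ∀ q, IsStarProjection (π q)) (d : Q → Bool)
    (X : Q → M2) (hX : ∀ q, R q = true → X q = 1) (q : Q) :
    ∑ β, Pscal R d q β • (Pbq R π q β * X q * Pbq R π q β)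
      = if R q && d q then π q else X q := by
  have hi := (hπ q).isIdempotentElem.eq
  have hi' : (1 - π q) * (1 - π q) = 1 - π q := (hπ q).one_sub.isIdempotentElem.eq
  by_cases hR : R q = true
  · rw [hX q hR]
    by_cases hd : d q = true
    · simp [Fintype.sum_bool, Pscal, Pbq, hR, hd, hi]
    · simp [Fintype.sum_bool, Pscal, Pbq, hR, hd, hi, hi']
  · simp [Fintype.sum_bool, Pscal, Pbq, hR]

/-- The decomposition of an expectation by gate patterns. -/
theorem Pb_decomp {R : Q → Bool} {π : Q → M2} (hπ : ∀ q, IsStarProjection (π q)) (d : Q → Bool)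
    (X : Q → M2) (hX : ∀ q, R q = true → X q = 1) (u : Vec (Q → Bool)) :
    ⟪u, act (tp fun q => if R q && d q then π q else X q) u⟫_ℂ
      = ∑ b : Q → Bool, (∏ q, Pscal R d q (b q))
          * ⟪act (Pb R π b) u, act (tp X) (act (Pb R π b) u)⟫_ℂ := by
  have h1 : (tp fun q => if R q && d q then π q else X q)
      = ∑ b : Q → Bool, (∏ q, Pscal R d q (b q)) • (Pb R π b * tp X * Pb R π b) := by
    have h2 : (fun q => if R q && d q then π q else X q)
        = fun q => ∑ β, Pscal R d q β • (Pbq R π q β * X q * Pbq R π q β) := by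
      funext q
      rw [Pb_one_qubit hπ d X hX q]
    rw [h2, tp_sum]
    refine Finset.sum_congr rfl fun b _ => ?_
    rw [tp_smul]
    congr 1
    unfold Pb
    rw [tp_mul, tp_mul]
  rw [h1, HSys.act_sum', inner_sum]
  refine Finset.sum_congr rfl fun b _ => ?_
  rw [act_smul, inner_smul_right]
  congr 1
  rw [mul_assoc, act_mul, act_mul, inner_act (Pb R π b), (Pb_proj hπ b).isSelfAdjoint.star_eq]

/-- The sum of the squared norms of the components. -/
theorem Pb_sum_norm {R : Q → Bool} {π : Q → M2} (hπ : ∀ q, IsStarProjection (π q))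
    (d : Q → Bool) (u : Vec (Q → Bool)) :
    ‖act (tp fun q => if R q && d q then π q else 1) u‖ ^ 2
      = ∑ b : Q → Bool, (∏ q, if R q && d q && !b q then (0 : ℝ) else 1) * ‖act (Pb R π b) u‖ ^ 2 := by
  have hp : IsStarProjection (tp fun q => if R q && d q then π q else (1 : M2)) := by
    refine tp_proj fun q => ?_
    split_ifs
    · exact hπ q
    · exact IsStarProjection.one _
  have h1 := Pb_decomp (R := R) hπ d (fun _ => 1) (fun _ _ => rfl) u
  rw [HSys.norm_proj_sq hp] at h1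
  rw [tp_one] at h1
  simp only [act_one] at h1
  have h2 : ((‖act (tp fun q => if R q && d q then π q else 1) u‖ ^ 2 : ℝ) : ℂ)
      = ((∑ b : Q → Bool, (∏ q, if R q && d q && !b q then (0 : ℝ) else 1)
          * ‖act (Pb R π b) u‖ ^ 2 : ℝ) : ℂ) := by
    rw [h1]
    push_cast
    refine Finset.sum_congr rfl fun b _ => ?_
    congr 1
    · refine Finset.prod_congr rfl fun q _ => ?_
      unfold Pscal
      split_ifs <;> simp
    · rw [inner_self_eq_norm_sq_to_K]
      rfl
  exact_mod_cast h2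

/-! ### Matrix units -/

/-- The one-qubit matrix unit. -/
noncomputable def muq (RS : Q → Bool) (q : Q) (α α' : Bool) : M2 :=
  if RS q then kb (e α) (e α') else if α || α' then 0 else 1

/-- The matrix unit. -/
noncomputable def MU (RS : Q → Bool) (a a' : Q → Bool) : Op Q := tp fun q => muq RS q (a q) (a' q)

/-- The coefficient of a matrix unit. -/
noncomputable def coq (RS : Q → Bool) (O : Q → M2) (q : Q) (α α' : Bool) : ℂ :=
  if RS q then O q α α' else if α || α' then 0 else 1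

lemma kb_e_apply (α α' a b : Bool) :
    kb (e α) (e α') a b = if a = α ∧ b = α' then 1 else 0 := by
  rw [kb_apply]
  cases α <;> cases α' <;> cases a <;> cases b <;> simp [e, PiLp.single_apply]

lemma mu_one_qubit (RS : Q → Bool) (O : Q → M2) (hO : ∀ q, RS q = false → O q = 1) (q : Q) :
    ∑ δ : Bool × Bool, coq RS O q δ.1 δ.2 • muq RS q δ.1 δ.2 = O q := by
  rw [Fintype.sum_prod_type]
  by_cases h : RS q = true
  · ext a b
    simp only [Fintype.sum_bool, coq, muq, h, if_true, Matrix.add_apply, Matrix.smul_apply,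
      smul_eq_mul, kb_e_apply]
    cases a <;> cases b <;> simp
  · have h' : RS q = false := by simpa using h
    simp [Fintype.sum_bool, coq, muq, h', hO q h']

/-- The expansion in matrix units. -/
theorem MU_decomp (RS : Q → Bool) (O : Q → M2) (hO : ∀ q, RS q = false → O q = 1) :
    tp O = ∑ a : Q → Bool, ∑ a' : Q → Bool, (∏ q, coq RS O q (a q) (a' q)) • MU RS a a' := by
  have h1 : O = fun q => ∑ δ : Bool × Bool, coq RS O q δ.1 δ.2 • muq RS q δ.1 δ.2 := by
    funext q
    exact (mu_one_qubit RS O hO q).symm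
  rw [sum_sum_pair']
  nth_rewrite 1 [h1]
  rw [tp_sum]
  refine Finset.sum_congr rfl fun d _ => ?_
  rw [tp_smul]
  rfl

lemma muq_mul_left (RS : Q → Bool) (q : Q) (α α' : Bool) :
    muq RS q α α * muq RS q α α' = muq RS q α α' := by
  unfold muq
  by_cases h : RS q = true
  · simp only [h, if_true]
    rw [kb_mul_kb, inner_self_eq_norm_sq_to_K, norm_e]
    simp
  · cases α <;> cases α' <;> simp [h]

lemma muq_mul_right (RS : Q → Bool) (q : Q) (α α' : Bool) :
    muq RS q α α' * muq RS q α' α' = muq RS q α α' := by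
  unfold muq
  by_cases h : RS q = true
  · simp only [h, if_true]
    rw [kb_mul_kb, inner_self_eq_norm_sq_to_K, norm_e]
    simp
  · cases α <;> cases α' <;> simp [h]

lemma muq_diag_proj (RS : Q → Bool) (q : Q) (α : Bool) : IsStarProjection (muq RS q α α) := by
  unfold muq
  by_cases h : RS q = true
  · simp only [h, if_true]
    exact kb_proj (norm_e _)
  · cases α
    · simpa [h] using IsStarProjection.one _
    · simpa [h] using IsStarProjection.zero _

lemma muq_star_mul_proj (RS : Q → Bool) (q : Q) (α α' : Bool) :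
    IsStarProjection (star (muq RS q α α') * muq RS q α α') := by
  unfold muq
  by_cases h : RS q = true
  · simp only [h, if_true, star_kb]
    rw [kb_mul_kb, inner_self_eq_norm_sq_to_K, norm_e]
    simpa using kb_proj (norm_e _)
  · cases α <;> cases α'
    · simpa [h] using IsStarProjection.one _
    · simpa [h] using IsStarProjection.zero _
    · simpa [h] using IsStarProjection.zero _
    · simpa [h] using IsStarProjection.zero _

lemma muq_sum_diag (RS : Q → Bool) (q : Q) : ∑ α, muq RS q α α = 1 := by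
  by_cases h : RS q = true
  · ext a b
    simp only [Fintype.sum_bool, muq, h, if_true, Matrix.add_apply, kb_e_apply, Matrix.one_apply]
    cases a <;> cases b <;> simp
  · simp [Fintype.sum_bool, muq, h]

lemma MU_sum_diag (RS : Q → Bool) : ∑ a, MU RS a a = (1 : Op Q) := by
  unfold MU
  rw [← tp_sum (fun q α => muq RS q α α)]
  simp only [muq_sum_diag]
  exact tp_one

lemma MU_diag_proj (RS : Q → Bool) (a : Q → Bool) : IsStarProjection (MU RS a a) :=
  tp_proj fun q => muq_diag_proj RS q (a q)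

lemma sum_MU_norm (RS : Q → Bool) (Ω : Vec (Q → Bool)) :
    ∑ a, ‖act (MU RS a a) Ω‖ ^ 2 = ‖Ω‖ ^ 2 := by
  have h1 : ((∑ a, ‖act (MU RS a a) Ω‖ ^ 2 : ℝ) : ℂ) = ((‖Ω‖ ^ 2 : ℝ) : ℂ) := by
    push_cast
    have h2 : ∀ a, ((‖act (MU RS a a) Ω‖ : ℂ)) ^ 2 = ⟪Ω, act (MU RS a a) Ω⟫_ℂ := by
      intro a
      rw [HSys.norm_proj_sq (MU_diag_proj RS a)]
      push_cast
      rfl
    simp_rw [h2]
    rw [← inner_sum, ← HSys.act_sum', MU_sum_diag, act_one, inner_self_eq_norm_sq_to_K]
    rfl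
  exact_mod_cast h1

lemma norm_MU_le (RS : Q → Bool) (a a' : Q → Bool) (w : Vec (Q → Bool)) :
    ‖act (MU RS a a') w‖ ≤ ‖w‖ := by
  have hs : star (MU RS a a') * MU RS a a'
      = tp fun q => star (muq RS q (a q) (a' q)) * muq RS q (a q) (a' q) := by
    unfold MU
    rw [tp_star, tp_mul]
  have hp : IsStarProjection (star (MU RS a a') * MU RS a a') := by
    rw [hs]
    exact tp_proj fun q => muq_star_mul_proj RS q (a q) (a' q)
  have h1 := norm_act_sq (MU RS a a') w
  have h2 : (⟪w, act (star (MU RS a a') * MU RS a a') w⟫_ℂ).re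
      = ‖act (star (MU RS a a') * MU RS a a') w‖ ^ 2 := by
    rw [HSys.norm_proj_sq hp, Complex.ofReal_re]
  have h3 := norm_act_proj_le hp w
  have h4 : ‖act (MU RS a a') w‖ ^ 2 ≤ ‖w‖ ^ 2 := by
    rw [h1, h2]; exact h3
  exact le_of_pow_le_pow_left₀ two_ne_zero (norm_nonneg _) h4

lemma norm_inner_MU_le (RS : Q → Bool) (a a' : Q → Bool) (Ω : Vec (Q → Bool)) :
    ‖⟪Ω, act (MU RS a a') Ω⟫_ℂ‖ ≤ ‖act (MU RS a a) Ω‖ * ‖act (MU RS a' a') Ω‖ := by
  have h1 : MU RS a a * MU RS a a' = MU RS a a' := by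
    unfold MU
    rw [tp_mul]
    congr 1
    funext q
    exact muq_mul_left RS q _ _
  have h2 : MU RS a a' * MU RS a' a' = MU RS a a' := by
    unfold MU
    rw [tp_mul]
    congr 1
    funext q
    exact muq_mul_right RS q _ _
  have h3 : ⟪Ω, act (MU RS a a') Ω⟫_ℂ = ⟪act (MU RS a a) Ω, act (MU RS a a') Ω⟫_ℂ := by
    have h4 : ⟪act (MU RS a a) Ω, act (MU RS a a') Ω⟫_ℂ
        = ⟪Ω, act (MU RS a a) (act (MU RS a a') Ω)⟫_ℂ := by
      rw [inner_act (MU RS a a) Ω, (MU_diag_proj RS a).isSelfAdjoint.star_eq]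
    rw [h4, ← act_mul, h1]
  rw [h3]
  refine (norm_inner_le_norm _ _).trans ?_
  gcongr
  rw [← h2, act_mul]
  exact norm_MU_le RS a a' _

/-- The Hilbert-Schmidt norm of the reduced state. -/
theorem sum_inner_MU_sq (RS : Q → Bool) (Ω : Vec (Q → Bool)) :
    ∑ a, ∑ a', ‖⟪Ω, act (MU RS a a') Ω⟫_ℂ‖ ^ 2 ≤ (‖Ω‖ ^ 2) ^ 2 := by
  calc _ ≤ ∑ a, ∑ a', ‖act (MU RS a a) Ω‖ ^ 2 * ‖act (MU RS a' a') Ω‖ ^ 2 := by
        refine Finset.sum_le_sum fun a _ => Finset.sum_le_sum fun a' _ => ?_
        rw [← mul_pow]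
        gcongr
        exact norm_inner_MU_le RS a a' Ω
    _ = (∑ a, ‖act (MU RS a a) Ω‖ ^ 2) * ∑ a', ‖act (MU RS a' a') Ω‖ ^ 2 := by
        rw [Finset.sum_mul_sum]
    _ = _ := by rw [sum_MU_norm]; ring

/-- The Cauchy-Schwarz inequality for a double sum. -/
theorem cs_double {X : Type} [Fintype X] [DecidableEq X] (x z : X → X → ℂ) (B : ℝ) (hB : 0 ≤ B)
    (hz : ∑ a, ∑ a', ‖z a a'‖ ^ 2 ≤ B ^ 2) :
    ‖∑ a, ∑ a', x a a' * z a a'‖ ≤ Real.sqrt (∑ a, ∑ a', ‖x a a'‖ ^ 2) * B := by
  rw [← Finset.sum_product']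
  have h1 := Finset.sum_mul_sq_le_sq_mul_sq (Finset.univ ×ˢ Finset.univ : Finset (X × X))
    (fun p => ‖x p.1 p.2‖) (fun p => ‖z p.1 p.2‖)
  have hx : ∑ p ∈ (Finset.univ ×ˢ Finset.univ : Finset (X × X)), ‖x p.1 p.2‖ ^ 2
      = ∑ a, ∑ a', ‖x a a'‖ ^ 2 := Finset.sum_product' _ _ (fun a a' => ‖x a a'‖ ^ 2)
  have hzz : ∑ p ∈ (Finset.univ ×ˢ Finset.univ : Finset (X × X)), ‖z p.1 p.2‖ ^ 2
      = ∑ a, ∑ a', ‖z a a'‖ ^ 2 := Finset.sum_product' _ _ (fun a a' => ‖z a a'‖ ^ 2)
  rw [hx, hzz] at h1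
  have h2 : ‖∑ p ∈ (Finset.univ ×ˢ Finset.univ : Finset (X × X)), x p.1 p.2 * z p.1 p.2‖
      ≤ ∑ p ∈ (Finset.univ ×ˢ Finset.univ : Finset (X × X)), ‖x p.1 p.2‖ * ‖z p.1 p.2‖ :=
    (norm_sum_le _ _).trans (Finset.sum_le_sum fun p _ => by rw [norm_mul])
  refine h2.trans ?_
  have h3 : 0 ≤ ∑ a, ∑ a', ‖x a a'‖ ^ 2 := by positivity
  refine le_of_pow_le_pow_left₀ two_ne_zero (by positivity) ?_
  rw [mul_pow, Real.sq_sqrt h3]
  exact h1.trans (mul_le_mul_of_nonneg_left hz h3)

end Vale.Agent.Lib.P368
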